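import Vale.Agent.P032X.H892.BlkV
import Vale.Agent.P032X.H61.SymH

/-!
# P032: clauses about the numbers of colours of neighbours

* `Rdm` : the reading of the atoms of a model at all its points, `rdm_of`, `rdm_xT`,
* `N55 T` : no two points with at least five colours at distance one; `n55`, `n55C`, `n55_ho` : the clauses,
* `N54 T` : no point with at least four colours at distance one from a point with at least five; `n54C_ho`,
* `ND5 T` : next to a point with at least five colours a point with at most four colours does not show two disjoint pairs;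
  `harm`, `harmC`, `harm_ho`,
* `CQ`, `CW` : the classes of the blocks with a condition `Q` on the cover, `eW5` : at least five colours at point 1,
* `n55_of_dead`, `n54_of_dead` : the conclusions of the blocks.
-/

open Set Filter Topology Metric

noncomputable section

namespace Vale.Agent.P032.BlkE

open Vale.Agent.P032.Six Vale.Agent.P032.Words Vale.Agent.P032.S5.H767
  Vale.Agent.P032.H913 Vale.Agent.P032.H357 Vale.Agent.P032.H61 Vale.Agent.P032.BlkV
open Vale.Agent.P032.H357.MK (co no co_no co_surj no_co no_lt co_inj of6 ct6 fx0 cf al al_spec Tb nbeq Cn nC nC_eq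
  co_nC Yt hY_of_tchk mS xT XV LegX Qy)
open Vale.Agent.P032.H892 (cj cj_cj)
open Vale.Agent.P032.H820.K (a0 a1 a2 a3 a4 En en_eq dec Md av lv Ho ps ng lv_ps lv_ng nbf lb lb_iff hn hp trv ho_trv)

/-! ### the points of a model -/

/-- the reading of the atoms of a model -/
structure Rdm (NP NW TB : ℕ) (F : Fr) (M : Md 2 NP NW (nbf 2 TB)) (Y : ℕ → ℂ) (a : ℕ → ℝ) : Prop where
  nb : ∀ x < NP, ∀ t < 12, nbf 2 TB x t < NP → Y (nbf 2 TB x t) = Y x + dir (a t)
  t : ∀ x < NP, ∀ q, M.T x q ↔ co F.σ q ∈ F.T (Y x)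
  w : ∀ x < NW, ∀ t sd, co F.σ (M.W x t sd 0) ∈ F.T (Y x) → ∃ p, dist p (Y x) = 1 ∧
    F.T p = {co F.σ (M.W x t sd 0), co F.σ (M.W x t sd 1)}

section
variable {NP NW TB TC : ℕ} {B : Tb NP NW TB TC} {F : Fr} {M : Md 2 NP NW (nbf 2 TB)}

theorem rdm_of (hM : Mdl B F M) : ∃ Y a, Rdm NP NW TB F M Y a := by
  obtain ⟨hy, u, hu, s0, s1, L, R, S, e0, e1, rfl⟩ := hM
  have D := wd_wds S.h0 S.h1 S.hL S.hR
  refine ⟨Yt (t2 F.b u) 2 TC F.z, t2 F.b u, fun x hx t ht h1 => hY_of_tchk (tick_t2 hu) F.z B.ht x hx t ht h1,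
    fun x hx q => Iff.rfl, fun x hx t sd hw => ?_⟩
  have e : ∀ io, co F.σ ((mS hy B F.z F.σ hu S).W x t sd io) = wds s0 s1 L R ⟨x, hx⟩ t sd io := fun io => by
    show co F.σ (nC F.σ 2 NW (fun _ => wds s0 s1 L R) x t sd io) = _
    rw [nC_eq hx, co_no]
  rw [e, e]
  rw [e] at hw
  obtain ⟨τ, -, hI⟩ := (D.fam1 sd t).exists_at (P := fun _ => True) (Eventually.of_forall fun _ => trivial)
  have I := hI ⟨x, hx⟩
  have hm := hy.h.sub _ hw
  exact ⟨_, dist_pt _ _, I.pal_eq hy.h (I.ne hy.h (hy.ct _) hm) hm⟩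

theorem rdm_xT {Y : ℕ → ℂ} {a : ℕ → ℝ} {X : ℕ → ℕ → Prop} (h : Rdm NP NW TB F M Y a) :
    Rdm NP NW TB F (xT M X) Y a where
  nb := h.nb
  t := fun x hx q => by
    show (if x < NP then M.T x q else X x q) ↔ _
    rw [if_pos hx]
    exact h.t x hx q
  w := h.w

theorem rdm_X {XF : Fr → XV NW} (hM : MdlX B XF F M) : ∃ Y a, Rdm NP NW TB F M Y a := by
  obtain ⟨M0, X, h1, rfl⟩ := hM.base
  obtain ⟨Y, a, h2⟩ := rdm_of h1
  exact ⟨Y, a, rdm_xT h2⟩

end

/-! ### sets of colours -/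

theorem five_le {σ : Equiv.Perm (Fin 6)} {S : Set (Fin 6)} {m : ℕ} (h : ∀ q < 6, q ≠ m → co σ q ∈ S) :
    5 ≤ S.ncard := by
  have h1 : Sᶜ ⊆ {co σ m} := by
    intro i hi
    obtain ⟨q, hq, rfl⟩ := co_surj σ i
    rw [mem_singleton_iff]
    by_contra h2
    exact hi (h q hq fun e => h2 (by rw [e]))
  have h2 := Set.ncard_le_ncard h1 (Set.toFinite _)
  rw [Set.ncard_singleton] at h2
  have h3 := Set.ncard_add_ncard_compl S
  rw [Nat.card_eq_fintype_card, Fintype.card_fin] at h3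
  omega

theorem four_le {σ : Equiv.Perm (Fin 6)} {S : Set (Fin 6)} {m m' : ℕ}
    (h : ∀ q < 6, q ≠ m → q ≠ m' → co σ q ∈ S) : 4 ≤ S.ncard := by
  have h1 : Sᶜ ⊆ {co σ m, co σ m'} := by
    intro i hi
    obtain ⟨q, hq, rfl⟩ := co_surj σ i
    rw [mem_insert_iff, mem_singleton_iff]
    by_contra h2
    rw [not_or] at h2
    exact hi (h q hq (fun e => h2.1 (by rw [e])) fun e => h2.2 (by rw [e]))
  have h2 := Set.ncard_le_ncard h1 (Set.toFinite _)
  have h4 : ({co σ m, co σ m'} : Set (Fin 6)).ncard ≤ 2 := Set.ncard_insert_le _ _ |>.trans (by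
    rw [Set.ncard_singleton])
  have h3 := Set.ncard_add_ncard_compl S
  rw [Nat.card_eq_fintype_card, Fintype.card_fin] at h3
  omega

/-- the colour `q`, or another one if `q = m` -/
def sl (q m : ℕ) : ℕ := bif Nat.beq q m then (bif Nat.beq m 0 then 1 else 0) else q

theorem sl_ne {q m : ℕ} (h : q ≠ m) : sl q m = q := by
  unfold sl
  have : Nat.beq q m = false := by rw [← Bool.not_eq_true, nbeq]; exact h
  rw [this, cond_false]

/-- the colour `q`, or another one if `q = m` or `q = m'` -/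
def sl2 (q m m' : ℕ) : ℕ :=
  bif Nat.beq q m || Nat.beq q m' then
    (bif Nat.beq m 0 || Nat.beq m' 0 then (bif Nat.beq m 1 || Nat.beq m' 1 then 2 else 1) else 0) else q

theorem sl2_ne {q m m' : ℕ} (h : q ≠ m) (h' : q ≠ m') : sl2 q m m' = q := by
  unfold sl2
  have h1 : Nat.beq q m = false := by rw [← Bool.not_eq_true, nbeq]; exact h
  have h2 : Nat.beq q m' = false := by rw [← Bool.not_eq_true, nbeq]; exact h'
  rw [h1, h2, Bool.or_false, cond_false]

/-- five colours at the point `x`, without the colour `m`, negated, in front of the clause `c` -/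
def n5 (x m : ℕ) (c : List ℕ) : List ℕ :=
  ng (En 4 x 0 0 (sl 0 m)) :: ng (En 4 x 0 0 (sl 1 m)) :: ng (En 4 x 0 0 (sl 2 m)) :: ng (En 4 x 0 0 (sl 3 m)) ::
    ng (En 4 x 0 0 (sl 4 m)) :: ng (En 4 x 0 0 (sl 5 m)) :: c

/-- four colours at the point `x`, without the colours `m`, `m'`, negated, in front of the clause `c` -/
def n4 (x m m' : ℕ) (c : List ℕ) : List ℕ :=
  ng (En 4 x 0 0 (sl2 0 m m')) :: ng (En 4 x 0 0 (sl2 1 m m')) :: ng (En 4 x 0 0 (sl2 2 m m')) ::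
    ng (En 4 x 0 0 (sl2 3 m m')) :: ng (En 4 x 0 0 (sl2 4 m m')) :: ng (En 4 x 0 0 (sl2 5 m m')) :: c

section
variable {NP NW TB TC : ℕ} {F : Fr} {M : Md 2 NP NW (nbf 2 TB)} {Y : ℕ → ℂ} {a : ℕ → ℝ}

theorem Rdm.av4 (hM : Rdm NP NW TB F M Y a) {x q : ℕ} (hx : x < NP) (hq : q < 6) :
    av M (En 4 x 0 0 q) ↔ co F.σ q ∈ F.T (Y x) := by
  rw [H820.K.av4 (lt_of_lt_of_le hx M.hNP)]
  exact hM.t x hx q

theorem ho_n5 (hM : Rdm NP NW TB F M Y a) {x m : ℕ} (hx : x < NP) {c : List ℕ}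
    (h : 5 ≤ (F.T (Y x)).ncard → Ho M c) : Ho M (n5 x m c) := by
  unfold n5
  refine hn fun h0 => hn fun h1 => hn fun h2 => hn fun h3 => hn fun h4 => hn fun h5 => h (five_le (σ := F.σ) (m := m) ?_)
  intro q hq hqm
  rw [← hM.av4 hx hq]
  have e := sl_ne hqm
  interval_cases q
  · rw [e] at h0; exact h0
  · rw [e] at h1; exact h1
  · rw [e] at h2; exact h2
  · rw [e] at h3; exact h3
  · rw [e] at h4; exact h4
  · rw [e] at h5; exact h5

theorem ho_n4 (hM : Rdm NP NW TB F M Y a) {x m m' : ℕ} (hx : x < NP) {c : List ℕ}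
    (h : 4 ≤ (F.T (Y x)).ncard → Ho M c) : Ho M (n4 x m m' c) := by
  unfold n4
  refine hn fun h0 => hn fun h1 => hn fun h2 => hn fun h3 => hn fun h4 => hn fun h5 =>
    h (four_le (σ := F.σ) (m := m) (m' := m') ?_)
  intro q hq hqm hqm'
  rw [← hM.av4 hx hq]
  have e := sl2_ne hqm hqm'
  interval_cases q
  · rw [e] at h0; exact h0
  · rw [e] at h1; exact h1
  · rw [e] at h2; exact h2
  · rw [e] at h3; exact h3
  · rw [e] at h4; exact h4
  · rw [e] at h5; exact h5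

end

/-! ### conditions on the cover -/

/-- no two points with at least five colours at distance one -/
def N55 (T : ℂ → Set (Fin 6)) : Prop := ∀ x y, dist x y = 1 → 5 ≤ (T x).ncard → 5 ≤ (T y).ncard → False

/-- no point with at least four colours at distance one from a point with at least five -/
def N54 (T : ℂ → Set (Fin 6)) : Prop := ∀ x y, dist x y = 1 → 5 ≤ (T x).ncard → 4 ≤ (T y).ncard → False

/-- a point with at most four colours at distance one from a point with at least five does not show two disjoint pairs -/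
def ND5 (T : ℂ → Set (Fin 6)) : Prop := ∀ x y, dist x y = 1 → 5 ≤ (T x).ncard → (T y).ncard ≤ 4 →
  ∀ p q, dist p y = 1 → dist q y = 1 → T p ⊆ T y → T q ⊆ T y → (T p).ncard = 2 → (T q).ncard = 2 →
    Disjoint (T p) (T q) → False

/-- the condition is invariant under the reflection -/
def Inv (Q : (ℂ → Set (Fin 6)) → Prop) : Prop := ∀ T, Q T → Q (mT T)

theorem cj_dist (x y : ℂ) : dist (cj x) (cj y) = dist x y := cj.dist_eq x y

theorem inv_true : Inv fun _ => True := fun _ h => h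

theorem inv_n55 : Inv N55 := fun T h x y hxy h1 h2 => h (cj x) (cj y) (by rw [cj_dist]; exact hxy) h1 h2

theorem inv_n54 : Inv N54 := fun T h x y hxy h1 h2 => h (cj x) (cj y) (by rw [cj_dist]; exact hxy) h1 h2

theorem inv_nd5 : Inv ND5 := fun T h x y hxy h1 h2 p q hp hq h3 h4 h5 h6 h7 =>
  h (cj x) (cj y) (by rw [cj_dist]; exact hxy) h1 h2 (cj p) (cj q) (by rw [cj_dist]; exact hp)
    (by rw [cj_dist]; exact hq) h3 h4 h5 h6 h7

theorem inv_and {Q Q' : (ℂ → Set (Fin 6)) → Prop} (h : Inv Q) (h' : Inv Q') : Inv fun T => Q T ∧ Q' T :=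
  fun T hT => ⟨h T hT.1, h' T hT.2⟩

/-! ### the clauses -/

section
variable {NP NW TB TC : ℕ} {F : Fr} {M : Md 2 NP NW (nbf 2 TB)} {Y : ℕ → ℂ} {a : ℕ → ℝ}

/-- not five colours at `x` and five colours at the neighbour in the direction `s` -/
def n55 (TB x s m m' : ℕ) : List ℕ := n5 x m (n5 (nbf 2 TB x s) m' [])

/-- not five colours at `x` and four colours at the neighbour in the direction `s` -/
def n54 (TB x s m e f : ℕ) : List ℕ := n5 x m (n4 (nbf 2 TB x s) e f [])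

theorem Rdm.dist (hM : Rdm NP NW TB F M Y a) {x s : ℕ} (hx : x < NP) (hs : s < 12) (h : nbf 2 TB x s < NP) :
    dist (Y x) (Y (nbf 2 TB x s)) = 1 := by
  rw [hM.nb x hx s hs h, dist_comm, dist_eq_norm, add_sub_cancel_left]
  exact norm_dir _

theorem ho_n55 (hM : Rdm NP NW TB F M Y a) (h : N55 F.T) {x s m m' : ℕ} (hx : x < NP) (hs : s < 12)
    (hn' : nbf 2 TB x s < NP) : Ho M (n55 TB x s m m') :=
  ho_n5 hM hx fun h1 => ho_n5 hM hn' fun h2 => (h _ _ (hM.dist hx hs hn') h1 h2).elim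

theorem ho_n54 (hM : Rdm NP NW TB F M Y a) (h : N54 F.T) {x s m e f : ℕ} (hx : x < NP) (hs : s < 12)
    (hn' : nbf 2 TB x s < NP) : Ho M (n54 TB x s m e f) :=
  ho_n5 hM hx fun h1 => ho_n4 hM hn' fun h2 => (h _ _ (hM.dist hx hs hn') h1 h2).elim

/-- the code `x + 256 s + 4096 m + 32768 m'` -/
def n55C (NP TB n : ℕ) : List ℕ :=
  bif lb (Nat.land n 255) NP && (lb (Nat.land (Nat.shiftRight n 8) 15) 12 &&
      lb (nbf 2 TB (Nat.land n 255) (Nat.land (Nat.shiftRight n 8) 15)) NP) then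
    n55 TB (Nat.land n 255) (Nat.land (Nat.shiftRight n 8) 15) (Nat.land (Nat.shiftRight n 12) 7)
      (Nat.land (Nat.shiftRight n 15) 7)
  else trv

theorem n55C_ho (hM : Rdm NP NW TB F M Y a) (h : N55 F.T) (n : ℕ) : Ho M (n55C NP TB n) := by
  unfold n55C
  generalize Nat.land n 255 = x
  generalize Nat.land (Nat.shiftRight n 8) 15 = s
  cases h1 : lb x NP && (lb s 12 && lb (nbf 2 TB x s) NP)
  · rw [cond_false]; exact ho_trv M
  · rw [cond_true]
    rw [Bool.and_eq_true, Bool.and_eq_true, lb_iff, lb_iff, lb_iff] at h1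
    exact ho_n55 hM h h1.1 h1.2.1 h1.2.2

/-- the code `x + 256 s + 4096 m + 32768 e + 262144 f` -/
def n54C (NP TB n : ℕ) : List ℕ :=
  bif lb (Nat.land n 255) NP && (lb (Nat.land (Nat.shiftRight n 8) 15) 12 &&
      lb (nbf 2 TB (Nat.land n 255) (Nat.land (Nat.shiftRight n 8) 15)) NP) then
    n54 TB (Nat.land n 255) (Nat.land (Nat.shiftRight n 8) 15) (Nat.land (Nat.shiftRight n 12) 7)
      (Nat.land (Nat.shiftRight n 15) 7) (Nat.land (Nat.shiftRight n 18) 7)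
  else trv

theorem n54C_ho (hM : Rdm NP NW TB F M Y a) (h : N54 F.T) (n : ℕ) : Ho M (n54C NP TB n) := by
  unfold n54C
  generalize Nat.land n 255 = x
  generalize Nat.land (Nat.shiftRight n 8) 15 = s
  cases h1 : lb x NP && (lb s 12 && lb (nbf 2 TB x s) NP)
  · rw [cond_false]; exact ho_trv M
  · rw [cond_true]
    rw [Bool.and_eq_true, Bool.and_eq_true, lb_iff, lb_iff, lb_iff] at h1
    exact ho_n54 hM h h1.1 h1.2.1 h1.2.2

/-- the letter `i`, `j` of the point `x` in the direction `t`, side `sd`, negated, in front of the clause `c` -/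
def nl (x t sd i j : ℕ) (c : List ℕ) : List ℕ :=
  ng (En 9 x t (Nat.mul 2 sd) i) :: ng (En 9 x t (Nat.succ (Nat.mul 2 sd)) j) :: ng (En 4 x 0 0 i) ::
    ng (En 4 x 0 0 j) :: c

/-- the point `x` has not the letters `i j` and `k l` and the palette `i j k l` only, if the neighbour in the direction
`s` has five colours -/
def harm (TB x s m t sd t' sd' i j k l e f : ℕ) : List ℕ :=
  n5 (nbf 2 TB x s) m (nl x t sd i j (nl x t' sd' k l [ps (En 4 x 0 0 e), ps (En 4 x 0 0 f)]))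

theorem ho_nl (hM : Rdm NP NW TB F M Y a) (hNW : NW ≤ NP) {x t sd i j : ℕ} (hx : x < NW) (ht : t < 12) (hs : sd < 2)
    (hi : i < 6) (hj : j < 6) {c : List ℕ}
    (h : ∀ p, dist p (Y x) = 1 → F.T p = {co F.σ i, co F.σ j} → F.T p ⊆ F.T (Y x) → Ho M c) : Ho M (nl x t sd i j c) := by
  have hx' : x < NP := lt_of_lt_of_le hx hNW
  have hx4 : x < 4096 := lt_of_lt_of_le hx' M.hNP
  unfold nl
  refine hn fun h0 => hn fun h1 => hn fun h2 => hn fun h3 => ?_
  rw [H820.K.av9a M hx4 (by omega) hs] at h0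
  rw [H820.K.av9b M hx4 (by omega) hs] at h1
  rw [hM.av4 hx' hi] at h2
  rw [hM.av4 hx' hj] at h3
  obtain ⟨p, h4, h5⟩ := hM.w x hx t sd (by rw [h0]; exact h2)
  rw [h0, h1] at h5
  refine h p h4 h5 ?_
  rw [h5]
  rintro c (rfl | rfl)
  · exact h2
  · exact h3

theorem ho_harm (hM : Rdm NP NW TB F M Y a) (h : ND5 F.T) (hNW : NW ≤ NP) {x s m t sd t' sd' i j k l e f : ℕ}
    (hx : x < NW) (hs : s < 12) (hy : nbf 2 TB x s < NP) (ht : t < 12) (hsd : sd < 2) (ht' : t' < 12) (hsd' : sd' < 2)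
    (hi : i < 6) (hj : j < 6) (hk : k < 6) (hl : l < 6) (he : e < 6) (hf : f < 6) (hij : i ≠ j) (hkl : k ≠ l)
    (hik : i ≠ k) (hil : i ≠ l) (hjk : j ≠ k) (hjl : j ≠ l) (hef : e ≠ f) :
    Ho M (harm TB x s m t sd t' sd' i j k l e f) := by
  have hx' : x < NP := lt_of_lt_of_le hx hNW
  refine ho_n5 hM hy fun h5 => ho_nl hM hNW hx ht hsd hi hj fun p hp1 hp2 hp3 =>
    ho_nl hM hNW hx ht' hsd' hk hl fun q hq1 hq2 hq3 => ?_
  by_cases g1 : co F.σ e ∈ F.T (Y x)
  · exact hp ((hM.av4 hx' he).2 g1)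
  by_cases g2 : co F.σ f ∈ F.T (Y x)
  · exact H820.K.ht (hp ((hM.av4 hx' hf).2 g2))
  exfalso
  have h6 : (F.T (Y x)).ncard ≤ 4 := by
    have h1 : ({co F.σ e, co F.σ f} : Set (Fin 6)) ⊆ (F.T (Y x))ᶜ := by
      rintro c (rfl | rfl)
      · exact g1
      · exact g2
    have h2 := Set.ncard_le_ncard h1 (Set.toFinite _)
    rw [Set.ncard_pair fun h => hef (co_inj F.σ he hf h)] at h2
    have h3 := Set.ncard_add_ncard_compl (F.T (Y x))
    rw [Nat.card_eq_fintype_card, Fintype.card_fin] at h3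
    omega
  refine h _ (Y x) (by rw [dist_comm]; exact hM.dist hx' hs hy) h5 h6 p q hp1 hq1 hp3 hq3 ?_ ?_ ?_
  · rw [hp2, Set.ncard_pair fun h => hij (co_inj F.σ hi hj h)]
  · rw [hq2, Set.ncard_pair fun h => hkl (co_inj F.σ hk hl h)]
  · rw [hp2, hq2, Set.disjoint_left]
    rintro c (rfl | rfl) (h1 | h1)
    · exact hik (co_inj F.σ hi hk h1)
    · exact hil (co_inj F.σ hi hl h1)
    · exact hjk (co_inj F.σ hj hk h1)
    · exact hjl (co_inj F.σ hj hl h1)

/-- the code `x + 2^8 s + 2^12 m + 2^15 t + 2^19 sd + 2^20 t' + 2^24 sd' + 2^25 cp`, `cp` the permutation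
`i, j, k, l, e, f` -/
def harmC (NP NW TB n : ℕ) : List ℕ :=
  bif (lb (Nat.land n 255) NW && (lb (Nat.land (Nat.shiftRight n 8) 15) 12 &&
      lb (nbf 2 TB (Nat.land n 255) (Nat.land (Nat.shiftRight n 8) 15)) NP)) &&
      ((lb (Nat.land (Nat.shiftRight n 15) 15) 12 && lb (Nat.land (Nat.shiftRight n 20) 15) 12) &&
        isPm (Nat.land (Nat.shiftRight n 25) 262143)) then
    harm TB (Nat.land n 255) (Nat.land (Nat.shiftRight n 8) 15) (Nat.land (Nat.shiftRight n 12) 7)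
      (Nat.land (Nat.shiftRight n 15) 15) (Nat.land (Nat.shiftRight n 19) 1)
      (Nat.land (Nat.shiftRight n 20) 15) (Nat.land (Nat.shiftRight n 24) 1)
      (cpf (Nat.land (Nat.shiftRight n 25) 262143) 0) (cpf (Nat.land (Nat.shiftRight n 25) 262143) 1)
      (cpf (Nat.land (Nat.shiftRight n 25) 262143) 2) (cpf (Nat.land (Nat.shiftRight n 25) 262143) 3)
      (cpf (Nat.land (Nat.shiftRight n 25) 262143) 4) (cpf (Nat.land (Nat.shiftRight n 25) 262143) 5)
  else trv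

theorem pn_ne (π : Equiv.Perm (Fin 6)) {p q : ℕ} (hp : p < 6) (hq : q < 6) (h : p ≠ q) : pn π p ≠ pn π q := by
  intro h1
  have h2 := π.injective (Fin.ext h1)
  have h3 : p % 6 = q % 6 := congrArg Fin.val h2
  omega

theorem land_one (n : ℕ) : Nat.land n 1 < 2 := by
  have h : Nat.land n 1 = n % 2 := Nat.and_one_is_mod n
  rw [h]
  exact Nat.mod_lt _ (by norm_num)

theorem harmC_ho (hM : Rdm NP NW TB F M Y a) (h : ND5 F.T) (hNW : NW ≤ NP) (n : ℕ) : Ho M (harmC NP NW TB n) := by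
  unfold harmC
  generalize Nat.land n 255 = x
  generalize Nat.land (Nat.shiftRight n 8) 15 = s
  generalize Nat.land (Nat.shiftRight n 15) 15 = t
  generalize Nat.land (Nat.shiftRight n 20) 15 = t'
  generalize Nat.land (Nat.shiftRight n 25) 262143 = cp
  have hsd := land_one (Nat.shiftRight n 19)
  have hsd' := land_one (Nat.shiftRight n 24)
  generalize Nat.land (Nat.shiftRight n 19) 1 = sd at *
  generalize Nat.land (Nat.shiftRight n 24) 1 = sd' at *
  cases h1 : (lb x NW && (lb s 12 && lb (nbf 2 TB x s) NP)) && ((lb t 12 && lb t' 12) && isPm cp)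
  · rw [cond_false]; exact ho_trv M
  · rw [cond_true]
    rw [Bool.and_eq_true, Bool.and_eq_true, Bool.and_eq_true, Bool.and_eq_true, Bool.and_eq_true, lb_iff, lb_iff,
      lb_iff, lb_iff, lb_iff] at h1
    obtain ⟨⟨hx, hs, hy⟩, ⟨ht, ht'⟩, hcp⟩ := h1
    obtain ⟨π, hπ⟩ := exists_pm hcp
    rw [← hπ 0 (by norm_num), ← hπ 1 (by norm_num), ← hπ 2 (by norm_num), ← hπ 3 (by norm_num), ← hπ 4 (by norm_num),
      ← hπ 5 (by norm_num)]
    exact ho_harm hM h hNW hx hs hy ht hsd ht' hsd' (pn_lt π 0) (pn_lt π 1) (pn_lt π 2) (pn_lt π 3) (pn_lt π 4)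
      (pn_lt π 5) (pn_ne π (by norm_num) (by norm_num) (by norm_num)) (pn_ne π (by norm_num) (by norm_num) (by norm_num))
      (pn_ne π (by norm_num) (by norm_num) (by norm_num)) (pn_ne π (by norm_num) (by norm_num) (by norm_num))
      (pn_ne π (by norm_num) (by norm_num) (by norm_num)) (pn_ne π (by norm_num) (by norm_num) (by norm_num))
      (pn_ne π (by norm_num) (by norm_num) (by norm_num))

end

/-! ### classes of frames -/

/-- frames with `n` colours at the centre and the condition `Q` -/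
structure CQ (Q : (ℂ → Set (Fin 6)) → Prop) (n NW TC : ℕ) (F : Fr) : Prop where
  cn : CN n NW TC F
  q : Q F.T

/-- frames with `n` colours at the centre, the condition `Q`, at least `k` colours at the point in the direction `b` -/
structure CW (Q : (ℂ → Set (Fin 6)) → Prop) (n k NW TC : ℕ) (F : Fr) : Prop where
  cq : CQ Q n NW TC F
  v : k ≤ (F.T (pt F.z F.b)).ncard

section
variable {n k NP NW TB TC : ℕ} {tab : ℕ → ℕ → ℕ} {F : Fr} {Q : (ℂ → Set (Fin 6)) → Prop}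

theorem CQ.rot (t : Tabs (kap TC) (Gp NP TC) (Ce NW TC) tab) (hNW : NW ≤ NP) (h : CQ Q n NW TC F) :
    CQ Q n NW TC (F.rot (tab 1)) := ⟨h.cn.rot t hNW, h.q⟩

theorem CQ.mir (hQ : Inv Q) (t : Tabs (kap TC) (Gp NP TC) (Ce NW TC) tab) (hNW : NW ≤ NP) (h : CQ Q n NW TC F) :
    CQ Q n NW TC (F.mir (tab 6)) := ⟨h.cn.mir t hNW, hQ _ h.q⟩

theorem CQ.col (h : CQ Q n NW TC F) (π : Equiv.Perm (Fin 6)) (hπ : ∀ q < 6, (pn π q < n ↔ q < n)) :
    CQ Q n NW TC (F.col π) := ⟨h.cn.col π hπ, h.q⟩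

theorem CW.mir (hQ : Inv Q) (t : Tabs (kap TC) (Gp NP TC) (Ce NW TC) tab) (hNW : NW ≤ NP) (h : CW Q n k NW TC F) :
    CW Q n k NW TC (F.mir (tab 6)) := by
  refine ⟨h.cq.mir hQ t hNW, ?_⟩
  show k ≤ (F.T (cj (pt (cj F.z) (-F.b)))).ncard
  rw [cj_ptx, cj_cj, neg_neg]
  exact h.v

theorem CW.col (h : CW Q n k NW TC F) (π : Equiv.Perm (Fin 6)) (hπ : ∀ q < 6, (pn π q < n ↔ q < n)) :
    CW Q n k NW TC (F.col π) := ⟨h.cq.col π hπ, h.v⟩

theorem okPTQ_of {PT NPM : ℕ} (h : okN n PT NPM = true) : OkPT (CQ Q n NW TC) PT NPM := by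
  intro i hi
  obtain ⟨π, h1, h2⟩ := okN_spec h hi
  exact ⟨π, h1, fun F hF => hF.col π h2⟩

theorem okPTW_of {PT NPM : ℕ} (h : okN n PT NPM = true) : OkPT (CW Q n k NW TC) PT NPM := by
  intro i hi
  obtain ⟨π, h1, h2⟩ := okN_spec h hi
  exact ⟨π, h1, fun F hF => hF.col π h2⟩

theorem CW.cv (h : CW Q n 4 NW TC F) : CV n NW TC F := ⟨h.cq.cn, h.v⟩

variable {B : Tb NP NW TB TC} {M : Md 2 NP NW (nbf 2 TB)}

/-- the point number 1 has at least five colours -/
def eV5 : List (List ℕ) :=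
  ([(0, 1), (0, 2), (0, 3), (0, 4), (0, 5), (1, 2), (1, 3), (1, 4), (1, 5), (2, 3), (2, 4), (2, 5), (3, 4), (3, 5),
    (4, 5)] : List (ℕ × ℕ)).map (fun t => [ps (En 4 1 0 0 t.1), ps (En 4 1 0 0 t.2)]) ++ [[ps (En 6 1 0 0 0)]]

theorem pair_T {S : Set (Fin 6)} (h : 5 ≤ S.ncard) (σ : Equiv.Perm (Fin 6)) {p q : ℕ} (hpq : p < q) (hq : q < 6) :
    co σ p ∈ S ∨ co σ q ∈ S := by
  by_contra hc
  push Not at hc
  have h1 : ({co σ p, co σ q} : Set (Fin 6)) ⊆ Sᶜ := by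
    rintro i (rfl | rfl)
    · exact hc.1
    · exact hc.2
  have h2 := Set.ncard_le_ncard h1 (Set.toFinite _)
  rw [Set.ncard_pair fun e => by have := co_inj σ (by omega) hq e; omega] at h2
  have h4 := Set.ncard_add_ncard_compl S
  rw [Nat.card_eq_fintype_card, Fintype.card_fin] at h4
  omega

theorem eV5_ho (h1 : kap TC 1 = (1, 0)) (hg : Gp NP TC 1) (hF : CW Q n 5 NW TC F) (hM : Mdl B F M) :
    ∀ c ∈ eV5, Ho M c := by
  intro c hc
  unfold eV5 at hc
  rcases List.mem_append.1 hc with hc | hc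
  · obtain ⟨t, ht, rfl⟩ := List.mem_map.1 hc
    have g : t.1 < t.2 ∧ t.2 < 6 := by
      revert t
      decide
    rcases pair_T hF.v F.σ g.1 g.2 with h2 | h2
    · refine ⟨_, List.mem_cons_self .., ?_⟩
      rw [lv_ps, av_t hM hg (by omega), P_one h1]
      exact h2
    · refine ⟨_, List.mem_cons_of_mem _ (List.mem_cons_self ..), ?_⟩
      rw [lv_ps, av_t hM hg g.2, P_one h1]
      exact h2
  · rw [List.mem_singleton.1 hc]
    refine ⟨_, List.mem_singleton_self _, ?_⟩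
    rw [lv_ps, av_x hM hg, P_one h1]
    exact hF.cq.cn.ok.irr.XX_of_four (le_trans (by norm_num) hF.v)

end

/-! ### the conclusions -/

/-- **no point with `n` colours at distance one from a point with at least `k` colours** -/
theorem no_pair {Q : (ℂ → Set (Fin 6)) → Prop} {n k NW TC : ℕ} (hD : Dead (kap TC) (CW Q n k NW TC) [])
    {U : Fin 6 → Set ℂ} {T : ℂ → Set (Fin 6)} (h : Irr U T) (hl : LF3 U T) (hc : ∀ y, Ctn U T y) (hn : Ln U T)
    (h5 : ∀ y, (T y).ncard ≤ 5) (hQ : Q T) {z v : ℂ} (hzv : dist v z = 1) (hz : (T z).ncard = n)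
    (hv : k ≤ (T v).ncard) : False := by
  obtain ⟨b, hb⟩ := exists_pt hzv
  obtain ⟨σ, hσ⟩ := exists_num (T z)
  obtain ⟨F, hF, e1, e2, e3, e4, e5⟩ := exists_fr (NW := NW) (TC := TC) h hl hc hn h5 z b σ
  refine hD F ⟨⟨⟨hF, fun q hq => ?_⟩, ?_⟩, ?_⟩ fun l hl => absurd hl List.not_mem_nil
  · rw [e2, e3, e5, hσ q hq, hz]
  · rw [e2]
    exact hQ
  · rw [e2, e3, e4, hb]
    exact hv

section
variable {NW TC : ℕ} {U : Fin 6 → Set ℂ} {T : ℂ → Set (Fin 6)}

/-- **block X1** -/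
theorem n55_of_dead (hD : Dead (kap TC) (CW (fun _ => True) 5 5 NW TC) []) (h : Irr U T) (hl : LF3 U T)
    (hc : ∀ y, Ctn U T y) (hn : Ln U T) (h5 : ∀ y, (T y).ncard ≤ 5) : N55 T := fun x y hxy h1 h2 =>
  no_pair hD h hl hc hn h5 trivial (by rw [dist_comm]; exact hxy) (le_antisymm (h5 x) h1) h2

/-- **block X3** -/
theorem n54_of_dead (hD : Dead (kap TC) (CW (fun T => N55 T ∧ ND5 T) 5 4 NW TC) []) (h : Irr U T) (hl : LF3 U T)
    (hc : ∀ y, Ctn U T y) (hn : Ln U T) (h5 : ∀ y, (T y).ncard ≤ 5) (h55 : N55 T) (hnd : ND5 T) : N54 T :=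
  fun x y hxy h1 h2 =>
    no_pair hD h hl hc hn h5 ⟨h55, hnd⟩ (by rw [dist_comm]; exact hxy) (le_antisymm (h5 x) h1) h2

end

/-! ### queries with four sources of clauses -/

/-- the clauses of a query of level 2: base clauses and units, images of the patterns of `t1`, a function -/
def mX2 (e : List (List ℕ)) (P : List ℕ) (t1 : PTr) (PT NPM TG : ℕ) (f : ℕ → List ℕ) : ℕ → List ℕ :=
  sel4 (bsC e P) (imT gA t1 PT NPM TG) f (fun _ => trv)

/-- the clauses of a master: base clauses and units, images of the patterns of `t1`, a function, images of the patterns of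
`t2` under the reflection which fixes `b` -/
def mX3 (e : List (List ℕ)) (P : List ℕ) (t1 t2 : PTr) (PT NPM PT' NPM' TG : ℕ) (f : ℕ → List ℕ) : ℕ → List ℕ :=
  sel4 (bsC e P) (imT gA t1 PT NPM TG) f (imT gS t2 PT' NPM' TG)

section
variable {NP NW TB TC TG : ℕ}

theorem dead_X2 (B : Tb NP NW TB TC) (hT : gchk NP NW TC TG = true) {C C' : Fr → Prop}
    (hOk : ∀ F, C' F → FOk (kap TC) (cxv NW TC) F) (hCC : ∀ F, C' F → C F) (hCr : ∀ F, C F → C (F.rot (ptb TG 1)))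
    (hCm : ∀ F, C F → C (F.mir (ptb TG 6))) {PT NPM : ℕ} (hPT : OkPT C PT NPM) {t1 : PTr}
    (ht1 : t1.All fun p => Dead (kap TC) C (pk p) ∧ Vl (Gp NP TC) (Ce NW TC) (pk p))
    {e : List (List ℕ)} (he : ∀ F M, C' F → Mdl B F M → ∀ c ∈ e, Ho M c) {f : ℕ → List ℕ}
    (hf : ∀ F M, C' F → Mdl B F M → ∀ c, Ho M (f c)) {P : List ℕ}
    (hv : Vl (Gp NP TC) (Ce NW TC) P) {cs : List ℕ}
    (hq : Qy NP NW TB (cs.map (mX2 e P t1 PT NPM TG f))) : Dead (kap TC) C' P := by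
  have t := tabs_of_gchk B.hNP B.hNW hT
  refine dead_Q B hOk hv (fun F M hF hM hP => ?_) hq
  exact sel4_ho (bsC_ho (he F M hF hM) hP) (imT_ho t hM (hCC F hF) (gA_ok t hCr hCm) hPT ht1) (hf F M hF hM)
    fun _ => ho_trv M

theorem dead_X3 (B : Tb NP NW TB TC) (hT : gchk NP NW TC TG = true) {C C' C'' : Fr → Prop}
    (hOk : ∀ F, C'' F → FOk (kap TC) (cxv NW TC) F)
    (hCC : ∀ F, C'' F → C F) (hCC' : ∀ F, C'' F → C' F) (hCr : ∀ F, C F → C (F.rot (ptb TG 1)))
    (hCm : ∀ F, C F → C (F.mir (ptb TG 6))) (hCm' : ∀ F, C' F → C' (F.mir (ptb TG 6)))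
    {PT NPM PT' NPM' : ℕ} (hPT : OkPT C PT NPM) (hPT' : OkPT C' PT' NPM') {t1 t2 : PTr}
    (ht1 : t1.All fun p => Dead (kap TC) C (pk p) ∧ Vl (Gp NP TC) (Ce NW TC) (pk p))
    (ht2 : t2.All fun p => Dead (kap TC) C' (pk p) ∧ Vl (Gp NP TC) (Ce NW TC) (pk p))
    {e : List (List ℕ)} (he : ∀ F M, C'' F → Mdl B F M → ∀ c ∈ e, Ho M c) {f : ℕ → List ℕ}
    (hf : ∀ F M, C'' F → Mdl B F M → ∀ c, Ho M (f c)) {P : List ℕ}
    (hv : Vl (Gp NP TC) (Ce NW TC) P) {cs : List ℕ}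
    (hq : Qy NP NW TB (cs.map (mX3 e P t1 t2 PT NPM PT' NPM' TG f))) : Dead (kap TC) C'' P := by
  have t := tabs_of_gchk B.hNP B.hNW hT
  refine dead_Q B hOk hv (fun F M hF hM hP => ?_) hq
  exact sel4_ho (bsC_ho (he F M hF hM) hP) (imT_ho t hM (hCC F hF) (gA_ok t hCr hCm) hPT ht1) (hf F M hF hM)
    (imT_ho t hM (hCC' F hF) (gS_ok t hCm') hPT' ht2)

end

end Vale.Agent.P032.BlkE
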