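import Vale.Agent.P032X.H355.Crit

/-!
# P032: a frame which keeps the colours at finitely many points of a planar map

`GMax.exists_red_j`: the reduced family with a locally finite family of marked points.
`Base.exists_marked`: if the points of the finite set `P` see the closures of all open sets `V i` of
a map at distance one and are no inner points of edges, there is a connected frame `U`, `T` above
the `V i` in which `T p` contains the given colours `C p` at `p`, for all `p` in `P`.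
`PlMap.exists_marked`: the same for the faces of a planar map and all colours at the points.
`PlMap.pair_of`: if no connected frame has a five-coloured point at distance one from a point with
at least four colours, and none has a six-coloured point, then for two points `x`, `y` of a
six-coloured planar map at distance one: one of them does not see all colours at distance one, or
at most four colours meet at `x`, or at most three colours meet at `y`.
-/

open Set Filter Topology Metric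

noncomputable section

namespace Vale.Agent.P032.H892

open Vale.Agent.P032.Six Vale.Agent.P032.H355

/-- the reduced family with marked points -/
theorem GMax.exists_red_j {ι J : Type*} {k : ℕ} {g : ι → ℝ → ℂ} {pal : ι → Set (Fin k)}
    {V U : Fin k → Set ℂ} {K : ι → Set ℝ} {S : ι → Set ℝ} (h : GMax g pal V U)
    (hb : Base g pal V) (hs : Seg g U K) (hS : ∀ e, Mks g U e (S e))
    {w : J → ℂ} {e : J → Fin k} (hDc : IsClosed (XX U ∪ range w)) (hwV : ∀ j, w j ∈ V (e j))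
    (hiso : ∀ j, ∀ᶠ y in 𝓝 (w j), ∀ j', w j' = y → j' = j)
    (hall : ∀ x ∈ XX U, ∀ᶠ y in 𝓝 x, ∀ j, w j = y → e j ∈ BB g pal U x) :
    ∃ R : Fin k → Set ℂ, (∀ i, IsOpen (R i)) ∧ (∀ i, R i ⊆ Uo g V U S i) ∧
      (∀ v, v ∉ XX U → ∃ i, v ∈ R i) ∧
      (∀ x ∈ XX U, ∀ i, x ∈ closure (R i) → i ∈ BB g pal U x) ∧
      ∀ j, ∀ i, w j ∈ closure (R i) → i = e j := by
  classical
  have hwX : ∀ n, w n ∉ XX U := fun n hn => hn (e n) (h.sub (e n) (hwV n))
  have hinj : ∀ n m, w m = w n → m = n := fun n m hmn => (hiso n).self_of_nhds m hmn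
  set D : Set ℂ := XX U ∪ range w with hD
  set B : ℂ → Set (Fin k) := fun x => {i | (x ∈ XX U → i ∈ BB g pal U x) ∧ ∀ n, w n = x → i = e n}
    with hB
  have hBX : ∀ x ∈ XX U, B x = BB g pal U x := by
    intro x hx
    ext i
    exact ⟨fun hi => hi.1 hx, fun hi => ⟨fun _ => hi, fun n hn => absurd (hn ▸ hx) (hwX n)⟩⟩
  have hBw : ∀ n, B (w n) = {e n} := by
    intro n
    ext i
    refine ⟨fun hi => hi.2 n rfl, fun hi => ⟨fun hn => absurd hn (hwX n), fun m hm => ?_⟩⟩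
    rw [hinj n m hm]
    exact hi
  have hnearw : ∀ n, ∀ᶠ y in 𝓝 (w n), y ∈ D → y = w n := by
    intro n
    filter_upwards [h.isClosed_XX.isOpen_compl.mem_nhds (hwX n), hiso n] with y hy1 hy2 hyD
    rcases hyD with hyD | ⟨m, rfl⟩
    · exact absurd hyD hy1
    · rw [hy2 m rfl]
  obtain ⟨R, h1, h2, h3, h4, -⟩ := exists_shrink h.isClosed_XX hDc (Uo g V U S)
    (fun i => isOpen_mk (h.isOpen i)) (fun v hv => h.cov_o hb hS hv) B
    (fun x hx => by
      rcases hx with hx | ⟨n, rfl⟩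
      · rw [hBX x hx]
        filter_upwards [hall x hx, hs.usc h hb (Or.inl hx)] with y hy1 hy2 hyD
        rcases hyD with hyD | ⟨n, rfl⟩
        · rw [hBX y hyD]
          exact hy2 (Or.inl hyD)
        · rw [hBw n]
          rintro i rfl
          exact hy1 n rfl
      · filter_upwards [hnearw n] with y hy hyD
        rw [hy hyD])
    (fun x hx hxX => by
      rcases hx with hx | ⟨n, rfl⟩
      · exact absurd hx hxX
      · filter_upwards [hnearw n] with y hy hyD
        rw [hy hyD])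
    (fun x hx => by
      rcases hx with hx | ⟨n, rfl⟩
      · rw [hBX x hx]
        exact hs.suff_o h hb hS (Or.inl hx)
      · rw [hBw n]
        filter_upwards [(hb.isOpen (e n)).mem_nhds (hwV n)] with v hv _
        exact ⟨e n, rfl, mem_Uo_V (h.sub _ hv) hv⟩)
  refine ⟨R, h1, h2, h3, fun x hx i hi => ?_, fun n i hi => ?_⟩
  · rw [← hBX x hx]
    exact h4 x (Or.inl hx) i hi
  · have h5 := h4 (w n) (Or.inr ⟨n, rfl⟩) i hi
    rw [hBw n] at h5
    exact h5

/-- a sequence of colours in which all colours of the set `C` occur infinitely often -/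
theorem exists_cols {C : Set (Fin 6)} (hC : C.Nonempty) :
    ∃ e : ℕ → Fin 6, (∀ n, e n ∈ C) ∧ ∀ i ∈ C, ∃ᶠ n in atTop, e n = i := by
  classical
  obtain ⟨i₀, hi₀⟩ := hC
  set r : ℕ → Fin 6 := fun n => ⟨n % 6, Nat.mod_lt _ (by norm_num)⟩ with hr
  refine ⟨fun n => if r n ∈ C then r n else i₀, fun n => ?_, fun i hi => ?_⟩
  · dsimp only
    split_ifs with h1
    · exact h1
    · exact hi₀
  · rw [frequently_atTop]
    intro N
    have h1 : r (6 * N + i) = i := by
      apply Fin.ext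
      simp only [hr]
      have := i.2
      omega
    refine ⟨6 * N + i, by omega, ?_⟩
    dsimp only
    rw [h1, if_pos hi]

/-- **A frame which keeps the colours at finitely many points which see all colours.** -/
theorem Base.exists_marked {ι : Type*} {g : ι → ℝ → ℂ} {pal : ι → Set (Fin 6)}
    {V : Fin 6 → Set ℂ} (hb : Base g pal V) {P : Set ℂ} (hP : P.Finite) {C : ℂ → Set (Fin 6)}
    (hin : ∀ p ∈ P, ∀ e, ∀ u ∈ Ioo (0 : ℝ) 1, g e u ≠ p) (hC : ∀ p ∈ P, (C p).Nonempty)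
    (hx : ∀ p ∈ P, ∀ i ∈ C p, p ∈ closure (V i))
    (hblk : ∀ p ∈ P, ∀ i, ∃ y ∈ closure (V i), dist p y = 1) :
    ∃ U T, Irr U T ∧ LF3 U T ∧ (∀ x, ∀ᶠ w in 𝓝 x, ∀ i ∈ T w, Cnn U x w i) ∧ (∀ i, V i ⊆ U i) ∧
      ∀ p ∈ P, C p ⊆ T p := by
  classical
  obtain ⟨U, h⟩ := hb.exists_gmax
  obtain ⟨K, hs⟩ := exists_seg g U
  choose S hS using exists_mks g U
  have hX : ∀ p ∈ P, p ∈ XX U := by
    intro p hp i hi
    obtain ⟨y, hy, hd⟩ := hblk p hp i
    exact h.free' i p hi y (closure_mono (h.sub i) hy) hd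
  have hBC : ∀ p ∈ P, C p ⊆ BB g pal U p := fun p hp i hi =>
    h.BB_end (hX p hp) (hin p hp) ((hb.conn i p (hx p hp i hi)).mono (h.sub i))
  -- disjoint neighbourhoods
  obtain ⟨O, hO, hdis⟩ := hP.t2_separation
  -- the marked points
  have hseq : ∀ p : P, ∃ (e : ℕ → Fin 6) (w : ℕ → ℂ), (∀ n, e n ∈ C p) ∧
      (∀ i ∈ C p, ∃ᶠ n in atTop, e n = i) ∧ (∀ n, w n ∈ V (e n) ∩ O p) ∧
      (∀ m n, m < n → dist (w n) p < dist (w m) p / 2) ∧ Tendsto w atTop (𝓝 (p : ℂ)) := by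
    rintro ⟨p, hp⟩
    obtain ⟨e, he1, he2⟩ := exists_cols (hC p hp)
    have hcl : ∀ n, p ∈ closure (V (e n) ∩ O p) := by
      intro n
      rw [mem_closure_iff_nhds]
      intro t ht
      obtain ⟨y, hy1, hy2⟩ := mem_closure_iff_nhds.1 (hx p hp _ (he1 n)) (t ∩ O p)
        (inter_mem ht ((hO p).2.mem_nhds (hO p).1))
      exact ⟨y, hy1.1, hy2, hy1.2⟩
    obtain ⟨w, h1, h2, h3⟩ := exists_marks_seq (A := fun n => V (e n) ∩ O p) (x := p) hcl
      (fun n hn => hX p hp (e n) (h.sub _ hn.1))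
    exact ⟨e, w, he1, he2, h1, h2, h3⟩
  choose e w he1 he2 hwV hdec hlim using hseq
  set w' : P × ℕ → ℂ := fun j => w j.1 j.2 with hw'
  set e' : P × ℕ → Fin 6 := fun j => e j.1 j.2 with he'
  have hwX : ∀ p n, w p n ∉ XX U := fun p n hn => hn _ (h.sub _ (hwV p n).1)
  have hpos : ∀ (p : P) n, 0 < dist (w p n) p := fun p n =>
    dist_pos.2 fun hn => hwX p n (hn ▸ hX p p.2)
  -- the same sequence
  have hsame : ∀ (p : P) n m, dist (w p m) (w p n) < dist (w p n) p / 2 → m = n := by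
    intro p n m hd
    have h1 := dist_triangle (w p m) (w p n) p
    have h2 := dist_triangle_left (w p n) (p : ℂ) (w p m)
    rcases lt_trichotomy m n with h3 | h3 | h3
    · have h4 := hdec p m n h3
      have h5 := hpos p n
      linarith
    · exact h3
    · have h4 := hdec p n m h3
      linarith
  have hone : ∀ (p q : P) n, w q n ∈ O p → q = p := by
    intro p q n hn
    by_contra hne
    have h1 : (q : ℂ) ≠ p := fun h2 => hne (Subtype.ext h2)
    exact Set.disjoint_left.1 (hdis q.2 p.2 h1) (hwV q n).2 hn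
  have hiso : ∀ j, ∀ᶠ y in 𝓝 (w' j), ∀ j', w' j' = y → j' = j := by
    rintro ⟨p, n⟩
    filter_upwards [(hO p).2.mem_nhds (hwV p n).2, ball_mem_nhds (w p n) (half_pos (hpos p n))]
      with y hy1 hy2
    rintro ⟨q, m⟩ rfl
    have h1 := hone p q m hy1
    subst h1
    rw [hsame q n m hy2]
  -- closedness
  set Q : Set ℂ := ⋃ p : P, insert (p : ℂ) (range (w p)) with hQ
  have hQc : IsClosed Q := by
    have := hP.to_subtype
    exact isClosed_iUnion_of_finite fun p => (hlim p).isCompact_insert_range.isClosed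
  have hDc : IsClosed (XX U ∪ range w') := by
    have h1 : XX U ∪ range w' = XX U ∪ Q := by
      ext y
      constructor
      · rintro (hy | ⟨⟨p, n⟩, hy⟩)
        · exact Or.inl hy
        · exact Or.inr (mem_iUnion.2 ⟨p, Or.inr ⟨n, hy⟩⟩)
      · rintro (hy | hy)
        · exact Or.inl hy
        · obtain ⟨p, rfl | ⟨n, hy⟩⟩ := mem_iUnion.1 hy
          · exact Or.inl (hX p p.2)
          · exact Or.inr ⟨(p, n), hy⟩
    rw [h1]
    exact h.isClosed_XX.union hQc
  have hall : ∀ x ∈ XX U, ∀ᶠ y in 𝓝 x, ∀ j, w' j = y → e' j ∈ BB g pal U x := by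
    intro x hxX
    by_cases hxP : x ∈ P
    · filter_upwards [(hO x).2.mem_nhds (hO x).1] with y hy
      rintro ⟨q, m⟩ rfl
      have h1 := hone ⟨x, hxP⟩ q m hy
      subst h1
      exact hBC x hxP (he1 ⟨x, hxP⟩ m)
    · have hxQ : x ∉ Q := by
        intro hcon
        obtain ⟨p, rfl | ⟨n, hy⟩⟩ := mem_iUnion.1 hcon
        · exact hxP p.2
        · exact hwX p n (hy ▸ hxX)
      filter_upwards [hQc.isOpen_compl.mem_nhds hxQ] with y hy
      rintro ⟨q, m⟩ rfl
      exact absurd (mem_iUnion.2 ⟨q, Or.inr ⟨m, rfl⟩⟩) hy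
  obtain ⟨R, hRo, hRS, hRc, hRB, hRw⟩ := GMax.exists_red_j h hb hs hS (w := w') (e := e') hDc
    (fun j => (hwV j.1 j.2).1) hiso hall
  have hRU : ∀ i, R i ⊆ U i := fun i => (hRS i).trans (Uo_sub i)
  have hmx : Mx U := h.mx hb hRU hRc hRB
  have hXX : XX R = XX U := XX_eq hRU hRc
  have hdR : Dense (⋃ i, R i) := dense_of_XX hmx.dense hXX
  have hfree : ∀ i, ∀ x ∈ R i, ∀ y ∈ R i, dist x y ≠ 1 := fun i x hx y hy =>
    h.free i x (hRU i hx) y (hRU i hy)
  have hT₀ : ∀ x, (Kr R univ x).Nonempty ∧ Kr R univ x ⊆ PR U R x := fun x =>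
    Kr_good' hRo hfree hXX univ x (PR_ne hdR hRc x)
  obtain ⟨T, hc, hn, hs', hp⟩ := S5.H410.exists_pure (Kr R univ) (Kr_closed R univ)
    (fun x => (hT₀ x).1)
  have hTP : ∀ x, T x ⊆ PR U R x := fun x => (hs' x).trans (hT₀ x).2
  have hTB : ∀ x ∈ XX U, T x ⊆ BB g pal U x := fun x hx i hi => hRB x hx i (hTP x hi).1
  refine ⟨U, T, ⟨hmx, fun i x hx hf => ?_, hc, hn, fun x i hi => closure_mono (hRU i) (hTP x hi).1,
    fun x hX i hi => hRU i ((hTP x hi).2 hX), hp⟩, h.lf_of hb hTB, fun x => ?_, h.sub,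
    fun p hp' i hi => ?_⟩
  · by_cases hX : x ∈ XX U
    · have hi := hx.resolve_left (fun h1 => h1 hX)
      obtain ⟨y, hy, hxy⟩ := ((hTB x hX hi).1 hX).1
      exact absurd hxy (hf y hy)
    · exact h.max_off hX hf
  · filter_upwards [h.ctn hb hS x] with v hv i hi
    exact hv i (closure_mono (hRS i) (hTP v hi).1)
  · -- the marked points have one colour
    have h1 : ∀ n, e ⟨p, hp'⟩ n ∈ T (w ⟨p, hp'⟩ n) := by
      intro n
      obtain ⟨j, hj⟩ := hn (w ⟨p, hp'⟩ n)
      have h2 : j = e ⟨p, hp'⟩ n := hRw (⟨p, hp'⟩, n) j (hTP _ hj).1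
      rw [← h2]
      exact hj
    by_contra hcon
    have h2 : ∀ᶠ n in atTop, w ⟨p, hp'⟩ n ∈ {x | i ∈ T x}ᶜ :=
      (hlim ⟨p, hp'⟩).eventually ((hc i).isOpen_compl.mem_nhds hcon)
    obtain ⟨n, h3, h4⟩ := ((he2 ⟨p, hp'⟩ i hi).and_eventually h2).exists
    exact h4 (h3 ▸ h1 n)

/-- the colours at a point of a coloured map -/
def colsAt {κ : Type*} (G : κ → Set (EuclideanSpace ℝ (Fin 2))) (c : κ → Fin 6)
    (x : EuclideanSpace ℝ (Fin 2)) : Set (Fin 6) := {i | ∃ f, c f = i ∧ x ∈ closure (G f)}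

/-- **A frame which keeps all colours at finitely many points of a planar map.** -/
theorem PlMap.exists_marked {ι κ : Type*} {g : ι → ℝ → EuclideanSpace ℝ (Fin 2)}
    {G : κ → Set (EuclideanSpace ℝ (Fin 2))} (h : PlMap g G) (c : κ → Fin 6)
    (hc : ∀ f f', c f = c f' → ∀ x ∈ G f, ∀ y ∈ G f', dist x y ≠ 1)
    {P : Set (EuclideanSpace ℝ (Fin 2))} (hP : P.Finite)
    (hbl : ∀ x ∈ P, ∀ i, ∃ f, c f = i ∧ ∃ y ∈ closure (G f), dist x y = 1)
    (hC : ∀ x ∈ P, 3 ≤ (colsAt G c x).ncard) :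
    ∃ (φ : ℂ ≃ₗᵢ[ℝ] EuclideanSpace ℝ (Fin 2)) (U : Fin 6 → Set ℂ) (T : ℂ → Set (Fin 6)),
      Irr U T ∧ LF3 U T ∧ (∀ x, ∀ᶠ w in 𝓝 x, ∀ i ∈ T w, Cnn U x w i) ∧
      ∀ x ∈ P, colsAt G c x ⊆ T (φ.symm x) := by
  classical
  let φ : ℂ ≃ₗᵢ[ℝ] EuclideanSpace ℝ (Fin 2) := Complex.orthonormalBasisOneI.repr
  have hP' := h.toPMap φ
  have hcl : ∀ f, closure (φ ⁻¹' G f) = φ ⁻¹' closure (G f) := fun f =>
    (φ.toHomeomorph.preimage_closure (G f)).symm
  obtain ⟨pal, hb⟩ := hP'.exists_base c fun f f' hff x hx y hy => by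
    rw [← φ.dist_map]
    exact hc f f' hff _ hx _ hy
  have hcol : ∀ f y, y ∈ closure (G f) →
      φ.symm y ∈ closure (colV (fun f => φ ⁻¹' G f) c (c f)) := by
    intro f y hy
    have h1 : φ.symm y ∈ closure (φ ⁻¹' G f) := by
      rw [hcl f, mem_preimage, φ.apply_symm_apply]
      exact hy
    exact closure_mono (fun v hv => mem_colV.2 ⟨f, rfl, hv⟩) h1
  have a1 : ∀ p ∈ φ.symm '' P, ∀ e, ∀ u ∈ Ioo (0 : ℝ) 1, φ.symm (g e u) ≠ p := by
    -- inner points of edges have at most two colours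
    rintro _ ⟨x, hx, rfl⟩ e u hu he
    have he' : g e u = x := φ.symm.injective he
    obtain ⟨a, b, hab⟩ := h.sides e
    have h1 : colsAt G c x ⊆ {c a, c b} := by
      rintro i ⟨f, hf, hx⟩
      rw [← he'] at hx
      rcases (hab u hu f).1 hx with rfl | rfl
      · exact Or.inl hf.symm
      · exact Or.inr hf.symm
    have h2 := Set.ncard_le_ncard h1 (Set.toFinite _)
    have h3 := Set.ncard_insert_le (c a) {c b}
    have h4 := hC x hx
    rw [Set.ncard_singleton] at h3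
    omega
  have a2 : ∀ p ∈ φ.symm '' P, (colsAt G c (φ p)).Nonempty := by
    rintro _ ⟨x, hx, rfl⟩
    have h4 := hC x hx
    have h5 : (colsAt G c x).Nonempty := by
      refine Set.nonempty_of_ncard_ne_zero ?_
      omega
    rwa [φ.apply_symm_apply]
  have a3 : ∀ p ∈ φ.symm '' P, ∀ i ∈ colsAt G c (φ p),
      p ∈ closure (colV (fun f => φ ⁻¹' G f) c i) := by
    rintro _ ⟨x, hx, rfl⟩ i hi
    rw [φ.apply_symm_apply] at hi
    obtain ⟨f, rfl, hx⟩ := hi
    exact hcol f x hx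
  have a4 : ∀ p ∈ φ.symm '' P, ∀ i, ∃ y ∈ closure (colV (fun f => φ ⁻¹' G f) c i),
      dist p y = 1 := by
    rintro _ ⟨x, hx, rfl⟩ i
    obtain ⟨f, rfl, y, hy, hd⟩ := hbl x hx i
    exact ⟨φ.symm y, hcol f y hy, by rw [φ.symm.dist_map]; exact hd⟩
  obtain ⟨U, T, hI, hL, hCt, -, hT⟩ := Base.exists_marked hb (hP.image φ.symm)
    (C := fun p => colsAt G c (φ p)) a1 a2 a3 a4
  refine ⟨φ, U, T, hI, hL, hCt, fun x hx => ?_⟩
  have h1 := hT (φ.symm x) ⟨x, hx, rfl⟩
  simpa using h1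

/-- the number of missing colours from the number of colours -/
theorem exists_missing {C : Set (Fin 6)} {n : ℕ} (h : C.ncard + n ≤ 6) :
    ∃ s : Finset (Fin 6), s.card = n ∧ ∀ i ∈ s, i ∉ C := by
  classical
  have h1 : C.ncard + Cᶜ.ncard = 6 := by
    rw [Set.ncard_add_ncard_compl, Nat.card_eq_fintype_card, Fintype.card_fin]
  have h2 : n ≤ (Cᶜ.toFinset).card := by
    rw [← Set.ncard_eq_toFinset_card']
    omega
  obtain ⟨s, hs1, hs2⟩ := Finset.exists_subset_card_eq h2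
  exact ⟨s, hs2, fun i hi => by simpa using hs1 hi⟩

/-- **Two points at distance one which see all six colours**, from the block on pairs of points with
five and with at least four colours. -/
theorem PlMap.pair_of (h6 : ∀ (U : Fin 6 → Set ℂ) (T : ℂ → Set (Fin 6)), Irr U T → LF3 U T →
      (∀ x, ∀ᶠ w in 𝓝 x, ∀ i ∈ T w, Cnn U x w i) → ∀ z, (T z).ncard ≤ 5)
    (hX : ∀ (U : Fin 6 → Set ℂ) (T : ℂ → Set (Fin 6)), Irr U T → LF3 U T →
      (∀ x, ∀ᶠ w in 𝓝 x, ∀ i ∈ T w, Cnn U x w i) → (∀ z, (T z).ncard ≤ 5) →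
      ∀ z v, dist v z = 1 → 5 ≤ (T z).ncard → (T v).ncard ≤ 3)
    {ι κ : Type*} {g : ι → ℝ → EuclideanSpace ℝ (Fin 2)}
    {G : κ → Set (EuclideanSpace ℝ (Fin 2))} (h : PlMap g G) (c : κ → Fin 6)
    (hc : ∀ f f', c f = c f' → ∀ x ∈ G f, ∀ y ∈ G f', dist x y ≠ 1)
    (x y : EuclideanSpace ℝ (Fin 2)) (hxy : dist x y = 1)
    (hx : ∀ i, ∃ f, c f = i ∧ ∃ p ∈ closure (G f), dist x p = 1)
    (hy : ∀ i, ∃ f, c f = i ∧ ∃ p ∈ closure (G f), dist y p = 1) :
    (∃ s : Finset (Fin 6), s.card = 2 ∧ ∀ f, c f ∈ s → x ∉ closure (G f)) ∨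
      ∃ s : Finset (Fin 6), s.card = 3 ∧ ∀ f, c f ∈ s → y ∉ closure (G f) := by
  classical
  by_contra hcon
  rw [not_or] at hcon
  obtain ⟨h1, h2⟩ := hcon
  have h3 : 5 ≤ (colsAt G c x).ncard := by
    by_contra h4
    push Not at h4
    obtain ⟨s, hs1, hs2⟩ := exists_missing (C := colsAt G c x) (n := 2) (by omega)
    exact h1 ⟨s, hs1, fun f hf hxf => hs2 _ hf ⟨f, rfl, hxf⟩⟩
  have h4 : 4 ≤ (colsAt G c y).ncard := by
    by_contra h4
    push Not at h4
    obtain ⟨s, hs1, hs2⟩ := exists_missing (C := colsAt G c y) (n := 3) (by omega)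
    exact h2 ⟨s, hs1, fun f hf hxf => hs2 _ hf ⟨f, rfl, hxf⟩⟩
  obtain ⟨φ, U, T, hI, hL, hCt, hT⟩ := PlMap.exists_marked h c hc (P := {x, y})
    (Set.toFinite _) (by
      rintro p (rfl | rfl)
      · exact hx
      · exact hy) (by
      rintro p (rfl | rfl)
      · omega
      · omega)
  have h5 := Set.ncard_le_ncard (hT x (Or.inl rfl)) (Set.toFinite _)
  have h7 := Set.ncard_le_ncard (hT y (Or.inr rfl)) (Set.toFinite _)
  have h8 := hX U T hI hL hCt (h6 U T hI hL hCt) (φ.symm x) (φ.symm y)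
    (by rw [φ.symm.dist_map, dist_comm]; exact hxy) (by omega)
  omega

end Vale.Agent.P032.H892
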