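import Vale.Agent.P032X.H892.Freeze
import Vale.Agent.P032W.H892.Mirror

/-!
# P032: symmetries of centres with four, five or six colours

* `Cn.perm`, `cr_perm`, `cl_perm` : relabelling of the colours (family `U (σ i)`, cover `σ ⁻¹' T x`),
* `Cn.mirror`, `cr_mirror`, `cl_mirror` : mirror image (complex conjugation), the letter just after `-u` of the mirror
  image is the letter just before `u`,
* `jr_perm`, `jl_perm`, `jr_mirror`, `jl_mirror` : the same for several centres.
-/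

open Set Filter Topology Metric

noncomputable section

namespace Vale.Agent.P032.H892

open Vale.Agent.P032.Six Vale.Agent.P032.Words Vale.Agent.P032.S5.H767

variable {U : Fin 6 → Set ℂ} {T : ℂ → Set (Fin 6)} {z : ℂ}

/-! ### relabelling -/

theorem ex3_perm (σ : Equiv.Perm (Fin 6)) (x : ℂ) :
    Ex3 (fun i => U (σ i)) (fun x => σ ⁻¹' T x) x ↔ Ex3 U T x := by
  unfold Ex3
  rw [xx_perm, ncard_perm]

theorem Cn.perm (C : Cn U T z) (σ : Equiv.Perm (Fin 6)) :
    Cn (fun i => U (σ i)) (fun x => σ ⁻¹' T x) z where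
  irr := irr_perm C.irr σ
  ct := fun i hi => C.ct (σ i) hi
  lf := fun u => (C.lf u).mono fun v hv h => hv ((ex3_perm σ _).1 h)

theorem oc_perm (σ : Equiv.Perm (Fin 6)) (l : L6) :
    OC (fun i => U (σ i)) (fun x => σ ⁻¹' T x) z l = OC U T z (σ l.1, σ l.2) := by
  ext u
  unfold OC
  rw [o6_perm]
  exact Iff.rfl

theorem fo_perm (σ : Equiv.Perm (Fin 6)) : Fo (fun x => σ ⁻¹' T x) z = Fo T z := by
  ext u
  constructor
  · rintro ⟨i, hi, hiz⟩
    exact ⟨σ i, hi, hiz⟩
  · rintro ⟨i, hi, hiz⟩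
    refine ⟨σ.symm i, ?_, ?_⟩
    · show σ (σ.symm i) ∈ T (pt z u)
      rw [σ.apply_symm_apply]; exact hi
    · show ¬ σ (σ.symm i) ∈ T z
      rw [σ.apply_symm_apply]; exact hiz

/-- relabelling of a letter -/
def prL (σ : Equiv.Perm (Fin 6)) (l : Option L6) : Option L6 := l.map fun l => (σ l.1, σ l.2)

namespace Cn

variable (C : Cn U T z)
include C

theorem cr_perm (σ : Equiv.Perm (Fin 6)) (u : ℝ) :
    CR (fun i => U (σ i)) (fun x => σ ⁻¹' T x) z u = prL σ.symm (CR U T z u) := by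
  cases hc : CR U T z u with
  | some l =>
    refine (C.perm σ).cr_eq ((cr_some hc).mono fun v hv => ?_).frequently
    rw [oc_perm]
    simpa using hv
  | none =>
    refine cr_eq_none ((C.cr_none hc).mono fun v hv => ?_).frequently
    rw [fo_perm]; exact hv

theorem cl_perm (σ : Equiv.Perm (Fin 6)) (u : ℝ) :
    CL (fun i => U (σ i)) (fun x => σ ⁻¹' T x) z u = prL σ.symm (CL U T z u) := by
  cases hc : CL U T z u with
  | some l =>
    refine (C.perm σ).cl_eq ((cl_some hc).mono fun v hv => ?_).frequently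
    rw [oc_perm]
    simpa using hv
  | none =>
    refine cl_eq_none ((C.cl_none hc).mono fun v hv => ?_).frequently
    rw [fo_perm]; exact hv

end Cn

/-! ### mirror image -/

theorem ex3_mirror (x : ℂ) : Ex3 (fun i => cj ⁻¹' U i) (fun x => T (cj x)) x ↔ Ex3 U T (cj x) := Iff.rfl

theorem Cn.mirror (C : Cn U T z) : Cn (fun i => cj ⁻¹' U i) (fun x => T (cj x)) (cj z) where
  irr := irr_isom cj C.irr
  ct := fun i hi => by
    have hi : i ∈ T (cj (cj z)) := hi
    rw [cj_cj] at hi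
    exact ct_isom cj (by rw [cj_cj]; exact C.ct i hi)
  lf := fun u => by
    filter_upwards [(tendsto_neg_ne u).eventually (C.lf (-u))] with v hv h
    rw [ex3_mirror, cj_pt] at h
    exact hv h

theorem oc_mirror (l : L6) (u : ℝ) :
    u ∈ OC (fun i => cj ⁻¹' U i) (fun x => T (cj x)) (cj z) l ↔ -u ∈ OC U T z l := by
  have e : ∀ i, i ∈ (fun x => T (cj x)) (cj z) ↔ i ∈ T z := fun i => by
    show i ∈ T (cj (cj z)) ↔ i ∈ T z
    rw [cj_cj]
  constructor
  · rintro ⟨h1, h2, h3⟩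
    exact ⟨(e _).1 h1, (e _).1 h2, (o6_mirror l u).1 h3⟩
  · rintro ⟨h1, h2, h3⟩
    exact ⟨(e _).2 h1, (e _).2 h2, (o6_mirror l u).2 h3⟩

theorem fo_mirror (u : ℝ) : u ∈ Fo (fun x => T (cj x)) (cj z) ↔ -u ∈ Fo T z := by
  show (∃ i ∈ T (cj (pt (cj z) u)), i ∉ T (cj (cj z))) ↔ ∃ i ∈ T (pt z (-u)), i ∉ T z
  rw [cj_pt, cj_cj]

namespace Cn

variable (C : Cn U T z)
include C

theorem cr_mirror (u : ℝ) :
    CR (fun i => cj ⁻¹' U i) (fun x => T (cj x)) (cj z) u = CL U T z (-u) := by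
  cases hc : CL U T z (-u) with
  | some l =>
    refine C.mirror.cr_eq (Filter.Eventually.frequently ?_)
    filter_upwards [(tendsto_neg_gt u).eventually (cl_some hc)] with v hv
    exact (oc_mirror _ _).2 hv
  | none =>
    refine cr_eq_none (Filter.Eventually.frequently ?_)
    filter_upwards [(tendsto_neg_gt u).eventually (C.cl_none hc)] with v hv
    exact (fo_mirror v).2 hv

theorem cl_mirror (u : ℝ) :
    CL (fun i => cj ⁻¹' U i) (fun x => T (cj x)) (cj z) u = CR U T z (-u) := by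
  cases hc : CR U T z (-u) with
  | some l =>
    refine C.mirror.cl_eq (Filter.Eventually.frequently ?_)
    filter_upwards [(tendsto_neg_lt u).eventually (cr_some hc)] with v hv
    exact (oc_mirror _ _).2 hv
  | none =>
    refine cl_eq_none (Filter.Eventually.frequently ?_)
    filter_upwards [(tendsto_neg_lt u).eventually (C.cr_none hc)] with v hv
    exact (fo_mirror v).2 hv

end Cn

/-! ### several centres -/

variable {J : Type} {Z : J → ℂ}

/-- relabelling of the letters of several circles -/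
def prJ (σ : Equiv.Perm (Fin 6)) (s : J → Fin 6 → Option L6) : J → Fin 6 → Option L6 :=
  fun j k => prL σ (s j k)

/-- mirror image of the letters of several circles -/
def mrJ (s : J → Fin 6 → Option L6) : J → Fin 6 → Option L6 := fun j k => s j (-k)

theorem jr_perm (C : ∀ j, Cn U T (Z j)) (σ : Equiv.Perm (Fin 6)) (u : ℝ) :
    JR (fun i => U (σ i)) (fun x => σ ⁻¹' T x) Z u = prJ σ.symm (JR U T Z u) := by
  funext j k; exact (C j).cr_perm σ _

theorem jl_perm (C : ∀ j, Cn U T (Z j)) (σ : Equiv.Perm (Fin 6)) (u : ℝ) :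
    JL (fun i => U (σ i)) (fun x => σ ⁻¹' T x) Z u = prJ σ.symm (JL U T Z u) := by
  funext j k; exact (C j).cl_perm σ _

theorem jr_mirror (C : ∀ j, Cn U T (Z j)) (u : ℝ) :
    JR (fun i => cj ⁻¹' U i) (fun x => T (cj x)) (fun j => cj (Z j)) u = mrJ (JL U T Z (-u)) := by
  funext j k
  show CR _ _ _ (u + (k.val : ℝ)) = CL U T (Z j) (-u + ((-k : Fin 6).val : ℝ))
  rw [(C j).cr_mirror]
  obtain ⟨m, hm⟩ := neg_fin6 k
  have : -(u + (k.val : ℝ)) = -u + ((-k : Fin 6).val : ℝ) + 6 * m := by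
    rw [neg_add, hm]; ring
  rw [this, (C j).cl_per]

theorem jl_mirror (C : ∀ j, Cn U T (Z j)) (u : ℝ) :
    JL (fun i => cj ⁻¹' U i) (fun x => T (cj x)) (fun j => cj (Z j)) u = mrJ (JR U T Z (-u)) := by
  funext j k
  show CL _ _ _ (u + (k.val : ℝ)) = CR U T (Z j) (-u + ((-k : Fin 6).val : ℝ))
  rw [(C j).cl_mirror]
  obtain ⟨m, hm⟩ := neg_fin6 k
  have : -(u + (k.val : ℝ)) = -u + ((-k : Fin 6).val : ℝ) + 6 * m := by
    rw [neg_add, hm]; ring
  rw [this, (C j).cr_per]

/-- **Events of several circles** in some frame; `P T Z` : properties of the frame and of the centres -/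
def EvJ (P : (Fin 6 → Set ℂ) → (ℂ → Set (Fin 6)) → (J → ℂ) → ℝ → Prop)
    (s t : J → Fin 6 → Option L6) : Prop :=
  ∃ (U : Fin 6 → Set ℂ) (T : ℂ → Set (Fin 6)) (Z : J → ℂ) (_ : ∀ j, Cn U T (Z j)) (u : ℝ),
    P U T Z u ∧ JL U T Z u = s ∧ JR U T Z u = t

end Vale.Agent.P032.H892
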