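import Vale.Agent.P032X.H892.BlkV

/-!
# P032: change of the table of the points

* `fok_tab` : a valid frame is valid for fewer centres and for another table,
* `tabE` : check that two tables agree at the points below `NP`,
* `dead_tab`, `deadV_tab` : a pattern which is dead for one table (for instance with more points) is dead for the other
  table.
-/

open Set Filter Topology Metric

noncomputable section

namespace Vale.Agent.P032.BlkV

open Vale.Agent.P032.Six Vale.Agent.P032.Words Vale.Agent.P032.S5.H767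
  Vale.Agent.P032.H913 Vale.Agent.P032.H357 Vale.Agent.P032.H61
open Vale.Agent.P032.H357.MK (co no co_no co_surj no_co no_lt co_inj of6 ct6 fx0 cf al al_spec Tb nbeq Cn)
open Vale.Agent.P032.H820.K (a0 a1 a2 a3 a4 En en_eq dec Md av lv Ho ps ng lv_ps lv_ng nbf lb lb_iff)

variable {F : Fr}

/-- a valid frame is valid for other centres which are among the old ones -/
theorem fok_tab {B B' : Type} {κ κ' : ℕ → ℤ × ℤ} {cx : B → ℕ} {cx' : B' → ℕ} (h : FOk κ cx F) (f : B' → B)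
    (hf : ∀ c, cx (f c) = cx' c) (hκ : ∀ c, κ (cx' c) = κ' (cx' c)) : FOk κ' cx' F := by
  have hX : ∀ i : B' × Fin 6, ct6 (F.Z κ' cx') i = ct6 (F.Z κ cx) (f i.1, i.2) := by
    intro i
    show hp F.z F.b (κ' (cx' i.1)) = hp F.z F.b (κ (cx (f i.1)))
    rw [hf, hκ]
  have ho : ∀ i : B' × Fin 6, ∃ k : ℤ, of6 i + 0 = of6 (f i.1, i.2) + 6 * k := fun i =>
    ⟨0, by push_cast; show of6 i + 0 = of6 i + 6 * 0; ring⟩
  refine ⟨h.irr, h.ctn, h.lf3, h.five, h.ln, ?_, ?_⟩
  · have h1 := rst_tr (fun i : B' × Fin 6 => (f i.1, i.2)) hX ho h.r0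
    have e : (fun i : B' × Fin 6 => rS cx F.s0 (f i.1, i.2)) = rS cx' F.s0 := by
      funext i
      show F.s0 (cx (f i.1), i.2) = F.s0 (cx' i.1, i.2)
      rw [hf]
    rw [e, add_zero] at h1
    exact h1
  · have h1 := lst_tr (fun i : B' × Fin 6 => (f i.1, i.2)) hX ho h.r1
    have e : (fun i : B' × Fin 6 => rS cx F.s1 (f i.1, i.2)) = rS cx' F.s1 := by
      funext i
      show F.s1 (cx (f i.1), i.2) = F.s1 (cx' i.1, i.2)
      rw [hf]
    rw [e, add_zero] at h1
    exact h1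

/-- the tables agree at the points below `NP` -/
def tabE (NP TC TC' : ℕ) : Bool :=
  al (fun x => (Nat.beq (cf 2 TC x 0) (cf 2 TC' x 0) && Nat.beq (cf 2 TC x 1) (cf 2 TC' x 1)) &&
    (Nat.beq (cf 2 TC x 2) (cf 2 TC' x 2) && Nat.beq (cf 2 TC x 3) (cf 2 TC' x 3))) NP

section
variable {n NP NW NW' TC TC' : ℕ} {P : List ℕ}

theorem tabE_spec (h : tabE NP TC TC' = true) {x : ℕ} (hx : x < NP) :
    kap TC x = kap TC' x ∧ fx0 TC x = fx0 TC' x := by
  have h1 := al_spec h x hx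
  rw [Bool.and_eq_true, Bool.and_eq_true, Bool.and_eq_true, nbeq, nbeq, nbeq, nbeq] at h1
  obtain ⟨⟨h2, h3⟩, h4, h5⟩ := h1
  unfold kap fx0
  rw [h2, h3, h4, h5]
  exact ⟨rfl, rfl⟩

/-- the class for the table `TC` is in the class for the table `TC'` with fewer or the same centres -/
theorem CN.tab (h : CN n NW TC F) (ht : tabE NP TC TC' = true) (hW : NW' ≤ NW) (hP : NW' ≤ NP) : CN n NW' TC' F := by
  refine ⟨fok_tab h.ok (fun c : Cn NW' TC' => (⟨c.1, lt_of_lt_of_le c.2.1 hW, ?_⟩ : Cn NW TC)) (fun c => rfl)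
    fun c => (tabE_spec ht (lt_of_lt_of_le c.2.1 hP)).1, h.tz⟩
  rw [(tabE_spec ht (lt_of_lt_of_le c.2.1 hP)).2]
  exact c.2.2

theorem CV.tab (h : CV n NW TC F) (ht : tabE NP TC TC' = true) (hW : NW' ≤ NW) (hP : NW' ≤ NP) : CV n NW' TC' F :=
  ⟨h.cn.tab ht hW hP, h.v4⟩

/-- the points of the literals are below `NP` -/
def lP (NP : ℕ) (P : List ℕ) : Bool := MK.alL (fun l => lb (a1 (Nat.div l 2)) NP) P

theorem lf_tab (ht : tabE NP TC TC' = true) {l : ℕ} (hl : a1 (l / 2) < NP) : lf (kap TC) F l ↔ lf (kap TC') F l := by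
  have h1 := (tabE_spec ht hl).1
  unfold lf H61.tv tva Fr.P
  rw [h1]

theorem dead_tab (ht : tabE NP TC TC' = true) (hW : NW' ≤ NW) (hP : NW' ≤ NP) (hl : lP NP P = true)
    (h : Dead (kap TC') (CN n NW' TC') P) : Dead (kap TC) (CN n NW TC) P := fun F hF hall =>
  h F (hF.tab ht hW hP) fun l hl' => (lf_tab ht (lb_iff.1 (MK.alL_spec hl l hl'))).1 (hall l hl')

theorem deadV_tab (ht : tabE NP TC TC' = true) (hW : NW' ≤ NW) (hP : NW' ≤ NP) (hl : lP NP P = true)
    (h : Dead (kap TC') (CV n NW' TC') P) : Dead (kap TC) (CV n NW TC) P := fun F hF hall =>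
  h F (hF.tab ht hW hP) fun l hl' => (lf_tab ht (lb_iff.1 (MK.alL_spec hl l hl'))).1 (hall l hl')

end

end Vale.Agent.P032.BlkV
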