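import Vale.Agent.P032W.H892.Lift
import Vale.Agent.P032W.H355.LFcirc
import Vale.Agent.P032W.H820.Hull

/-!
# P032: centres with four, five or six colours

`Cn U T z` : the colours of `z` are connected to it (`Ct`), the three-coloured points are isolated on `S(z)`.

Letters `Option L6`: `some (i, o)` = exact arc, `i, o ∈ T z`, `i` absent outside, `o` absent inside; `none` = foreign
arc, every point has a colour which is not in `T z`.

* `CL u`, `CR u` : letters just before and just after a time, `cl_some`, `cr_some`, `cl_none`, `cr_none` (meaning),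
  `Cn.cl_eq`, `Cn.cr_eq`, `Cn.ev_left`, `Cn.ev_right`,
* `Cn.mem_L`, `Cn.sided_L`, `Cn.hc_L` (and `R`) : exact letters; `Cn.no_swap`,
* `Cn.sixty` : the rule of 60 degrees, `Cn.for_mem_L`, `Cn.for_hc_L` : foreign letters if `T z` misses one colour only,
* `Cn.of_lf` : centres of the frame.
-/

open Set Filter Topology Metric

noncomputable section

namespace Vale.Agent.P032.H892

open Vale.Agent.P032.Six Vale.Agent.P032.Words Vale.Agent.P032.S5.H767

variable {U : Fin 6 → Set ℂ} {T : ℂ → Set (Fin 6)} {z : ℂ}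

/-- exceptional points -/
def Ex3 (U : Fin 6 → Set ℂ) (T : ℂ → Set (Fin 6)) (x : ℂ) : Prop := x ∈ XX U ∧ 3 ≤ (T x).ncard

/-- a centre of the locally finite frame -/
structure Cn (U : Fin 6 → Set ℂ) (T : ℂ → Set (Fin 6)) (z : ℂ) : Prop where
  irr : Irr U T
  ct : ∀ i ∈ T z, Ct U z i
  lf : ∀ u : ℝ, ∀ᶠ v in 𝓝[≠] u, ¬ Ex3 U T (pt z v)

/-- the times of the exact letter `l` -/
def OC (U : Fin 6 → Set ℂ) (T : ℂ → Set (Fin 6)) (z : ℂ) (l : L6) : Set ℝ :=
  {u | l.1 ∈ T z ∧ l.2 ∈ T z ∧ u ∈ O6 U T z l}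

/-- the foreign times -/
def Fo (T : ℂ → Set (Fin 6)) (z : ℂ) : Set ℝ := {u | ∃ i ∈ T (pt z u), i ∉ T z}

section
variable (U T z)

open Classical in
/-- the letter just after `u` -/
def CR (u : ℝ) : Option L6 :=
  if h : ∃ l, ∀ᶠ v in 𝓝[>] u, v ∈ OC U T z l then some h.choose else none

open Classical in
/-- the letter just before `u` -/
def CL (u : ℝ) : Option L6 :=
  if h : ∃ l, ∀ᶠ v in 𝓝[<] u, v ∈ OC U T z l then some h.choose else none

end

theorem oc_not_fo {l : L6} {u : ℝ} (h : u ∈ OC U T z l) : u ∉ Fo T z := by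
  rintro ⟨i, hi, hiz⟩
  obtain ⟨h1, h2, h3⟩ := h
  rw [h3.1] at hi
  rcases hi with rfl | hi
  · exact hiz h1
  · rw [mem_singleton_iff.1 hi] at hiz; exact hiz h2

theorem cr_some {u : ℝ} {l : L6} (h : CR U T z u = some l) : ∀ᶠ v in 𝓝[>] u, v ∈ OC U T z l := by
  unfold CR at h
  split at h
  · next h1 =>
    have := h1.choose_spec
    rw [Option.some.injEq] at h
    rwa [h] at this
  · exact absurd h (by simp)

theorem cl_some {u : ℝ} {l : L6} (h : CL U T z u = some l) : ∀ᶠ v in 𝓝[<] u, v ∈ OC U T z l := by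
  unfold CL at h
  split at h
  · next h1 =>
    have := h1.choose_spec
    rw [Option.some.injEq] at h
    rwa [h] at this
  · exact absurd h (by simp)

theorem o6_of_open (h : Irr U T) {l : L6} (h1 : l.1 ∈ T z) (h2 : l.2 ∈ T z) : IsOpen (O6 U T z l) := by
  rw [isOpen_iff_mem_nhds]
  rintro u ⟨h3, h4, h5⟩
  have h6 := ev_pt z (h.arc_of_pair h1 h2 h3)
  have h7 : ∀ᶠ v in 𝓝 u, Sd U z (pt z v) l.1 l.2 :=
    (continuous_pt z).continuousAt.eventually (Filter.Eventually.eventually_nhds h5)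
  filter_upwards [h6, h7] with v hv1 hv2
  exact ⟨hv1, h4, hv2⟩

theorem oc_open (h : Irr U T) (l : L6) : IsOpen (OC U T z l) := by
  by_cases h1 : l.1 ∈ T z
  · by_cases h2 : l.2 ∈ T z
    · have e : OC U T z l = O6 U T z l := by
        ext u
        exact ⟨fun h => h.2.2, fun h => ⟨h1, h2, h⟩⟩
      rw [e]; exact o6_of_open h h1 h2
    · have e : OC U T z l = ∅ := by
        ext u
        exact ⟨fun h => absurd h.2.1 h2, fun h => h.elim⟩
      rw [e]; exact isOpen_empty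
  · have e : OC U T z l = ∅ := by
      ext u
      exact ⟨fun h => absurd h.1 h1, fun h => h.elim⟩
    rw [e]; exact isOpen_empty

theorem oc_disj (h : Irr U T) {l m : L6} (hlm : l ≠ m) {u : ℝ} (h1 : u ∈ OC U T z l)
    (h2 : u ∈ OC U T z m) : False := by
  obtain ⟨i, j⟩ := l
  obtain ⟨i', j'⟩ := m
  obtain ⟨-, -, a1, a2, a3⟩ := h1
  obtain ⟨-, -, b1, b2, b3⟩ := h2
  simp only at a1 a2 a3 b1 b2 b3
  rw [a1] at b1
  have h5 : i = i' ∨ i = j' := by
    have : i ∈ ({i', j'} : Set (Fin 6)) := by rw [← b1]; simp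
    simpa using this
  have h6 : j = i' ∨ j = j' := by
    have : j ∈ ({i', j'} : Set (Fin 6)) := by rw [← b1]; simp
    simpa using this
  rcases h5 with rfl | rfl
  · rcases h6 with rfl | rfl
    · exact a2 rfl
    · exact hlm rfl
  · rcases h6 with rfl | rfl
    · exact h.sd_unique (by rw [a1]; simp) a3 b3
    · exact a2 rfl

/-- the points of the circle in the coordinate of `arc_dich` -/
theorem pt_cis (z : ℂ) (u : ℝ) : pt z u = z + cis (u * (Real.pi / 3)) := rfl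

namespace Cn

variable (C : Cn U T z)
include C

/-- **Dichotomy** on an interval without exceptional points -/
theorem dich {a b : ℝ} (hab : a < b) (hE : ∀ v ∈ Ioo a b, ¬ Ex3 U T (pt z v)) :
    (∃ l, Ioo a b ⊆ OC U T z l) ∨ Ioo a b ⊆ Fo T z := by
  have hpi := Real.pi_pos
  have hc : 0 < Real.pi / 3 := by positivity
  have hE' : ∀ t ∈ Ioo (a * (Real.pi / 3)) (b * (Real.pi / 3)),
      ¬ (z + cis t ∈ XX U ∧ 3 ≤ (T (z + cis t)).ncard) := by
    intro t ht
    have h1 := hE (t / (Real.pi / 3)) ⟨(lt_div_iff₀ hc).2 ht.1, (div_lt_iff₀ hc).2 ht.2⟩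
    rw [pt_cis, div_mul_cancel₀ _ hc.ne'] at h1
    exact h1
  have hmem : ∀ v ∈ Ioo a b, v * (Real.pi / 3) ∈ Ioo (a * (Real.pi / 3)) (b * (Real.pi / 3)) :=
    fun v hv => ⟨mul_lt_mul_of_pos_right hv.1 hc, mul_lt_mul_of_pos_right hv.2 hc⟩
  rcases C.irr.arc_dich hE' with ⟨P, hP, hP2, hT⟩ | hF
  · left
    obtain ⟨i, j, hij, rfl⟩ := Set.ncard_eq_two.1 hP2
    have hi : i ∈ T z := hP (by simp)
    have hj : j ∈ T z := hP (by simp)
    have key : ∀ v ∈ Ioo a b, v ∈ OC U T z (i, j) ∨ v ∈ OC U T z (j, i) := by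
      intro v hv
      have h1 : T (pt z v) = {i, j} := hT _ (hmem v hv)
      rcases C.irr.sides_of_sided (dist_pt z v) h1.le (C.irr.mx.sided_of_ct (C.ct i hi))
        (C.irr.mx.sided_of_ct (C.ct j hj)) with h2 | h2
      · exact Or.inl ⟨hi, hj, h1, hij, h2⟩
      · exact Or.inr ⟨hj, hi, by rw [h1, pair_comm], hij.symm, h2⟩
    obtain ⟨x, hx⟩ := nonempty_Ioo.2 hab
    have hdis : Disjoint (OC U T z (i, j)) (OC U T z (j, i)) := by
      rw [Set.disjoint_left]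
      intro v h1 h2
      exact oc_disj C.irr (fun e => hij (congrArg Prod.fst e)) h1 h2
    rcases key x hx with h1 | h1
    · exact ⟨(i, j), isPreconnected_Ioo.subset_left_of_subset_union (oc_open C.irr _) (oc_open C.irr _)
        hdis (fun v hv => key v hv) ⟨x, hx, h1⟩⟩
    · exact ⟨(j, i), isPreconnected_Ioo.subset_right_of_subset_union (oc_open C.irr _) (oc_open C.irr _)
        hdis (fun v hv => key v hv) ⟨x, hx, h1⟩⟩
  · right
    intro v hv
    exact hF _ (hmem v hv)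

theorem exists_R (u : ℝ) : (∃ l, ∀ᶠ v in 𝓝[>] u, v ∈ OC U T z l) ∨ ∀ᶠ v in 𝓝[>] u, v ∈ Fo T z := by
  have h1 : ∀ᶠ v in 𝓝[>] u, ¬ Ex3 U T (pt z v) :=
    (C.lf u).filter_mono (nhdsWithin_mono _ fun x hx => ne_of_gt hx)
  obtain ⟨w, hw, hs⟩ := (mem_nhdsGT_iff_exists_Ioo_subset (a := u)).1 h1
  rcases C.dich hw hs with ⟨l, hl⟩ | hF
  · exact Or.inl ⟨l, mem_of_superset (Ioo_mem_nhdsGT hw) hl⟩
  · exact Or.inr (mem_of_superset (Ioo_mem_nhdsGT hw) hF)

theorem exists_L (u : ℝ) : (∃ l, ∀ᶠ v in 𝓝[<] u, v ∈ OC U T z l) ∨ ∀ᶠ v in 𝓝[<] u, v ∈ Fo T z := by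
  have h1 : ∀ᶠ v in 𝓝[<] u, ¬ Ex3 U T (pt z v) :=
    (C.lf u).filter_mono (nhdsWithin_mono _ fun x hx => ne_of_lt hx)
  obtain ⟨w, hw, hs⟩ := (mem_nhdsLT_iff_exists_Ioo_subset (a := u)).1 h1
  rcases C.dich hw hs with ⟨l, hl⟩ | hF
  · exact Or.inl ⟨l, mem_of_superset (Ioo_mem_nhdsLT hw) hl⟩
  · exact Or.inr (mem_of_superset (Ioo_mem_nhdsLT hw) hF)

theorem cr_none {u : ℝ} (h : CR U T z u = none) : ∀ᶠ v in 𝓝[>] u, v ∈ Fo T z := by
  rcases C.exists_R u with h1 | h1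
  · unfold CR at h
    rw [dif_pos h1] at h
    exact absurd h (by simp)
  · exact h1

theorem cl_none {u : ℝ} (h : CL U T z u = none) : ∀ᶠ v in 𝓝[<] u, v ∈ Fo T z := by
  rcases C.exists_L u with h1 | h1
  · unfold CL at h
    rw [dif_pos h1] at h
    exact absurd h (by simp)
  · exact h1

theorem cr_eq {u : ℝ} {l : L6} (h : ∃ᶠ v in 𝓝[>] u, v ∈ OC U T z l) : CR U T z u = some l := by
  cases hc : CR U T z u with
  | none =>
    obtain ⟨v, h1, h2⟩ := (h.and_eventually (C.cr_none hc)).exists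
    exact absurd h2 (oc_not_fo h1)
  | some m =>
    by_cases hlm : l = m
    · rw [hlm]
    · obtain ⟨v, h1, h2⟩ := (h.and_eventually (cr_some hc)).exists
      exact (oc_disj C.irr hlm h1 h2).elim

theorem cl_eq {u : ℝ} {l : L6} (h : ∃ᶠ v in 𝓝[<] u, v ∈ OC U T z l) : CL U T z u = some l := by
  cases hc : CL U T z u with
  | none =>
    obtain ⟨v, h1, h2⟩ := (h.and_eventually (C.cl_none hc)).exists
    exact absurd h2 (oc_not_fo h1)
  | some m =>
    by_cases hlm : l = m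
    · rw [hlm]
    · obtain ⟨v, h1, h2⟩ := (h.and_eventually (cl_some hc)).exists
      exact (oc_disj C.irr hlm h1 h2).elim

omit C in
theorem cr_eq_none {u : ℝ} (h : ∃ᶠ v in 𝓝[>] u, v ∈ Fo T z) : CR U T z u = none := by
  cases hc : CR U T z u with
  | none => rfl
  | some m =>
    obtain ⟨v, h1, h2⟩ := (h.and_eventually (cr_some hc)).exists
    exact absurd h1 (oc_not_fo h2)

omit C in
theorem cl_eq_none {u : ℝ} (h : ∃ᶠ v in 𝓝[<] u, v ∈ Fo T z) : CL U T z u = none := by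
  cases hc : CL U T z u with
  | none => rfl
  | some m =>
    obtain ⟨v, h1, h2⟩ := (h.and_eventually (cl_some hc)).exists
    exact absurd h1 (oc_not_fo h2)

theorem cr_of_mem {u : ℝ} {l : L6} (h : u ∈ OC U T z l) : CR U T z u = some l :=
  C.cr_eq (((oc_open C.irr l).mem_nhds h |> fun k => ev_sub nhdsWithin_le_nhds k).frequently)

theorem cl_of_mem {u : ℝ} {l : L6} (h : u ∈ OC U T z l) : CL U T z u = some l :=
  C.cl_eq (((oc_open C.irr l).mem_nhds h |> fun k => ev_sub nhdsWithin_le_nhds k).frequently)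

theorem ev_right (u : ℝ) : ∀ᶠ v in 𝓝[>] u, CR U T z v = CR U T z u ∧ CL U T z v = CR U T z u := by
  cases hc : CR U T z u with
  | some l =>
    filter_upwards [cr_some hc] with v hv
    exact ⟨C.cr_of_mem hv, C.cl_of_mem hv⟩
  | none =>
    obtain ⟨w, hw, hs⟩ := (mem_nhdsGT_iff_exists_Ioo_subset (a := u)).1 (C.cr_none hc)
    filter_upwards [Ioo_mem_nhdsGT hw] with v hv
    refine ⟨cr_eq_none ?_, cl_eq_none ?_⟩
    · have : Ioo v w ∈ 𝓝[>] v := Ioo_mem_nhdsGT hv.2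
      exact Filter.Eventually.frequently (mem_of_superset this fun x hx => hs ⟨hv.1.trans hx.1, hx.2⟩)
    · have : Ioo u v ∈ 𝓝[<] v := Ioo_mem_nhdsLT hv.1
      exact Filter.Eventually.frequently (mem_of_superset this fun x hx => hs ⟨hx.1, hx.2.trans hv.2⟩)

theorem ev_left (u : ℝ) : ∀ᶠ v in 𝓝[<] u, CR U T z v = CL U T z u ∧ CL U T z v = CL U T z u := by
  cases hc : CL U T z u with
  | some l =>
    filter_upwards [cl_some hc] with v hv
    exact ⟨C.cr_of_mem hv, C.cl_of_mem hv⟩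
  | none =>
    obtain ⟨w, hw, hs⟩ := (mem_nhdsLT_iff_exists_Ioo_subset (a := u)).1 (C.cl_none hc)
    filter_upwards [Ioo_mem_nhdsLT hw] with v hv
    refine ⟨cr_eq_none ?_, cl_eq_none ?_⟩
    · have : Ioo v u ∈ 𝓝[>] v := Ioo_mem_nhdsGT hv.2
      exact Filter.Eventually.frequently (mem_of_superset this fun x hx => hs ⟨hv.1.trans hx.1, hx.2⟩)
    · have : Ioo w v ∈ 𝓝[<] v := Ioo_mem_nhdsLT hv.1
      exact Filter.Eventually.frequently (mem_of_superset this fun x hx => hs ⟨hx.1, hx.2.trans hv.2⟩)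

omit C in
theorem oc_six {u : ℝ} {l : L6} : u + 6 ∈ OC U T z l ↔ u ∈ OC U T z l := by
  unfold OC
  simp only [mem_ofPred_eq, C6.o6_six]

omit C in
theorem fo_six {u : ℝ} : u + 6 ∈ Fo T z ↔ u ∈ Fo T z := by
  unfold Fo
  simp only [mem_ofPred_eq, pt_six]

theorem cr_six (u : ℝ) : CR U T z (u + 6) = CR U T z u := by
  cases hc : CR U T z (u + 6) with
  | some l =>
    exact (C.cr_eq (((C6.tendsto_add_right u).eventually (cr_some hc)).mono fun _ hv =>
      oc_six.1 hv).frequently).symm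
  | none =>
    exact (cr_eq_none (((C6.tendsto_add_right u).eventually (C.cr_none hc)).mono fun _ hv =>
      fo_six.1 hv).frequently).symm

theorem cl_six (u : ℝ) : CL U T z (u + 6) = CL U T z u := by
  cases hc : CL U T z (u + 6) with
  | some l =>
    exact (C.cl_eq (((C6.tendsto_add_left u).eventually (cl_some hc)).mono fun _ hv =>
      oc_six.1 hv).frequently).symm
  | none =>
    exact (cl_eq_none (((C6.tendsto_add_left u).eventually (C.cl_none hc)).mono fun _ hv =>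
      fo_six.1 hv).frequently).symm

theorem cr_per (w : ℝ) (m : ℤ) : CR U T z (w + 6 * m) = CR U T z w := by
  have h : Function.Periodic (CR U T z) 6 := fun t => C.cr_six t
  have := h.int_mul m w
  rw [mul_comm]; exact this

theorem cl_per (w : ℝ) (m : ℤ) : CL U T z (w + 6 * m) = CL U T z w := by
  have h : Function.Periodic (CL U T z) 6 := fun t => C.cl_six t
  have := h.int_mul m w
  rw [mul_comm]; exact this

/-! ### exact letters -/

theorem ne_R {w : ℝ} {l : L6} (h : CR U T z w = some l) : l.1 ≠ l.2 ∧ l.1 ∈ T z ∧ l.2 ∈ T z := by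
  obtain ⟨v, hv⟩ := (cr_some h).exists
  exact ⟨hv.2.2.2.1, hv.1, hv.2.1⟩

theorem ne_L {w : ℝ} {l : L6} (h : CL U T z w = some l) : l.1 ≠ l.2 ∧ l.1 ∈ T z ∧ l.2 ∈ T z := by
  obtain ⟨v, hv⟩ := (cl_some h).exists
  exact ⟨hv.2.2.2.1, hv.1, hv.2.1⟩

theorem mem_of_freq {w : ℝ} {i : Fin 6} {F : Filter ℝ} (hF : F ≤ 𝓝 w) (h : ∃ᶠ v in F, i ∈ T (pt z v)) :
    i ∈ T (pt z w) :=
  (C.irr.closed i).mem_of_frequently_of_tendsto (h.mono fun v hv => hv)
    (((continuous_pt z).tendsto w).mono_left hF)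

theorem mem_R {w : ℝ} {l : L6} (h : CR U T z w = some l) : l.1 ∈ T (pt z w) ∧ l.2 ∈ T (pt z w) := by
  have h1 := cr_some h
  refine ⟨C.mem_of_freq nhdsWithin_le_nhds (h1.mono fun v hv => ?_).frequently,
    C.mem_of_freq nhdsWithin_le_nhds (h1.mono fun v hv => ?_).frequently⟩
  · rw [hv.2.2.1]; exact Or.inl rfl
  · rw [hv.2.2.1]; exact Or.inr rfl

theorem mem_L {w : ℝ} {l : L6} (h : CL U T z w = some l) : l.1 ∈ T (pt z w) ∧ l.2 ∈ T (pt z w) := by
  have h1 := cl_some h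
  refine ⟨C.mem_of_freq nhdsWithin_le_nhds (h1.mono fun v hv => ?_).frequently,
    C.mem_of_freq nhdsWithin_le_nhds (h1.mono fun v hv => ?_).frequently⟩
  · rw [hv.2.2.1]; exact Or.inl rfl
  · rw [hv.2.2.1]; exact Or.inr rfl

/-- a colour which is an inner letter near `w` is absent outside near `pt z w` -/
theorem out_of_inner {w : ℝ} {i : Fin 6} (h : ∃ᶠ v in 𝓝 w, ∃ j, v ∈ OC U T z (i, j)) :
    OutF U z (pt z w) i := by
  obtain ⟨v0, j0, hv0⟩ := h.exists
  rcases C.irr.mx.sided_of_ct (z := z) (V := pt z w) (C.ct i hv0.1) with h1 | h1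
  · exact h1
  · exfalso
    have h2 : ∀ᶠ v in 𝓝 w, InF U z (pt z v) i :=
      (continuous_pt z).continuousAt.eventually (Filter.Eventually.eventually_nhds h1)
    obtain ⟨v, ⟨j, hv⟩, hv2⟩ := (h.and_eventually h2).exists
    refine C.irr.not_both_free (c := i) (V := pt z v) (z := z) ?_ ?_ hv2
    · rw [hv.2.2.1]; exact Or.inl rfl
    · exact hv.2.2.2.2.mono fun x hx => hx.1

theorem in_of_outer {w : ℝ} {j : Fin 6} (h : ∃ᶠ v in 𝓝 w, ∃ i, v ∈ OC U T z (i, j)) :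
    InF U z (pt z w) j := by
  obtain ⟨v0, j0, hv0⟩ := h.exists
  rcases C.irr.mx.sided_of_ct (z := z) (V := pt z w) (C.ct j hv0.2.1) with h1 | h1
  · exfalso
    have h2 : ∀ᶠ v in 𝓝 w, OutF U z (pt z v) j :=
      (continuous_pt z).continuousAt.eventually (Filter.Eventually.eventually_nhds h1)
    obtain ⟨v, ⟨i, hv⟩, hv2⟩ := (h.and_eventually h2).exists
    refine C.irr.not_both_free (c := j) (V := pt z v) (z := z) ?_ hv2 ?_
    · rw [hv.2.2.1]; exact Or.inr rfl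
    · exact hv.2.2.2.2.mono fun x hx => hx.2
  · exact h1

theorem sided_R {w : ℝ} {l : L6} (h : CR U T z w = some l) :
    OutF U z (pt z w) l.1 ∧ InF U z (pt z w) l.2 := by
  have h1 : ∃ᶠ v in 𝓝 w, v ∈ OC U T z l := (cr_some h).frequently.filter_mono nhdsWithin_le_nhds
  exact ⟨C.out_of_inner (h1.mono fun _ hv => ⟨_, hv⟩), C.in_of_outer (h1.mono fun _ hv => ⟨_, hv⟩)⟩

theorem sided_L {w : ℝ} {l : L6} (h : CL U T z w = some l) :
    OutF U z (pt z w) l.1 ∧ InF U z (pt z w) l.2 := by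
  have h1 : ∃ᶠ v in 𝓝 w, v ∈ OC U T z l := (cl_some h).frequently.filter_mono nhdsWithin_le_nhds
  exact ⟨C.out_of_inner (h1.mono fun _ hv => ⟨_, hv⟩), C.in_of_outer (h1.mono fun _ hv => ⟨_, hv⟩)⟩

/-- **ct rule** -/
theorem no_swap {w : ℝ} {l m : L6} (hl : CL U T z w = some l) (hm : CR U T z w = some m) :
    l.1 ≠ m.2 ∧ l.2 ≠ m.1 := by
  obtain ⟨l1, l2⟩ := C.sided_L hl
  obtain ⟨r1, r2⟩ := C.sided_R hm
  obtain ⟨m1, m2⟩ := C.mem_L hl
  refine ⟨fun h => ?_, fun h => ?_⟩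
  · rw [← h] at r2
    exact C.irr.not_both_free m1 l1 r2
  · rw [← h] at r1
    exact C.irr.not_both_free m2 r1 l2

/-! ### half arcs -/

/-- a colour which is carried by the half arc just after `w` -/
theorem hc_of_ev_R {w : ℝ} {i : Fin 6} (h : ∀ᶠ v in 𝓝[>] w, i ∈ T (pt z v)) : Hc U z (pt z w) 1 i := by
  have hpi := Real.pi_pos
  have ht : Tendsto (fun δ : ℝ => w + 1 * δ * (3 / Real.pi)) (𝓝[>] 0) (𝓝[>] w) := by
    refine tendsto_nhdsWithin_iff.2 ⟨?_, ?_⟩
    · have := (by fun_prop : Continuous fun δ : ℝ => w + 1 * δ * (3 / Real.pi)).tendsto 0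
      simp only [mul_zero, zero_mul, add_zero] at this
      exact this.mono_left nhdsWithin_le_nhds
    · filter_upwards [self_mem_nhdsWithin] with δ hδ
      have hδ : 0 < δ := hδ
      show w < w + 1 * δ * (3 / Real.pi)
      have : 0 < 1 * δ * (3 / Real.pi) := by positivity
      linarith
  filter_upwards [ht.eventually h] with δ hδ
  rw [C6.pt_turn]
  exact C.irr.sub _ hδ

theorem hc_of_ev_L {w : ℝ} {i : Fin 6} (h : ∀ᶠ v in 𝓝[<] w, i ∈ T (pt z v)) : Hc U z (pt z w) (-1) i := by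
  have hpi := Real.pi_pos
  have ht : Tendsto (fun δ : ℝ => w + -1 * δ * (3 / Real.pi)) (𝓝[>] 0) (𝓝[<] w) := by
    refine tendsto_nhdsWithin_iff.2 ⟨?_, ?_⟩
    · have := (by fun_prop : Continuous fun δ : ℝ => w + -1 * δ * (3 / Real.pi)).tendsto 0
      simp only [mul_zero, zero_mul, add_zero] at this
      exact this.mono_left nhdsWithin_le_nhds
    · filter_upwards [self_mem_nhdsWithin] with δ hδ
      have hδ : 0 < δ := hδ
      show w + -1 * δ * (3 / Real.pi) < w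
      have : 0 < δ * (3 / Real.pi) := by positivity
      linarith
  filter_upwards [ht.eventually h] with δ hδ
  rw [C6.pt_turn]
  exact C.irr.sub _ hδ

theorem hc_R {w : ℝ} {l : L6} (h : CR U T z w = some l) {i : Fin 6} (hi : i = l.1 ∨ i = l.2) :
    Hc U z (pt z w) 1 i := by
  refine C.hc_of_ev_R ((cr_some h).mono fun v hv => ?_)
  rw [hv.2.2.1]
  rcases hi with h | h
  · exact Or.inl h
  · exact Or.inr h

theorem hc_L {w : ℝ} {l : L6} (h : CL U T z w = some l) {i : Fin 6} (hi : i = l.1 ∨ i = l.2) :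
    Hc U z (pt z w) (-1) i := by
  refine C.hc_of_ev_L ((cl_some h).mono fun v hv => ?_)
  rw [hv.2.2.1]
  rcases hi with h | h
  · exact Or.inl h
  · exact Or.inr h

/-! ### foreign letters -/

/-- a foreign half arc: some foreign colour is present at its end -/
theorem for_exists_R {w : ℝ} (h : CR U T z w = none) : ∃ i ∈ T (pt z w), i ∉ T z := by
  have h1 : ∃ᶠ v in 𝓝[>] w, ∃ i : Fin 6, i ∈ T (pt z v) ∧ i ∉ T z := (C.cr_none h).frequently
  obtain ⟨i, hi⟩ := frequently_exists.1 h1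
  obtain ⟨v, hv⟩ := hi.exists
  exact ⟨i, C.mem_of_freq nhdsWithin_le_nhds (hi.mono fun v hv => hv.1), hv.2⟩

theorem for_exists_L {w : ℝ} (h : CL U T z w = none) : ∃ i ∈ T (pt z w), i ∉ T z := by
  have h1 : ∃ᶠ v in 𝓝[<] w, ∃ i : Fin 6, i ∈ T (pt z v) ∧ i ∉ T z := (C.cl_none h).frequently
  obtain ⟨i, hi⟩ := frequently_exists.1 h1
  obtain ⟨v, hv⟩ := hi.exists
  exact ⟨i, C.mem_of_freq nhdsWithin_le_nhds (hi.mono fun v hv => hv.1), hv.2⟩

/-- five colours: the sixth one is carried by the foreign half arcs -/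
theorem for_hc_R {w : ℝ} {f : Fin 6} (hf : ∀ i, i ≠ f → i ∈ T z) (h : CR U T z w = none) :
    Hc U z (pt z w) 1 f ∧ f ∈ T (pt z w) := by
  have h1 : ∀ᶠ v in 𝓝[>] w, f ∈ T (pt z v) := (C.cr_none h).mono fun v hv => by
    obtain ⟨i, hi, hiz⟩ := hv
    by_cases e : i = f
    · rw [← e]; exact hi
    · exact absurd (hf i e) hiz
  exact ⟨C.hc_of_ev_R h1, C.mem_of_freq nhdsWithin_le_nhds h1.frequently⟩

theorem for_hc_L {w : ℝ} {f : Fin 6} (hf : ∀ i, i ≠ f → i ∈ T z) (h : CL U T z w = none) :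
    Hc U z (pt z w) (-1) f ∧ f ∈ T (pt z w) := by
  have h1 : ∀ᶠ v in 𝓝[<] w, f ∈ T (pt z v) := (C.cl_none h).mono fun v hv => by
    obtain ⟨i, hi, hiz⟩ := hv
    by_cases e : i = f
    · rw [← e]; exact hi
    · exact absurd (hf i e) hiz
  exact ⟨C.hc_of_ev_L h1, C.mem_of_freq nhdsWithin_le_nhds h1.frequently⟩

/-! ### the rule of 60 degrees -/

/-- the two letters of an exact time are missing at the points at distance one, off the line -/
theorem free_of_oc {v : ℝ} {l : L6} (h : v ∈ OC U T z l) {x : ℂ} (hd : dist (pt z v) x = 1) (h1 : x ≠ z)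
    (h2 : x + z ≠ 2 * pt z v) : l.1 ∉ Pal U x ∧ l.2 ∉ Pal U x := by
  have harc := C.irr.arc_of_pair h.1 h.2.1 h.2.2.1
  refine ⟨line_free C.irr (dist_pt z v) (harc.mono fun q hq => ?_) hd h1 h2,
    line_free C.irr (dist_pt z v) (harc.mono fun q hq => ?_) hd h1 h2⟩
  · rw [hq]; exact Or.inl rfl
  · rw [hq]; exact Or.inr rfl

/-- the letters of an exact half arc are missing near the points at 60 degrees, on the same side -/
theorem sixty_R {w : ℝ} {l : L6} (h : CR U T z w = some l) :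
    ∀ᶠ v in 𝓝[>] w, (l.1 ∉ T (pt z (v + 1)) ∧ l.2 ∉ T (pt z (v + 1))) ∧
      (l.1 ∉ T (pt z (v - 1)) ∧ l.2 ∉ T (pt z (v - 1))) := by
  filter_upwards [cr_some h] with v hv
  have e1 := dist_pt_one z v
  have e2 := dist_pt_one z (v - 1)
  rw [sub_add_cancel] at e2
  obtain ⟨a1, a2⟩ := tri (dist_pt z v) (dist_pt z (v + 1))
  obtain ⟨b1, b2⟩ := tri (dist_pt z v) (dist_pt z (v - 1))
  obtain ⟨f1, f2⟩ := C.free_of_oc hv e1 (fun h => a1 h.symm) (fun h => a2 (by rw [← h]; ring))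
  obtain ⟨g1, g2⟩ := C.free_of_oc hv (x := pt z (v - 1)) (by rw [dist_comm]; exact e2)
    (fun h => b1 h.symm) (fun h => b2 (by rw [← h]; ring))
  exact ⟨⟨fun h => f1 (C.irr.sub _ h), fun h => f2 (C.irr.sub _ h)⟩,
    fun h => g1 (C.irr.sub _ h), fun h => g2 (C.irr.sub _ h)⟩

theorem sixty_L {w : ℝ} {l : L6} (h : CL U T z w = some l) :
    ∀ᶠ v in 𝓝[<] w, (l.1 ∉ T (pt z (v + 1)) ∧ l.2 ∉ T (pt z (v + 1))) ∧
      (l.1 ∉ T (pt z (v - 1)) ∧ l.2 ∉ T (pt z (v - 1))) := by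
  filter_upwards [cl_some h] with v hv
  have e1 := dist_pt_one z v
  have e2 := dist_pt_one z (v - 1)
  rw [sub_add_cancel] at e2
  obtain ⟨a1, a2⟩ := tri (dist_pt z v) (dist_pt z (v + 1))
  obtain ⟨b1, b2⟩ := tri (dist_pt z v) (dist_pt z (v - 1))
  obtain ⟨f1, f2⟩ := C.free_of_oc hv e1 (fun h => a1 h.symm) (fun h => a2 (by rw [← h]; ring))
  obtain ⟨g1, g2⟩ := C.free_of_oc hv (x := pt z (v - 1)) (by rw [dist_comm]; exact e2)
    (fun h => b1 h.symm) (fun h => b2 (by rw [← h]; ring))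
  exact ⟨⟨fun h => f1 (C.irr.sub _ h), fun h => f2 (C.irr.sub _ h)⟩,
    fun h => g1 (C.irr.sub _ h), fun h => g2 (C.irr.sub _ h)⟩

omit C in
theorem tendsto_one_right (u c : ℝ) : Tendsto (fun v : ℝ => v + c) (𝓝[>] u) (𝓝[>] (u + c)) := by
  refine tendsto_nhdsWithin_iff.2 ⟨?_, ?_⟩
  · exact ((by fun_prop : Continuous fun v : ℝ => v + c).tendsto u).mono_left nhdsWithin_le_nhds
  · filter_upwards [self_mem_nhdsWithin] with v hv
    have hv : u < v := hv
    show u + c < v + c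
    linarith

omit C in
theorem tendsto_one_left (u c : ℝ) : Tendsto (fun v : ℝ => v + c) (𝓝[<] u) (𝓝[<] (u + c)) := by
  refine tendsto_nhdsWithin_iff.2 ⟨?_, ?_⟩
  · exact ((by fun_prop : Continuous fun v : ℝ => v + c).tendsto u).mono_left nhdsWithin_le_nhds
  · filter_upwards [self_mem_nhdsWithin] with v hv
    have hv : v < u := hv
    show v + c < u + c
    linarith

/-- **the rule of 60 degrees** for exact letters just after `w` -/
theorem sixty {w : ℝ} {l m : L6} (hl : CR U T z w = some l) (hm : CR U T z (w + 1) = some m) :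
    l.1 ≠ m.1 ∧ l.1 ≠ m.2 ∧ l.2 ≠ m.1 ∧ l.2 ≠ m.2 := by
  obtain ⟨v, hv1, hv2⟩ := ((C.sixty_R hl).and ((tendsto_one_right w 1).eventually (cr_some hm))).exists
  have h3 : T (pt z (v + 1)) = {m.1, m.2} := hv2.2.2.1
  obtain ⟨⟨h1, h2⟩, -⟩ := hv1
  rw [h3] at h1 h2
  refine ⟨fun e => h1 (Or.inl e), fun e => h1 (Or.inr e), fun e => h2 (Or.inl e), fun e => h2 (Or.inr e)⟩

theorem sixty' {w : ℝ} {l m : L6} (hl : CL U T z w = some l) (hm : CL U T z (w + 1) = some m) :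
    l.1 ≠ m.1 ∧ l.1 ≠ m.2 ∧ l.2 ≠ m.1 ∧ l.2 ≠ m.2 := by
  obtain ⟨v, hv1, hv2⟩ := ((C.sixty_L hl).and ((tendsto_one_left w 1).eventually (cl_some hm))).exists
  have h3 : T (pt z (v + 1)) = {m.1, m.2} := hv2.2.2.1
  obtain ⟨⟨h1, h2⟩, -⟩ := hv1
  rw [h3] at h1 h2
  refine ⟨fun e => h1 (Or.inl e), fun e => h1 (Or.inr e), fun e => h2 (Or.inl e), fun e => h2 (Or.inr e)⟩

/-! ### limit directions -/

theorem dir_in {u θ : ℝ} {l : L6} (hu : u ∈ OC U T z l) (hθ : θ ∈ Dr T z l.1) :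
    0 ≤ Real.cos ((θ - u) * (Real.pi / 3)) := by
  have harc : Arc T z (pt z u) {l.1, l.2} :=
    ⟨dist_pt z u, C.irr.arc_of_pair hu.1 hu.2.1 hu.2.2.1⟩
  exact dr_in C.irr hθ ((C.irr.sd_center harc hu.2.2.2.2).mono fun x hx => hx.1)

theorem dir_out {u θ : ℝ} {l : L6} (hu : u ∈ OC U T z l) (hθ : θ ∈ Dr T z l.2) :
    Real.cos ((θ - u) * (Real.pi / 3)) ≤ 0 := by
  have harc : Arc T z (pt z u) {l.1, l.2} :=
    ⟨dist_pt z u, C.irr.arc_of_pair hu.1 hu.2.1 hu.2.2.1⟩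
  exact dr_out C.irr hθ ((C.irr.sd_center harc hu.2.2.2.2).mono fun x hx => hx.2)

theorem dir_L_in {u θ : ℝ} {l : L6} (h : CL U T z u = some l) (hθ : θ ∈ Dr T z l.1) :
    0 ≤ Real.cos ((θ - u) * (Real.pi / 3)) := by
  have h1 : ∀ᶠ v in 𝓝[<] u, 0 ≤ Real.cos ((θ - v) * (Real.pi / 3)) :=
    (cl_some h).mono fun v hv => C.dir_in hv hθ
  exact ge_of_tendsto (((by fun_prop : Continuous fun v : ℝ =>
    Real.cos ((θ - v) * (Real.pi / 3))).tendsto u).mono_left nhdsWithin_le_nhds) h1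

theorem dir_R_in {u θ : ℝ} {l : L6} (h : CR U T z u = some l) (hθ : θ ∈ Dr T z l.1) :
    0 ≤ Real.cos ((θ - u) * (Real.pi / 3)) := by
  have h1 : ∀ᶠ v in 𝓝[>] u, 0 ≤ Real.cos ((θ - v) * (Real.pi / 3)) :=
    (cr_some h).mono fun v hv => C.dir_in hv hθ
  exact ge_of_tendsto (((by fun_prop : Continuous fun v : ℝ =>
    Real.cos ((θ - v) * (Real.pi / 3))).tendsto u).mono_left nhdsWithin_le_nhds) h1

theorem dir_L_out {u θ : ℝ} {l : L6} (h : CL U T z u = some l) (hθ : θ ∈ Dr T z l.2) :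
    Real.cos ((θ - u) * (Real.pi / 3)) ≤ 0 := by
  have h1 : ∀ᶠ v in 𝓝[<] u, Real.cos ((θ - v) * (Real.pi / 3)) ≤ 0 :=
    (cl_some h).mono fun v hv => C.dir_out hv hθ
  exact le_of_tendsto (((by fun_prop : Continuous fun v : ℝ =>
    Real.cos ((θ - v) * (Real.pi / 3))).tendsto u).mono_left nhdsWithin_le_nhds) h1

theorem dir_R_out {u θ : ℝ} {l : L6} (h : CR U T z u = some l) (hθ : θ ∈ Dr T z l.2) :
    Real.cos ((θ - u) * (Real.pi / 3)) ≤ 0 := by
  have h1 : ∀ᶠ v in 𝓝[>] u, Real.cos ((θ - v) * (Real.pi / 3)) ≤ 0 :=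
    (cr_some h).mono fun v hv => C.dir_out hv hθ
  exact le_of_tendsto (((by fun_prop : Continuous fun v : ℝ =>
    Real.cos ((θ - v) * (Real.pi / 3))).tendsto u).mono_left nhdsWithin_le_nhds) h1

end Cn

/-! ### centres of the frame -/

theorem pt_near' {z : ℂ} (u : ℝ) : ∀ᶠ v in 𝓝[≠] u, pt z v ≠ pt z u := by
  have h1 : ∀ᶠ v in 𝓝 u, |v - u| < 6 := by
    have : Tendsto (fun v : ℝ => |v - u|) (𝓝 u) (𝓝 |u - u|) := by
      exact ((continuous_id.sub continuous_const).abs).tendsto u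
    rw [sub_self, abs_zero] at this
    exact this.eventually_lt_const (by norm_num)
  filter_upwards [mem_nhdsWithin_of_mem_nhds h1, self_mem_nhdsWithin] with v hv hne he
  have h2 : cis (v * (Real.pi / 3)) = cis (u * (Real.pi / 3)) := by
    unfold pt at he; exact add_left_cancel he
  unfold cis at h2
  obtain ⟨n, hn⟩ := Complex.exp_eq_exp_iff_exists_int.1 h2
  have h3 := congrArg Complex.im hn
  simp at h3
  have hpi := Real.pi_pos
  have h4 : v - u = 6 * n := by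
    have : v * (Real.pi / 3) = (u + 6 * n) * (Real.pi / 3) := by rw [h3]; ring
    have := mul_right_cancel₀ (by positivity : Real.pi / 3 ≠ 0) this
    linarith
  rw [h4] at hv
  rw [abs_lt] at hv
  have h5 : (n : ℝ) < 1 := by linarith [hv.2]
  have h6 : (-1 : ℝ) < n := by linarith [hv.1]
  have h7 : n < 1 := by exact_mod_cast h5
  have h8 : -1 < n := by exact_mod_cast h6
  have h9 : n = 0 := by omega
  subst h9
  exact hne (by show v = u; push_cast at h4; linarith)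

/-- exceptional points are isolated on every circle -/
theorem lf_circ (hl : LF3 U T) (z : ℂ) (u : ℝ) : ∀ᶠ v in 𝓝[≠] u, ¬ Ex3 U T (pt z v) := by
  obtain ⟨t, ht, hfin⟩ := hl (pt z u)
  have h1 : ∀ᶠ v in 𝓝[≠] u, pt z v ∈ t :=
    ((continuous_pt z).continuousAt.eventually ht).filter_mono nhdsWithin_le_nhds
  have hfin2 : (({y | y ∈ XX U ∧ 3 ≤ (T y).ncard} ∩ t) \ {pt z u}).Finite := hfin.subset sdiff_subset
  have h2 : ∀ᶠ v in 𝓝 u, pt z v ∉ ({y | y ∈ XX U ∧ 3 ≤ (T y).ncard} ∩ t) \ {pt z u} := by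
    have : (({y | y ∈ XX U ∧ 3 ≤ (T y).ncard} ∩ t) \ {pt z u})ᶜ ∈ 𝓝 (pt z u) :=
      hfin2.isClosed.isOpen_compl.mem_nhds (by simp)
    exact (continuous_pt z).continuousAt.eventually this
  filter_upwards [h1, h2.filter_mono nhdsWithin_le_nhds, pt_near' (z := z) u] with v hv1 hv2 hv3 hv4
  exact hv2 ⟨⟨hv4, hv1⟩, hv3⟩

/-- **Centres of the frame.** -/
theorem Cn.of_lf (h : Irr U T) (hl : LF3 U T) (hct : ∀ i ∈ T z, Ct U z i) : Cn U T z :=
  ⟨h, hct, lf_circ hl z⟩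

/-- the half plane of every colour -/
def HpC (T : ℂ → Set (Fin 6)) (z : ℂ) : Prop :=
  ∀ c ∈ T z, ∃ V : ℝ, ∀ θ ∈ Dr T z c, 0 ≤ Real.cos ((θ - V) * (Real.pi / 3))

end Vale.Agent.P032.H892
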