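import Vale.Agent.P032X.H892.Joint

/-!
# P032: freeze certificates

* `Cn.run1` : induction for the letter of one circle in one direction; `Cn.freeze`, `Cn.freeze_back` : a letter which
  cannot change forwards (backwards) during `(a, b)` is constant there,
* `Cn.no_freeze`, `Cn.no_freeze_back` : the forms with a turn by 60 degrees: position `j` of the circle `S(z)`.
-/

open Set Filter Topology Metric

noncomputable section

namespace Vale.Agent.P032.H892

open Vale.Agent.P032.Six Vale.Agent.P032.Words Vale.Agent.P032.S5.H767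

variable {U : Fin 6 → Set ℂ} {T : ℂ → Set (Fin 6)} {z : ℂ}

namespace Cn

variable (C : Cn U T z)
include C

/-- **Induction** for the letter of one circle in one direction -/
theorem run1 {I : Option L6 → Prop} {a b : ℝ} (hab : a < b) (h0 : I (CR U T z a))
    (hstep : ∀ u ∈ Ioo a b, I (CL U T z u) → I (CR U T z u)) : I (CL U T z b) :=
  run0 (σ := fun v => CR U T z v) (σl := fun v => CL U T z v) (σr := fun v => CR U T z v) (I := I) hab
    (fun u _ => (C.ev_left u).mono fun v hv => hv.1) (fun u _ => (C.ev_right u).mono fun v hv => hv.1)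
    h0 hstep

/-- a letter which cannot be left forwards -/
theorem freeze {L : Option L6} {a b : ℝ} (hab : a < b) (h0 : CR U T z a = L)
    (hstep : ∀ u ∈ Ioo a b, CL U T z u = L → CR U T z u = L) : CL U T z b = L :=
  C.run1 (I := fun s => s = L) hab h0 hstep

/-- a letter which cannot be left backwards -/
theorem freeze_back {L : Option L6} {a b : ℝ} (hab : a < b) (h0 : CL U T z b = L)
    (hstep : ∀ u ∈ Ioo a b, CR U T z u = L → CL U T z u = L) : CR U T z a = L := by
  by_contra hcon
  exact C.run1 (I := fun s => s ≠ L) hab hcon (fun u hu h1 h2 => h1 (hstep u hu h2)) h0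

/-- the letter is constant on the open interval, forwards -/
theorem freeze_all {L : Option L6} {a b : ℝ} (h0 : CR U T z a = L)
    (hstep : ∀ u ∈ Ioo a b, CL U T z u = L → CR U T z u = L) :
    ∀ u ∈ Ioo a b, CL U T z u = L ∧ CR U T z u = L := by
  intro u hu
  have h1 : CL U T z u = L := C.freeze hu.1 h0 fun v hv => hstep v ⟨hv.1, hv.2.trans hu.2⟩
  exact ⟨h1, hstep u hu h1⟩

/-- **Freeze certificate**: just after the class-zero event at `u1` the letter at the position `j` is `L`; no event
at a time in `(u1, u1 + 1)` changes the letter `L` of the position `j`; the letter at the position `j + 1` just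
before `u1` is not `L`. -/
theorem no_freeze {u1 : ℝ} {j : Fin 6} {L : Option L6} (h0 : CR U T z (u1 + (j.val : ℝ)) = L)
    (hstep : ∀ u ∈ Ioo u1 (u1 + 1), CL U T z (u + (j.val : ℝ)) = L → CR U T z (u + (j.val : ℝ)) = L)
    (hend : CL U T z (u1 + ((j + 1 : Fin 6).val : ℝ)) ≠ L) : False := by
  have h1 := C.freeze (a := u1 + j.val) (b := u1 + j.val + 1) (by linarith) h0 fun u hu h2 => by
    have h3 := hstep (u - j.val) ⟨by linarith [hu.1], by linarith [hu.2]⟩
    rw [sub_add_cancel] at h3
    exact h3 h2
  apply hend
  obtain ⟨m, hm⟩ := fin6_succ j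
  have : u1 + ((j + 1 : Fin 6).val : ℝ) = u1 + j.val + 1 + 6 * m := by rw [hm]; ring
  rw [this, C.cl_per]
  exact h1

/-- **Freeze certificate, backwards**: just before the class-zero event at `u1` the letter at the position `j + 1` is
`L`; no event at a time in `(u1, u1 + 1)` creates the letter `L` at the position `j`; the letter at the
position `j` just after `u1` is not `L`. -/
theorem no_freeze_back {u1 : ℝ} {j : Fin 6} {L : Option L6}
    (h0 : CL U T z (u1 + ((j + 1 : Fin 6).val : ℝ)) = L)
    (hstep : ∀ u ∈ Ioo u1 (u1 + 1), CR U T z (u + (j.val : ℝ)) = L → CL U T z (u + (j.val : ℝ)) = L)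
    (hend : CR U T z (u1 + (j.val : ℝ)) ≠ L) : False := by
  apply hend
  refine C.freeze_back (a := u1 + j.val) (b := u1 + j.val + 1) (by linarith) ?_ fun u hu h2 => ?_
  · obtain ⟨m, hm⟩ := fin6_succ j
    have : u1 + ((j + 1 : Fin 6).val : ℝ) = u1 + j.val + 1 + 6 * m := by rw [hm]; ring
    rw [this, C.cl_per] at h0
    exact h0
  · have h3 := hstep (u - j.val) ⟨by linarith [hu.1], by linarith [hu.2]⟩
    rw [sub_add_cancel] at h3
    exact h3 h2

end Cn

end Vale.Agent.P032.H892
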