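import Vale.Agent.P032X.H892.Joint

/-!
# P032: several centres with germ bits in the state

Class 0 = the directions `u1 + m` (`m < 6`), class `β` = the directions `u + m`, `u1 < u < u1 + 1`.  For the centre
`Z j`, the colour `q` and the sector `m` the two bits are

* `A` : some limit direction of `q` at `Z j` is between `u1 + m` and `u + m` (`gAl` just before, `gAr` just after `u`),
* `B` : some limit direction of `q` at `Z j` is between `u + m` and `u1 + m + 1` (`gBl`, `gBr`).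

`A` grows, `B` shrinks, and they change at the time `u` only if `u + m` is a limit direction of `q` (`gA_step`,
`gB_step`).  `runG` : induction over `(u1, u1 + 1)` with the letters and the bits; `no_closureG`, `no_boxG` : closure and
box form; `runGF`, `no_closureGF` : with the flag `some letter has changed`.
-/

open Set Filter Topology Metric

noncomputable section

namespace Vale.Agent.P032.H892

open Vale.Agent.P032.Six Vale.Agent.P032.Words Vale.Agent.P032.S5.H767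

/-! ### one closed set -/

section one
variable {D : Set ℝ}

/-- `D` accumulates at `a` from the right -/
def AccR (D : Set ℝ) (a : ℝ) : Prop := ∃ᶠ v in 𝓝[>] a, v ∈ D

/-- `D` accumulates at `b` from the left -/
def AccL (D : Set ℝ) (b : ℝ) : Prop := ∃ᶠ v in 𝓝[<] b, v ∈ D

theorem AccR.mem (hD : IsClosed D) {a : ℝ} (h : AccR D a) : a ∈ D :=
  hD.mem_of_frequently_of_tendsto h (tendsto_id.mono_left nhdsWithin_le_nhds)

theorem AccL.mem (hD : IsClosed D) {b : ℝ} (h : AccL D b) : b ∈ D :=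
  hD.mem_of_frequently_of_tendsto h (tendsto_id.mono_left nhdsWithin_le_nhds)

theorem AccR.ne {a b : ℝ} (h : AccR D a) (hab : a < b) : (D ∩ Ioo a b).Nonempty := by
  obtain ⟨v, hv, hv2⟩ := (h.and_eventually (Ioo_mem_nhdsGT hab)).exists
  exact ⟨v, hv, hv2⟩

theorem AccL.ne {a b : ℝ} (h : AccL D b) (hab : a < b) : (D ∩ Ioo a b).Nonempty := by
  obtain ⟨v, hv, hv2⟩ := (h.and_eventually (Ioo_mem_nhdsLT hab)).exists
  exact ⟨v, hv, hv2⟩

/-- near the left of `u` -/
theorem bitA_left {a u : ℝ} : ∀ᶠ v in 𝓝[<] u, (D ∩ Ioc a v).Nonempty = (D ∩ Ioo a u).Nonempty := by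
  by_cases h : (D ∩ Ioo a u).Nonempty
  · obtain ⟨δ, hδ, h1, h2⟩ := h
    filter_upwards [Ioo_mem_nhdsLT h2] with v hv
    exact propext ⟨fun _ => ⟨δ, hδ, h1, h2⟩, fun _ => ⟨δ, hδ, h1, hv.1.le⟩⟩
  · filter_upwards [self_mem_nhdsWithin] with v hv
    have hv : v < u := hv
    exact propext ⟨fun ⟨x, hx, h1, h2⟩ => ⟨x, hx, h1, lt_of_le_of_lt h2 hv⟩, fun h' => absurd h' h⟩

/-- near the right of `u`, `a ≤ u` -/
theorem bitA_right (hD : IsClosed D) {a u : ℝ} (hau : a ≤ u) :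
    ∀ᶠ v in 𝓝[>] u, (D ∩ Ioc a v).Nonempty = ((D ∩ Ioc a u).Nonempty ∨ (u = a ∧ AccR D a)) := by
  by_cases h : (D ∩ Ioc a u).Nonempty
  · filter_upwards [self_mem_nhdsWithin] with v hv
    have hv : u < v := hv
    obtain ⟨δ, hδ, h1, h2⟩ := h
    exact propext ⟨fun _ => Or.inl ⟨δ, hδ, h1, h2⟩, fun _ => ⟨δ, hδ, h1, h2.trans hv.le⟩⟩
  · by_cases hacc : AccR D u
    · have hu := hacc.mem hD
      have hua : u = a := by
        by_contra hne
        exact h ⟨u, hu, lt_of_le_of_ne hau (Ne.symm hne), le_refl u⟩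
      filter_upwards [self_mem_nhdsWithin] with v hv
      have hv : u < v := hv
      refine propext ⟨fun _ => Or.inr ⟨hua, hua ▸ hacc⟩, fun _ => ?_⟩
      obtain ⟨x, hx, h1, h2⟩ := hacc.ne hv
      exact ⟨x, hx, by rw [← hua]; exact h1, h2.le⟩
    · have hev : ∀ᶠ v in 𝓝[>] u, v ∉ D := not_frequently.1 hacc
      obtain ⟨w, hw, hs⟩ := (mem_nhdsGT_iff_exists_Ioo_subset (a := u)).1 hev
      have hw : u < w := hw
      filter_upwards [Ioo_mem_nhdsGT hw] with v hv
      refine propext ⟨?_, ?_⟩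
      · rintro ⟨x, hx, h1, h2⟩
        rcases le_or_gt x u with h3 | h3
        · exact absurd ⟨x, hx, h1, h3⟩ h
        · exact absurd hx (hs ⟨h3, lt_of_le_of_lt h2 hv.2⟩)
      · rintro (h' | ⟨h1, h2⟩)
        · exact absurd h' h
        · exact absurd (h1 ▸ h2) hacc

/-- near the right of `u` -/
theorem bitB_right {u b : ℝ} : ∀ᶠ v in 𝓝[>] u, (D ∩ Ioo v b).Nonempty = (D ∩ Ioo u b).Nonempty := by
  by_cases h : (D ∩ Ioo u b).Nonempty
  · obtain ⟨δ, hδ, h1, h2⟩ := h
    filter_upwards [Ioo_mem_nhdsGT h1] with v hv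
    exact propext ⟨fun _ => ⟨δ, hδ, h1, h2⟩, fun _ => ⟨δ, hδ, hv.2, h2⟩⟩
  · filter_upwards [self_mem_nhdsWithin] with v hv
    have hv : u < v := hv
    exact propext ⟨fun ⟨x, hx, h1, h2⟩ => ⟨x, hx, hv.trans h1, h2⟩, fun h' => absurd h' h⟩

/-- near the left of `u`, `u ≤ b` -/
theorem bitB_left (hD : IsClosed D) {u b : ℝ} (hub : u ≤ b) :
    ∀ᶠ v in 𝓝[<] u, (D ∩ Ioo v b).Nonempty = ((D ∩ Ico u b).Nonempty ∨ (u = b ∧ AccL D b)) := by
  by_cases h : (D ∩ Ico u b).Nonempty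
  · filter_upwards [self_mem_nhdsWithin] with v hv
    have hv : v < u := hv
    obtain ⟨δ, hδ, h1, h2⟩ := h
    exact propext ⟨fun _ => Or.inl ⟨δ, hδ, h1, h2⟩, fun _ => ⟨δ, hδ, lt_of_lt_of_le hv h1, h2⟩⟩
  · by_cases hacc : AccL D u
    · have hu := hacc.mem hD
      have hua : u = b := by
        by_contra hne
        exact h ⟨u, hu, le_refl u, lt_of_le_of_ne hub hne⟩
      filter_upwards [self_mem_nhdsWithin] with v hv
      have hv : v < u := hv
      refine propext ⟨fun _ => Or.inr ⟨hua, hua ▸ hacc⟩, fun _ => ?_⟩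
      obtain ⟨x, hx, h1, h2⟩ := hacc.ne hv
      exact ⟨x, hx, h1, by rw [← hua]; exact h2⟩
    · have hev : ∀ᶠ v in 𝓝[<] u, v ∉ D := not_frequently.1 hacc
      obtain ⟨w, hw, hs⟩ := (mem_nhdsLT_iff_exists_Ioo_subset (a := u)).1 hev
      have hw : w < u := hw
      filter_upwards [Ioo_mem_nhdsLT hw] with v hv
      refine propext ⟨?_, ?_⟩
      · rintro ⟨x, hx, h1, h2⟩
        rcases le_or_gt u x with h3 | h3
        · exact absurd ⟨x, hx, h3, h2⟩ h
        · exact absurd hx (hs ⟨hv.1.trans h1, h3⟩)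
      · rintro (h' | ⟨h1, h2⟩)
        · exact absurd h' h
        · exact absurd (h1 ▸ h2) hacc

end one

/-! ### centres -/

variable {J : Type} {U : Fin 6 → Set ℂ} {T : ℂ → Set (Fin 6)} {Z : J → ℂ}

/-- germ bits: centre, sector, colour -/
abbrev GB (J : Type) := J → Fin 6 → Fin 6 → Prop

section
variable (T Z)

/-- the colour `q` has a limit direction strictly between `u1 + m` and `u1 + m + 1` -/
def gS (u1 : ℝ) : GB J := fun j m q => (Dr T (Z j) q ∩ Ioo (u1 + m.val) (u1 + m.val + 1)).Nonempty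

/-- the limit directions of `q` accumulate at `u1 + m` from the right -/
def gR (u1 : ℝ) : GB J := fun j m q => AccR (Dr T (Z j) q) (u1 + m.val)

/-- the limit directions of `q` accumulate at `u1 + m + 1` from the left -/
def gL (u1 : ℝ) : GB J := fun j m q => AccL (Dr T (Z j) q) (u1 + m.val + 1)

/-- bit `A` just before `u` -/
def gAl (u1 u : ℝ) : GB J := fun j m q => (Dr T (Z j) q ∩ Ioo (u1 + m.val) (u + m.val)).Nonempty

/-- bit `A` just after `u` -/
def gAr (u1 u : ℝ) : GB J := fun j m q => (Dr T (Z j) q ∩ Ioc (u1 + m.val) (u + m.val)).Nonempty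

/-- bit `B` just before `u` -/
def gBl (u1 u : ℝ) : GB J := fun j m q => (Dr T (Z j) q ∩ Ico (u + m.val) (u1 + m.val + 1)).Nonempty

/-- bit `B` just after `u` -/
def gBr (u1 u : ℝ) : GB J := fun j m q => (Dr T (Z j) q ∩ Ioo (u + m.val) (u1 + m.val + 1)).Nonempty

end

/-- the bits `A` at the time `u` -/
theorem gA_step {u1 u : ℝ} (h : u1 < u) (j : J) (m q : Fin 6) :
    gAr T Z u1 u j m q ↔ gAl T Z u1 u j m q ∨ u + m.val ∈ Dr T (Z j) q := by
  constructor
  · rintro ⟨x, hx, h1, h2⟩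
    rcases h2.lt_or_eq with h3 | h3
    · exact Or.inl ⟨x, hx, h1, h3⟩
    · exact Or.inr (h3 ▸ hx)
  · rintro (⟨x, hx, h1, h2⟩ | hx)
    · exact ⟨x, hx, h1, h2.le⟩
    · exact ⟨_, hx, by linarith, le_refl _⟩

/-- the bits `B` at the time `u` -/
theorem gB_step {u1 u : ℝ} (h : u < u1 + 1) (j : J) (m q : Fin 6) :
    gBl T Z u1 u j m q ↔ gBr T Z u1 u j m q ∨ u + m.val ∈ Dr T (Z j) q := by
  constructor
  · rintro ⟨x, hx, h1, h2⟩
    rcases h1.lt_or_eq with h3 | h3
    · exact Or.inl ⟨x, hx, h3, h2⟩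
    · exact Or.inr (h3 ▸ hx)
  · rintro (⟨x, hx, h1, h2⟩ | hx)
    · exact ⟨x, hx, h1.le, h2⟩
    · exact ⟨_, hx, le_refl _, by linarith⟩

theorem gA_mono {u1 u : ℝ} {j : J} {m q : Fin 6} (h : gAl T Z u1 u j m q) : gAr T Z u1 u j m q := by
  obtain ⟨x, hx, h1, h2⟩ := h
  exact ⟨x, hx, h1, h2.le⟩

theorem gB_mono {u1 u : ℝ} {j : J} {m q : Fin 6} (h : gBr T Z u1 u j m q) : gBl T Z u1 u j m q := by
  obtain ⟨x, hx, h1, h2⟩ := h
  exact ⟨x, hx, h1.le, h2⟩

/-- the whole sector -/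
theorem gS_iff {u1 u : ℝ} (h : u ∈ Ioo u1 (u1 + 1)) (j : J) (m q : Fin 6) :
    gS T Z u1 j m q ↔ gAl T Z u1 u j m q ∨ u + m.val ∈ Dr T (Z j) q ∨ gBr T Z u1 u j m q := by
  constructor
  · rintro ⟨x, hx, h1, h2⟩
    rcases lt_trichotomy x (u + m.val) with h3 | h3 | h3
    · exact Or.inl ⟨x, hx, h1, h3⟩
    · exact Or.inr (Or.inl (h3 ▸ hx))
    · exact Or.inr (Or.inr ⟨x, hx, h3, h2⟩)
  · rintro (⟨x, hx, h1, h2⟩ | hx | ⟨x, hx, h1, h2⟩)
    · exact ⟨x, hx, h1, by linarith [h.2]⟩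
    · exact ⟨_, hx, by linarith [h.1], by linarith [h.2]⟩
    · exact ⟨x, hx, by linarith [h.1], h2⟩

/-- accumulation of directions at `u + m` -/
theorem gAl_of_acc {u1 u : ℝ} (h : u1 < u) {j : J} {m q : Fin 6} (ha : AccL (Dr T (Z j) q) (u + m.val)) :
    gAl T Z u1 u j m q := ha.ne (by linarith)

theorem gBr_of_acc {u1 u : ℝ} (h : u < u1 + 1) {j : J} {m q : Fin 6} (ha : AccR (Dr T (Z j) q) (u + m.val)) :
    gBr T Z u1 u j m q := ha.ne (by linarith)

theorem tendsto_add_left (u c : ℝ) : Tendsto (fun v => v + c) (𝓝[<] u) (𝓝[<] (u + c)) := by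
  refine tendsto_nhdsWithin_of_tendsto_nhds_of_eventually_within _ ?_ ?_
  · exact (tendsto_id.add_const c).mono_left nhdsWithin_le_nhds
  · filter_upwards [self_mem_nhdsWithin] with v hv
    have hv : v < u := hv
    show v + c < u + c
    linarith

theorem tendsto_add_right (u c : ℝ) : Tendsto (fun v => v + c) (𝓝[>] u) (𝓝[>] (u + c)) := by
  refine tendsto_nhdsWithin_of_tendsto_nhds_of_eventually_within _ ?_ ?_
  · exact (tendsto_id.add_const c).mono_left nhdsWithin_le_nhds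
  · filter_upwards [self_mem_nhdsWithin] with v hv
    have hv : u < v := hv
    show u + c < v + c
    linarith

section
variable [Finite J]

theorem ev_bits_left {u1 u : ℝ} (h1 : u1 < u) (h2 : u ≤ u1 + 1) :
    ∀ᶠ v in 𝓝[<] u, gAr T Z u1 v = gAl T Z u1 u ∧
      gBr T Z u1 v = fun j m q => gBl T Z u1 u j m q ∨ (u = u1 + 1 ∧ gL T Z u1 j m q) := by
  have key : ∀ᶠ v in 𝓝[<] u, ∀ j : J, ∀ m q : Fin 6, gAr T Z u1 v j m q = gAl T Z u1 u j m q ∧
      gBr T Z u1 v j m q = (gBl T Z u1 u j m q ∨ (u = u1 + 1 ∧ gL T Z u1 j m q)) := by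
    rw [eventually_all]; intro j
    rw [eventually_all]; intro m
    rw [eventually_all]; intro q
    have e1 := (tendsto_add_left u (m.val : ℝ)).eventually
      (bitA_left (D := Dr T (Z j) q) (a := u1 + m.val) (u := u + m.val))
    have e2 := (tendsto_add_left u (m.val : ℝ)).eventually
      (bitB_left (dr_closed T (Z j) q) (u := u + m.val) (b := u1 + m.val + 1) (by linarith))
    filter_upwards [e1, e2] with v k1 k2
    refine ⟨k1, ?_⟩
    have k3 : (u + m.val = u1 + m.val + 1) = (u = u1 + 1) :=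
      propext ⟨fun h => by linarith, fun h => by linarith⟩
    rw [k3] at k2
    exact k2
  filter_upwards [key] with v hv
  exact ⟨funext fun j => funext fun m => funext fun q => (hv j m q).1,
    funext fun j => funext fun m => funext fun q => (hv j m q).2⟩

theorem ev_bits_right {u1 u : ℝ} (h1 : u1 ≤ u) :
    ∀ᶠ v in 𝓝[>] u, (gAr T Z u1 v = fun j m q => gAr T Z u1 u j m q ∨ (u = u1 ∧ gR T Z u1 j m q)) ∧
      gBr T Z u1 v = gBr T Z u1 u := by
  have key : ∀ᶠ v in 𝓝[>] u, ∀ j : J, ∀ m q : Fin 6,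
      gAr T Z u1 v j m q = (gAr T Z u1 u j m q ∨ (u = u1 ∧ gR T Z u1 j m q)) ∧
      gBr T Z u1 v j m q = gBr T Z u1 u j m q := by
    rw [eventually_all]; intro j
    rw [eventually_all]; intro m
    rw [eventually_all]; intro q
    have e1 := (tendsto_add_right u (m.val : ℝ)).eventually
      (bitA_right (dr_closed T (Z j) q) (a := u1 + m.val) (u := u + m.val) (by linarith))
    have e2 := (tendsto_add_right u (m.val : ℝ)).eventually
      (bitB_right (D := Dr T (Z j) q) (u := u + m.val) (b := u1 + m.val + 1))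
    filter_upwards [e1, e2] with v k1 k2
    refine ⟨?_, k2⟩
    have k3 : (u + m.val = u1 + m.val) = (u = u1) :=
      propext ⟨fun h => by linarith, fun h => by linarith⟩
    rw [k3] at k1
    exact k1
  filter_upwards [key] with v hv
  exact ⟨funext fun j => funext fun m => funext fun q => (hv j m q).1,
    funext fun j => funext fun m => funext fun q => (hv j m q).2⟩

/-- **Induction with letters, bits and the flag.** -/
theorem runGF (C : ∀ j, Cn U T (Z j)) {u1 : ℝ} {I : (J → Fin 6 → Option L6) → GB J → GB J → Prop → Prop}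
    (h0 : I (JR U T Z u1) (gR T Z u1) (gS T Z u1) False)
    (hstep : ∀ u ∈ Ioo u1 (u1 + 1),
      I (JL U T Z u) (gAl T Z u1 u) (gBl T Z u1 u) (∃ v ∈ Ioo u1 u, ChgJ U T Z v) →
      I (JR U T Z u) (gAr T Z u1 u) (gBr T Z u1 u) (∃ v ∈ Ioc u1 u, ChgJ U T Z v)) :
    I (JL U T Z (u1 + 1)) (gS T Z u1) (gL T Z u1) (∃ v ∈ Ioo u1 (u1 + 1), ChgJ U T Z v) := by
  have key := run0 (S := (J → Fin 6 → Option L6) × GB J × GB J × Prop)
    (σ := fun u => (JR U T Z u, gAr T Z u1 u, gBr T Z u1 u, ∃ v ∈ Ioo u1 u, ChgJ U T Z v))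
    (σl := fun u => (JL U T Z u, gAl T Z u1 u,
      (fun j m q => gBl T Z u1 u j m q ∨ (u = u1 + 1 ∧ gL T Z u1 j m q)), ∃ v ∈ Ioo u1 u, ChgJ U T Z v))
    (σr := fun u => (JR U T Z u, (fun j m q => gAr T Z u1 u j m q ∨ (u = u1 ∧ gR T Z u1 j m q)),
      gBr T Z u1 u, ∃ v ∈ Ioc u1 u, ChgJ U T Z v))
    (I := fun x => I x.1 x.2.1 x.2.2.1 x.2.2.2) (a := u1) (b := u1 + 1) (by linarith) ?_ ?_ ?_ ?_
  · have e1 : gAl T Z u1 (u1 + 1) = gS T Z u1 := by
      funext j m q
      show (_ ∩ Ioo _ _).Nonempty = (_ ∩ Ioo _ _).Nonempty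
      rw [show u1 + 1 + (m.val : ℝ) = u1 + m.val + 1 by ring]
    have e2 : (fun j m q => gBl T Z u1 (u1 + 1) j m q ∨ (u1 + 1 = u1 + 1 ∧ gL T Z u1 j m q)) = gL T Z u1 := by
      funext j m q
      refine propext ⟨?_, fun h => Or.inr ⟨rfl, h⟩⟩
      rintro (⟨x, hx, k1, k2⟩ | h)
      · exact absurd k2 (not_lt.2 (by linarith))
      · exact h.2
    have key : I (JL U T Z (u1 + 1)) (gAl T Z u1 (u1 + 1))
      (fun j m q => gBl T Z u1 (u1 + 1) j m q ∨ (u1 + 1 = u1 + 1 ∧ gL T Z u1 j m q))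
      (∃ v ∈ Ioo u1 (u1 + 1), ChgJ U T Z v) := key
    rw [e1, e2] at key
    exact key
  · intro u hu
    filter_upwards [ev_leftJ C u, ev_bits_left (T := T) (Z := Z) hu.1 hu.2,
      flag_left (a := u1) (no_chgJ_left C u)] with v k1 k2 k3
    exact Prod.ext k1.1 (Prod.ext k2.1 (Prod.ext k2.2 k3))
  · intro u hu
    filter_upwards [ev_rightJ C u, ev_bits_right (T := T) (Z := Z) hu.1,
      flag_right (a := u1) (no_chgJ_right C u)] with v k1 k2 k3
    exact Prod.ext k1.1 (Prod.ext k2.1 (Prod.ext k2.2 k3))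
  · have e : (∃ v ∈ Ioc u1 u1, ChgJ U T Z v) = False := by simp
    have e1 : (fun j m q => gAr T Z u1 u1 j m q ∨ (u1 = u1 ∧ gR T Z u1 j m q)) = gR T Z u1 := by
      funext j m q
      refine propext ⟨?_, fun h => Or.inr ⟨rfl, h⟩⟩
      rintro (⟨x, hx, k1, k2⟩ | h)
      · exact absurd k1 (not_lt.2 k2)
      · exact h.2
    have e2 : gBr T Z u1 u1 = gS T Z u1 := rfl
    show I (JR U T Z u1) (fun j m q => gAr T Z u1 u1 j m q ∨ (u1 = u1 ∧ gR T Z u1 j m q)) (gBr T Z u1 u1)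
      (∃ v ∈ Ioc u1 u1, ChgJ U T Z v)
    rw [e, e1, e2]; exact h0
  · intro u hu h
    have e1 : (fun j m q => gBl T Z u1 u j m q ∨ (u = u1 + 1 ∧ gL T Z u1 j m q)) = gBl T Z u1 u := by
      funext j m q
      exact propext ⟨fun h => h.elim id fun h => absurd h.1 hu.2.ne, Or.inl⟩
    have e2 : (fun j m q => gAr T Z u1 u j m q ∨ (u = u1 ∧ gR T Z u1 j m q)) = gAr T Z u1 u := by
      funext j m q
      exact propext ⟨fun h => h.elim id fun h => absurd h.1 hu.1.ne', Or.inl⟩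
    have h : I (JL U T Z u) (gAl T Z u1 u) (fun j m q => gBl T Z u1 u j m q ∨ (u = u1 + 1 ∧ gL T Z u1 j m q))
      (∃ v ∈ Ioo u1 u, ChgJ U T Z v) := h
    rw [e1] at h
    show I (JR U T Z u) (fun j m q => gAr T Z u1 u j m q ∨ (u = u1 ∧ gR T Z u1 j m q)) (gBr T Z u1 u)
      (∃ v ∈ Ioc u1 u, ChgJ U T Z v)
    rw [e2]
    exact hstep u hu h

/-- **Induction with letters and bits.** -/
theorem runG (C : ∀ j, Cn U T (Z j)) {u1 : ℝ} {I : (J → Fin 6 → Option L6) → GB J → GB J → Prop}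
    (h0 : I (JR U T Z u1) (gR T Z u1) (gS T Z u1))
    (hstep : ∀ u ∈ Ioo u1 (u1 + 1), I (JL U T Z u) (gAl T Z u1 u) (gBl T Z u1 u) →
      I (JR U T Z u) (gAr T Z u1 u) (gBr T Z u1 u)) :
    I (JL U T Z (u1 + 1)) (gS T Z u1) (gL T Z u1) :=
  runGF C (I := fun s A B _ => I s A B) h0 fun u hu h => hstep u hu h

/-- **Closure form** with letters, bits and the flag: `V` holds just after `u1`, no event of `(u1, u1 + 1)` leaves it,
and it does not hold for the turned letters just before `u1`: contradiction. -/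
theorem no_closureG (C : ∀ j, Cn U T (Z j)) {u1 : ℝ}
    {V : Prop → (J → Fin 6 → Option L6) → GB J → GB J → Prop}
    (h0 : V False (JR U T Z u1) (gR T Z u1) (gS T Z u1))
    (hstep : ∀ u ∈ Ioo u1 (u1 + 1),
      V (∃ v ∈ Ioo u1 u, ChgJ U T Z v) (JL U T Z u) (gAl T Z u1 u) (gBl T Z u1 u) →
      V (∃ v ∈ Ioc u1 u, ChgJ U T Z v) (JR U T Z u) (gAr T Z u1 u) (gBr T Z u1 u))
    (hend : ∀ p, ¬ V p (shJ (JL U T Z u1)) (gS T Z u1) (gL T Z u1)) : False := by
  have key := runGF C (I := fun s A B p => V p s A B) h0 hstep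
  rw [jl_succ C] at key
  exact hend _ key

/-- **Invariant form** (PDR): a predicate `V` of the letters and the bits which holds just after the class 0, is kept by
every event in between and fails for the turned letters just before the class 0. -/
theorem no_invG (C : ∀ j, Cn U T (Z j)) {u1 : ℝ} {V : (J → Fin 6 → Option L6) → GB J → GB J → Prop}
    (h0 : V (JR U T Z u1) (gR T Z u1) (gS T Z u1))
    (hstep : ∀ u ∈ Ioo u1 (u1 + 1), V (JL U T Z u) (gAl T Z u1 u) (gBl T Z u1 u) →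
      V (JR U T Z u) (gAr T Z u1 u) (gBr T Z u1 u))
    (hend : ¬ V (shJ (JL U T Z u1)) (gS T Z u1) (gL T Z u1)) : False := by
  have key := runG C h0 hstep
  rw [jl_succ C] at key
  exact hend key

end

end Vale.Agent.P032.H892
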