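import Vale.Agent.P032X.H357.HistE

/-!
# P032: monitors for exact pairs at the fixed centres

The monitor `i` belongs to a fixed centre (word point of class 0) `c i` and to two colours `p i`, `q i`: an exact letter
`p | q` or `q | p` of this centre has occurred at the class 0 or since `u1`.  `H357.HistE` is the case `c i = 0`,
`p i = 2 i`, `q i = 2 i + 1`.

* `XY` : the values of the free atoms, `EY x i p q` : the laws of the monitor `i` at the word point `x`,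
* `ho_EY` : the laws hold in all legal models, `ho_EYe` : the monitor is on at the end if the pair occurs.
-/

open Set Filter Topology Metric

noncomputable section

namespace Vale.Agent.P032.HistY

open Vale.Agent.P032.Six Vale.Agent.P032.H892 Vale.Agent.P032.H913 Vale.Agent.P032.S5.H767 Vale.Agent.P032.H61
  Vale.Agent.P032.H357 Vale.Agent.P032.H491 Vale.Agent.P032.H357.MK
open Vale.Agent.P032.H820.K (nbf Md En a0 a1 a2 a3 a4 av lv ps ng Ho hn hp ht lv_ps lv_ng av9)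

/-! ### the clauses -/

/-- auxiliary atom: the letter just after `u + k` has the colours of the monitor `i` -/
def vR (i k : ℕ) : ℕ := En 4 4094 0 0 (18 * i + k)

/-- auxiliary atom: the letter at the class 0, direction `k`, side `sd` has the colours of the monitor `i` -/
def vC (i k sd : ℕ) : ℕ := En 4 4094 0 0 (18 * i + (6 + 2 * k + sd))

/-- letter atom of the point `x` -/
def ly (x t sd io q : ℕ) : ℕ := En 9 x t (2 * sd + io) q

/-- the laws of the monitor `i` at the point `x` for the colours `p`, `q` -/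
def EY (x i p q : ℕ) : List (List ℕ) :=
  [[ng (hA i 2), ps (hA i 1), ps (vR i 0), ps (vR i 1), ps (vR i 2), ps (vR i 3), ps (vR i 4), ps (vR i 5)],
   [ng (hA i 0), ps (vC i 0 0), ps (vC i 0 1), ps (vC i 1 0), ps (vC i 1 1), ps (vC i 2 0), ps (vC i 2 1),
    ps (vC i 3 0), ps (vC i 3 1), ps (vC i 4 0), ps (vC i 4 1), ps (vC i 5 0), ps (vC i 5 1)],
   [ng (hA i 0), ps (hA i 1)], [ng (hA i 1), ps (hA i 2)], [ng (hA i 2), ps (hA i 3)]] ++
  (List.range 6).flatMap fun k =>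
    [[ng (vR i k), ps (ly x (2 * k + 1) 1 0 p), ps (ly x (2 * k + 1) 1 0 q)],
     [ng (vR i k), ps (ly x (2 * k + 1) 1 1 p), ps (ly x (2 * k + 1) 1 1 q)],
     [ng (ly x (2 * k + 1) 1 0 p), ng (ly x (2 * k + 1) 1 1 q), ps (hA i 2)],
     [ng (ly x (2 * k + 1) 1 0 q), ng (ly x (2 * k + 1) 1 1 p), ps (hA i 2)],
     [ng (ly x (2 * k + 1) 0 0 p), ng (ly x (2 * k + 1) 0 1 q), ps (hA i 1)],
     [ng (ly x (2 * k + 1) 0 0 q), ng (ly x (2 * k + 1) 0 1 p), ps (hA i 1)]] ++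
    (List.range 2).flatMap fun sd =>
      [[ng (vC i k sd), ps (ly x (2 * k) sd 0 p), ps (ly x (2 * k) sd 0 q)],
       [ng (vC i k sd), ps (ly x (2 * k) sd 1 p), ps (ly x (2 * k) sd 1 q)],
       [ng (ly x (2 * k) sd 0 p), ng (ly x (2 * k) sd 1 q), ps (hA i 0)],
       [ng (ly x (2 * k) sd 0 q), ng (ly x (2 * k) sd 1 p), ps (hA i 0)]]

/-! ### the values -/

variable {U : Fin 6 → Set ℂ} {T : ℂ → Set (Fin 6)} {NP NW TB TC : ℕ}

/-- the two colours -/
def prs (σ : Equiv.Perm (Fin 6)) (p q : ℕ) (w : Fin 6) : Prop := w = co σ p ∨ w = co σ q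

/-- both components of a letter are in the pair -/
def lpr (σ : Equiv.Perm (Fin 6)) (p q : ℕ) (w : Fin 6 × Fin 6) : Prop := prs σ p q w.1 ∧ prs σ p q w.2

/-- the directions of the exact letters with the colours of the pair -/
def Hp (U : Fin 6 → Set ℂ) (T : ℂ → Set (Fin 6)) (y : ℂ) (σ : Equiv.Perm (Fin 6)) (p q : ℕ) : Set ℝ :=
  closure (OC U T y (co σ p, co σ q)) ∪ closure (OC U T y (co σ q, co σ p))

/-- an exact letter at the class 0 -/
def Kp (σ : Equiv.Perm (Fin 6)) (p q : ℕ) (c : Cn NW TC) (s0 s1 : Cn NW TC × Fin 6 → Fin 6 × Fin 6) : Prop :=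
  ∃ m : Fin 6, lpr σ p q (s0 (c, m)) ∨ lpr σ p q (s1 (c, m))

/-- the values of the free atoms (`t0`, `t1` = the letters of the class 0) -/
def XY (U : Fin 6 → Set ℂ) (T : ℂ → Set (Fin 6)) (z : ℂ) (σ : Equiv.Perm (Fin 6)) (u1 : ℝ) (c : ℕ → Cn NW TC)
    (p q : ℕ → ℕ) (t0 t1 : Cn NW TC × Fin 6 → Fin 6 × Fin 6) : XV NW :=
  fun u _ _ _ R x n =>
    if x = 4095 then Kp σ (p (n / 4)) (q (n / 4)) (c (n / 4)) t0 t1 ∨
      hb (Hp U T (Zf u1 TC z NW (c (n / 4))) σ (p (n / 4)) (q (n / 4))) (n % 4) u1 u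
    else if n % 18 < 6 then lpr σ (p (n / 18)) (q (n / 18)) (rs TC R (c (n / 18), f6 (n % 18)))
    else if n % 18 % 2 = 0 then lpr σ (p (n / 18)) (q (n / 18)) (t1 (c (n / 18), f6 ((n % 18 - 6) / 2 + 5)))
    else lpr σ (p (n / 18)) (q (n / 18)) (t0 (c (n / 18), f6 ((n % 18 - 6) / 2)))

theorem hp_closed (σ : Equiv.Perm (Fin 6)) (y : ℂ) (p q : ℕ) : IsClosed (Hp U T y σ p q) :=
  isClosed_closure.union isClosed_closure

theorem xy_ok (z : ℂ) (σ : Equiv.Perm (Fin 6)) (u1 : ℝ) (c : ℕ → Cn NW TC) (p q : ℕ → ℕ)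
    (t0 t1 : Cn NW TC × Fin 6 → Fin 6 × Fin 6) (nm : ℕ) :
    Xok (XY U T z σ u1 c p q t0 t1) (fun i : Fin nm => Kp σ (p i.val) (q i.val) (c i.val) t0 t1)
      (fun i : Fin nm => Hp U T (Zf u1 TC z NW (c i.val)) σ (p i.val) (q i.val)) u1 := by
  intro u s0 s1 L R i r hr
  show (if (4095 : ℕ) = 4095 then _ else _) ↔ _
  rw [if_pos rfl, show (4 * i.val + r) / 4 = i.val by omega, show (4 * i.val + r) % 4 = r by omega]

/-! ### the laws of the directions -/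

section
variable {y : ℂ} {σ : Equiv.Perm (Fin 6)} {u1 u : ℝ} {p q : ℕ}

/-- the letter after `x` has the colours of the pair -/
def crp (U : Fin 6 → Set ℂ) (T : ℂ → Set (Fin 6)) (y : ℂ) (σ : Equiv.Perm (Fin 6)) (p q : ℕ) (x : ℝ) : Prop :=
  CR U T y x = some (co σ p, co σ q) ∨ CR U T y x = some (co σ q, co σ p)

/-- the letter before `x` has the colours of the pair -/
def clp (U : Fin 6 → Set ℂ) (T : ℂ → Set (Fin 6)) (y : ℂ) (σ : Equiv.Perm (Fin 6)) (p q : ℕ) (x : ℝ) : Prop :=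
  CL U T y x = some (co σ p, co σ q) ∨ CL U T y x = some (co σ q, co σ p)

theorem hb_zero (C : Vale.Agent.P032.H892.Cn U T y) (hb0 : hb (Hp U T y σ p q) 0 u1 u) :
    ∃ m : Fin 6, crp U T y σ p q (u1 + m.val) := by
  obtain ⟨m, h1⟩ := hb0
  refine ⟨m, ?_⟩
  have h1 : ∃ᶠ v in 𝓝[>] (u1 + m.val), v ∈ Hp U T y σ p q := h1
  have h2 : (∃ᶠ v in 𝓝[>] (u1 + m.val), v ∈ closure (OC U T y (co σ p, co σ q))) ∨
      ∃ᶠ v in 𝓝[>] (u1 + m.val), v ∈ closure (OC U T y (co σ q, co σ p)) :=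
    frequently_or_distrib.1 (h1.mono fun v hv => hv)
  rcases h2 with h2 | h2
  · exact Or.inl ((hist_start (D := fun (_ : Unit) (_ : Fin 6) => closure (OC U T y _)) (b := ()) (q := 0) rfl C).1 h2)
  · exact Or.inr ((hist_start (D := fun (_ : Unit) (_ : Fin 6) => closure (OC U T y _)) (b := ()) (q := 0) rfl C).1 h2)

theorem hb_jump (h : Irr U T) (C : Vale.Agent.P032.H892.Cn U T y) (hu : u1 < u)
    (h1 : ¬ hb (Hp U T y σ p q) 1 u1 u) (h2 : hb (Hp U T y σ p q) 2 u1 u) :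
    ∃ m : Fin 6, crp U T y σ p q (u + m.val) := by
  obtain ⟨m, h3⟩ := hb_new h1 h2
  refine ⟨m, ?_⟩
  have h4 : ∀ v, u1 + m.val < v → v < u + m.val → v ∉ Hp U T y σ p q := fun v k1 k2 k3 => h1 ⟨m, v, k3, k1, k2⟩
  rcases h3 with h3 | h3
  · refine Or.inl (hist_jump h (D := fun (_ : Unit) (_ : Fin 6) => closure (OC U T y _)) (b := ()) (q := 0) rfl C hu ?_ ?_)
    · rintro ⟨v, k1, k2, k3⟩
      exact h4 v k2 k3 (Or.inl k1)
    · exact ⟨_, h3, by linarith, le_rfl⟩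
  · refine Or.inr (hist_jump h (D := fun (_ : Unit) (_ : Fin 6) => closure (OC U T y _)) (b := ()) (q := 0) rfl C hu ?_ ?_)
    · rintro ⟨v, k1, k2, k3⟩
      exact h4 v k2 k3 (Or.inr k1)
    · exact ⟨_, h3, by linarith, le_rfl⟩

theorem hb_left (hu : u1 < u) {m : Fin 6} (hc : clp U T y σ p q (u + m.val)) : hb (Hp U T y σ p q) 1 u1 u := by
  rcases hc with hc | hc
  · obtain ⟨v, h1, h2⟩ := hist_left (D := fun (_ : Unit) (_ : Fin 6) => closure (OC U T y _)) (b := ()) (q := 0) rfl hu hc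
    exact ⟨m, v, Or.inl h1, h2⟩
  · obtain ⟨v, h1, h2⟩ := hist_left (D := fun (_ : Unit) (_ : Fin 6) => closure (OC U T y _)) (b := ()) (q := 0) rfl hu hc
    exact ⟨m, v, Or.inr h1, h2⟩

theorem hb_right (hu : u1 < u) {m : Fin 6} (hc : crp U T y σ p q (u + m.val)) : hb (Hp U T y σ p q) 2 u1 u := by
  rcases hc with hc | hc
  · obtain ⟨v, h1, h2⟩ := hist_right (D := fun (_ : Unit) (_ : Fin 6) => closure (OC U T y _)) (b := ()) (q := 0) rfl hu hc
    exact ⟨m, v, Or.inl h1, h2⟩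
  · obtain ⟨v, h1, h2⟩ := hist_right (D := fun (_ : Unit) (_ : Fin 6) => closure (OC U T y _)) (b := ()) (q := 0) rfl hu hc
    exact ⟨m, v, Or.inr h1, h2⟩

/-- the pair occurs at the circle of `y` -/
def Occ (U : Fin 6 → Set ℂ) (T : ℂ → Set (Fin 6)) (y : ℂ) (a b : Fin 6) : Prop :=
  ∃ v, v ∈ OC U T y (a, b) ∨ v ∈ OC U T y (b, a)

theorem hb_three (h : Irr U T) (ho : Occ U T y (co σ p) (co σ q)) : hb (Hp U T y σ p q) 3 u1 u := by
  have key : ∀ {l : L6} {v : ℝ}, v ∈ OC U T y l → ∃ m : Fin 6,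
      (closure (OC U T y l) ∩ Ioo (u1 + m.val) (u1 + m.val + 1)).Nonempty := fun {l v} hv =>
    hist_sector h (D := fun (_ : Unit) (_ : Fin 6) => closure (OC U T y l)) (b := ()) (q := 0) rfl hv
  obtain ⟨v, hv | hv⟩ := ho
  · obtain ⟨m, x, h1, h2⟩ := key hv
    exact ⟨m, x, Or.inl h1, h2⟩
  · obtain ⟨m, x, h1, h2⟩ := key hv
    exact ⟨m, x, Or.inr h1, h2⟩

end

/-! ### the clauses hold -/

section
variable {F : Hy U T} {B : Tb NP NW TB TC} {z : ℂ} {σ : Equiv.Perm (Fin 6)} {u1 u : ℝ} {hu : u ∈ Ioo u1 (u1 + 1)}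
  {c : Cn NW TC} {t0 t1 : Cn NW TC × Fin 6 → Fin 6 × Fin 6} {s0 s1 L R : Fin NW × Fin 6 → Fin 6 × Fin 6}
  {S : St4 U T (Yw u1 u TC z NW) u1 u s0 s1 L R} {X : ℕ → ℕ → Prop} {k io p q : ℕ}

theorem ly_av {t sd : ℕ} (ht : t < 256) (hsd : sd < 2) (hio : io < 2) (hc : c.1 < 4096) :
    av (xT (mS F B z σ hu S) X) (ly c.1 t sd io q) ↔ (mS F B z σ hu S).W c.1 t sd io = q := by
  unfold ly
  rw [av9 hc ht (by omega), show (2 * sd + io) / 2 = sd by omega, show (2 * sd + io) % 2 = io by omega]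
  exact Iff.rfl

theorem ly_oddR (hk : k < 6) (hio : io < 2) (hq : q < 6) (hc : c.1 < 4096) :
    av (xT (mS F B z σ hu S) X) (ly c.1 (2 * k + 1) 1 io q) ↔ cio io (rs TC R (c, f6 k)) = co σ q := by
  rw [ly_av (by omega) (by norm_num) hio hc, w_odd c.2.1 c.2.2 (by omega), if_pos rfl,
    show (2 * k + 1) / 2 = k by omega]
  exact MK.nio_iff σ hq

theorem ly_oddL (hk : k < 6) (hio : io < 2) (hq : q < 6) (hc : c.1 < 4096) :
    av (xT (mS F B z σ hu S) X) (ly c.1 (2 * k + 1) 0 io q) ↔ cio io (rs TC L (c, f6 k)) = co σ q := by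
  rw [ly_av (by omega) (by norm_num) hio hc, w_odd c.2.1 c.2.2 (by omega), if_neg (by norm_num),
    show (2 * k + 1) / 2 = k by omega]
  exact MK.nio_iff σ hq

theorem ly_evenR (hk : k < 6) (hio : io < 2) (hq : q < 6) (hc : c.1 < 4096) :
    av (xT (mS F B z σ hu S) X) (ly c.1 (2 * k) 1 io q) ↔ cio io (rs TC s0 (c, f6 k)) = co σ q := by
  rw [ly_av (by omega) (by norm_num) hio hc, w_even c.2.1 c.2.2 (by omega), if_pos rfl,
    show 2 * k / 2 = k by omega]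
  exact MK.nio_iff σ hq

theorem ly_evenL (hk : k < 6) (hio : io < 2) (hq : q < 6) (hc : c.1 < 4096) :
    av (xT (mS F B z σ hu S) X) (ly c.1 (2 * k) 0 io q) ↔ cio io (rs TC s1 (c, f6 (k + 5))) = co σ q := by
  rw [ly_av (by omega) (by norm_num) hio hc, w_even c.2.1 c.2.2 (by omega), if_neg (by norm_num),
    show 2 * k / 2 = k by omega]
  exact MK.nio_iff σ hq

theorem r_R (F : Hy U T) (S : St4 U T (Yw u1 u TC z NW) u1 u s0 s1 L R)
    (C : Vale.Agent.P032.H892.Cn U T (Zf u1 TC z NW c)) (m0 : co σ p ∈ T (Zf u1 TC z NW c))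
    (m1 : co σ q ∈ T (Zf u1 TC z NW c)) :
    lpr σ p q (rs TC R (c, f6 k)) ↔ crp U T (Zf u1 TC z NW c) σ p q (u + k) := by
  have D := wd_wds S.h0 S.h1 S.hL S.hR
  have eY : Yw u1 u TC z NW (fc c) = Zf u1 TC z NW c := yw_fc c
  have C' : Vale.Agent.P032.H892.Cn U T (Yw u1 u TC z NW (fc c)) := by rw [eY]; exact C
  have e := wds_odd_one (s0 := s0) (s1 := s1) (L := L) (R := R) (j := fc c) (m := k)
  constructor
  · rintro ⟨h0, h1⟩
    have h2 := lw_R D F.h F.ct (j := fc c) (t := 2 * k + 1) C' (by rw [eY]; exact m0) (by rw [eY]; exact m1)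
      (by rw [e.1]; exact h0) (by rw [e.2]; exact h1)
    rw [eY, t2_odd] at h2
    exact h2
  · rintro (h2 | h2)
    · rw [← eY, ← t2_odd u1 u k] at h2
      obtain ⟨k0, k1⟩ := lw_R' D F.h F.ct C' h2
      rw [e.1] at k0
      rw [e.2] at k1
      exact ⟨Or.inl k0, Or.inr k1⟩
    · rw [← eY, ← t2_odd u1 u k] at h2
      obtain ⟨k0, k1⟩ := lw_R' D F.h F.ct C' h2
      rw [e.1] at k0
      rw [e.2] at k1
      exact ⟨Or.inr k0, Or.inl k1⟩

theorem r_L (F : Hy U T) (S : St4 U T (Yw u1 u TC z NW) u1 u s0 s1 L R)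
    (C : Vale.Agent.P032.H892.Cn U T (Zf u1 TC z NW c)) (m0 : co σ p ∈ T (Zf u1 TC z NW c))
    (m1 : co σ q ∈ T (Zf u1 TC z NW c)) (h3 : lpr σ p q (rs TC L (c, f6 k))) :
    clp U T (Zf u1 TC z NW c) σ p q (u + k) := by
  have D := wd_wds S.h0 S.h1 S.hL S.hR
  have eY : Yw u1 u TC z NW (fc c) = Zf u1 TC z NW c := yw_fc c
  have C' : Vale.Agent.P032.H892.Cn U T (Yw u1 u TC z NW (fc c)) := by rw [eY]; exact C
  have e := wds_odd_zero (s0 := s0) (s1 := s1) (L := L) (R := R) (j := fc c) (m := k)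
  obtain ⟨h0, h1⟩ := h3
  have h2 := lw_L D F.h F.ct (j := fc c) (t := 2 * k + 1) C' (by rw [eY]; exact m0) (by rw [eY]; exact m1)
    (by rw [e.1]; exact h0) (by rw [e.2]; exact h1)
  rw [eY, t2_odd] at h2
  exact h2

theorem r_0 (F : Hy U T) (S : St4 U T (Yw u1 u TC z NW) u1 u s0 s1 L R)
    (C : Vale.Agent.P032.H892.Cn U T (Zf u1 TC z NW c)) (h2 : crp U T (Zf u1 TC z NW c) σ p q (u1 + k)) :
    lpr σ p q (rs TC s0 (c, f6 k)) := by
  have D := wd_wds S.h0 S.h1 S.hL S.hR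
  have eY : Yw u1 u TC z NW (fc c) = Zf u1 TC z NW c := yw_fc c
  have C' : Vale.Agent.P032.H892.Cn U T (Yw u1 u TC z NW (fc c)) := by rw [eY]; exact C
  have e := wds_even_one (s0 := s0) (s1 := s1) (L := L) (R := R) (j := fc c) (m := k)
  rcases h2 with h2 | h2
  · rw [← eY, ← t2_even u1 u k] at h2
    obtain ⟨k0, k1⟩ := lw_R' D F.h F.ct C' h2
    rw [e.1] at k0
    rw [e.2] at k1
    exact ⟨Or.inl k0, Or.inr k1⟩
  · rw [← eY, ← t2_even u1 u k] at h2
    obtain ⟨k0, k1⟩ := lw_R' D F.h F.ct C' h2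
    rw [e.1] at k0
    rw [e.2] at k1
    exact ⟨Or.inr k0, Or.inl k1⟩

end

section
variable {F : Hy U T} {B : Tb NP NW TB TC} {z : ℂ} {σ : Equiv.Perm (Fin 6)} {u1 : ℝ}
  {t0 t1 : Cn NW TC × Fin 6 → Fin 6 × Fin 6} {c : ℕ → Cn NW TC} {p q : ℕ → ℕ}

/-- **The laws of the monitor `i` hold in all legal models.** -/
theorem ho_EY {nm i : ℕ} (hi : i < nm) (C : Vale.Agent.P032.H892.Cn U T (Zf u1 TC z NW (c i))) (hp6 : p i < 6)
    (hq6 : q i < 6) (m0 : co σ (p i) ∈ T (Zf u1 TC z NW (c i))) (m1 : co σ (q i) ∈ T (Zf u1 TC z NW (c i)))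
    (hNP : NP ≤ 4094) {M : Md 2 NP NW (nbf 2 TB)}
    (hM : LegX F B z σ (XY U T z σ u1 c p q t0 t1) u1 t0 t1 M) : ∀ e ∈ EY (c i).1 i (p i) (q i), Ho M e := by
  have hX := xy_ok (U := U) (T := T) z σ u1 c p q t0 t1 nm
  have hmono : ∀ r r', r ≤ r' → r' < 4 → Ho M [ng (hA i r), ps (hA i r')] := fun r r' h1 h2 =>
    mon_mono hX (by omega) hM hi h1 h2
  have hc4 : (c i).1 < 4096 := by
    have h1 := (c i).2.1
    have h2 := B.hNW
    omega
  obtain ⟨u, hu, s0, s1, L, R, S, e0, e1, rfl⟩ := hM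
  have hav : ∀ r < 4, (av (xT (mS F B z σ hu S) (XY U T z σ u1 c p q t0 t1 u s0 s1 L R)) (hA i r) ↔
      Kp σ (p i) (q i) (c i) t0 t1 ∨ hb (Hp U T (Zf u1 TC z NW (c i)) σ (p i) (q i)) r u1 u) :=
    fun r hr => hA_av hX (by omega) hi hr
  have hvR : ∀ k < 6, (av (xT (mS F B z σ hu S) (XY U T z σ u1 c p q t0 t1 u s0 s1 L R)) (vR i k) ↔
      lpr σ (p i) (q i) (rs TC R (c i, f6 k))) := fun k hk => by
    refine (xT_fr (x := 4094) (by omega) (by norm_num)).trans ?_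
    show (if (4094 : ℕ) = 4095 then _ else if (18 * i + k) % 18 < 6 then _ else _) ↔ _
    rw [if_neg (by norm_num), if_pos (by omega), show (18 * i + k) / 18 = i by omega,
      show (18 * i + k) % 18 = k by omega]
  have hvC1 : ∀ k < 6, (av (xT (mS F B z σ hu S) (XY U T z σ u1 c p q t0 t1 u s0 s1 L R)) (vC i k 1) ↔
      lpr σ (p i) (q i) (t0 (c i, f6 k))) := fun k hk => by
    refine (xT_fr (x := 4094) (by omega) (by norm_num)).trans ?_
    show (if (4094 : ℕ) = 4095 then _ else if (18 * i + (6 + 2 * k + 1)) % 18 < 6 then _ else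
      if (18 * i + (6 + 2 * k + 1)) % 18 % 2 = 0 then _ else _) ↔ _
    rw [if_neg (by norm_num), if_neg (by omega), if_neg (by omega), show (18 * i + (6 + 2 * k + 1)) / 18 = i by omega,
      show ((18 * i + (6 + 2 * k + 1)) % 18 - 6) / 2 = k by omega]
  have hvC0 : ∀ k < 6, (av (xT (mS F B z σ hu S) (XY U T z σ u1 c p q t0 t1 u s0 s1 L R)) (vC i k 0) ↔
      lpr σ (p i) (q i) (t1 (c i, f6 (k + 5)))) := fun k hk => by
    refine (xT_fr (x := 4094) (by omega) (by norm_num)).trans ?_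
    show (if (4094 : ℕ) = 4095 then _ else if (18 * i + (6 + 2 * k + 0)) % 18 < 6 then _ else
      if (18 * i + (6 + 2 * k + 0)) % 18 % 2 = 0 then _ else _) ↔ _
    rw [if_neg (by norm_num), if_neg (by omega), if_pos (by omega), show (18 * i + (6 + 2 * k + 0)) / 18 = i by omega,
      show ((18 * i + (6 + 2 * k + 0)) % 18 - 6) / 2 = k by omega]
  have hR : ∀ k < 6, ∀ io < 2, ∀ j < 6, (av (xT (mS F B z σ hu S) (XY U T z σ u1 c p q t0 t1 u s0 s1 L R))
      (ly (c i).1 (2 * k + 1) 1 io j) ↔ cio io (rs TC R (c i, f6 k)) = co σ j) := fun k hk io hio j hj =>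
    ly_oddR hk hio hj hc4
  have hL : ∀ k < 6, ∀ io < 2, ∀ j < 6, (av (xT (mS F B z σ hu S) (XY U T z σ u1 c p q t0 t1 u s0 s1 L R))
      (ly (c i).1 (2 * k + 1) 0 io j) ↔ cio io (rs TC L (c i, f6 k)) = co σ j) := fun k hk io hio j hj =>
    ly_oddL hk hio hj hc4
  have h0 : ∀ k < 6, ∀ io < 2, ∀ j < 6, (av (xT (mS F B z σ hu S) (XY U T z σ u1 c p q t0 t1 u s0 s1 L R))
      (ly (c i).1 (2 * k) 1 io j) ↔ cio io (t0 (c i, f6 k)) = co σ j) := fun k hk io hio j hj => by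
    rw [← e0]; exact ly_evenR hk hio hj hc4
  have h1 : ∀ k < 6, ∀ io < 2, ∀ j < 6, (av (xT (mS F B z σ hu S) (XY U T z σ u1 c p q t0 t1 u s0 s1 L R))
      (ly (c i).1 (2 * k) 0 io j) ↔ cio io (t1 (c i, f6 (k + 5))) = co σ j) := fun k hk io hio j hj => by
    rw [← e1]; exact ly_evenL hk hio hj hc4
  have hf6 : ∀ m : Fin 6, f6 m.val = m := fun m => f6_lt m.isLt
  have hf65 : ∀ m : Fin 6, f6 ((m.val + 1) % 6 + 5) = m := fun m => by
    apply Fin.ext
    show ((m.val + 1) % 6 + 5) % 6 = m.val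
    have := m.isLt
    omega
  intro e he
  simp only [EY, List.mem_append, List.mem_cons, List.mem_flatMap, List.mem_range, List.not_mem_nil,
    or_false] at he
  rcases he with (rfl | rfl | rfl | rfl | rfl) | ⟨k, hk, (rfl | rfl | rfl | rfl | rfl | rfl) |
    ⟨sd, hsd, rfl | rfl | rfl | rfl⟩⟩
  · -- new only with a letter
    refine hn fun h2 => ?_
    by_cases h3 : av (xT (mS F B z σ hu S) (XY U T z σ u1 c p q t0 t1 u s0 s1 L R)) (hA i 1)
    · exact hp h3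
    · rw [hav 2 (by norm_num)] at h2
      rw [hav 1 (by norm_num), not_or] at h3
      obtain ⟨m, hm⟩ := hb_jump F.h C hu.1 h3.2 (h2.resolve_left h3.1)
      have h4 : lpr σ (p i) (q i) (rs TC R (c i, f6 m.val)) := (r_R F S C m0 m1).2 hm
      have h5 := (hvR m.val m.isLt).2 h4
      refine ⟨ps (vR i m.val), ?_, lv_ps.2 h5⟩
      fin_cases m <;> simp
  · -- the start
    refine hn fun h2 => ?_
    rw [hav 0 (by norm_num)] at h2
    have h3 : ∃ m : Fin 6, lpr σ (p i) (q i) (t0 (c i, m)) ∨ lpr σ (p i) (q i) (t1 (c i, m)) := by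
      rcases h2 with h2 | h2
      · exact h2
      · obtain ⟨m, hm⟩ := hb_zero C h2
        have := r_0 F S C hm
        rw [e0, hf6] at this
        exact ⟨m, Or.inl this⟩
    obtain ⟨m, hm | hm⟩ := h3
    · have h5 := (hvC1 m.val m.isLt).2 (by rw [hf6]; exact hm)
      refine ⟨ps (vC i m.val 1), ?_, lv_ps.2 h5⟩
      fin_cases m <;> simp
    · have h5 := (hvC0 ((m.val + 1) % 6) (Nat.mod_lt _ (by norm_num))).2 (by rw [hf65]; exact hm)
      refine ⟨ps (vC i ((m.val + 1) % 6) 0), ?_, lv_ps.2 h5⟩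
      fin_cases m <;> simp
  · exact hmono 0 1 (by norm_num) (by norm_num)
  · exact hmono 1 2 (by norm_num) (by norm_num)
  · exact hmono 2 3 (by norm_num) (by norm_num)
  · refine hn fun h2 => ?_
    rcases ((hvR k hk).1 h2).1 with h3 | h3
    · exact hp ((hR k hk 0 (by norm_num) _ hp6).2 h3)
    · exact ht (hp ((hR k hk 0 (by norm_num) _ hq6).2 h3))
  · refine hn fun h2 => ?_
    rcases ((hvR k hk).1 h2).2 with h3 | h3
    · exact hp ((hR k hk 1 (by norm_num) _ hp6).2 h3)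
    · exact ht (hp ((hR k hk 1 (by norm_num) _ hq6).2 h3))
  · refine hn fun h2 => hn fun h3 => hp ((hav 2 (by norm_num)).2 (Or.inr ?_))
    rw [hR k hk 0 (by norm_num) _ hp6] at h2
    rw [hR k hk 1 (by norm_num) _ hq6] at h3
    exact hb_right (m := ⟨k, hk⟩) hu.1 ((r_R F S C m0 m1).1 ⟨Or.inl h2, Or.inr h3⟩)
  · refine hn fun h2 => hn fun h3 => hp ((hav 2 (by norm_num)).2 (Or.inr ?_))
    rw [hR k hk 0 (by norm_num) _ hq6] at h2
    rw [hR k hk 1 (by norm_num) _ hp6] at h3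
    exact hb_right (m := ⟨k, hk⟩) hu.1 ((r_R F S C m0 m1).1 ⟨Or.inr h2, Or.inl h3⟩)
  · refine hn fun h2 => hn fun h3 => hp ((hav 1 (by norm_num)).2 (Or.inr ?_))
    rw [hL k hk 0 (by norm_num) _ hp6] at h2
    rw [hL k hk 1 (by norm_num) _ hq6] at h3
    exact hb_left (m := ⟨k, hk⟩) hu.1 (r_L F S C m0 m1 ⟨Or.inl h2, Or.inr h3⟩)
  · refine hn fun h2 => hn fun h3 => hp ((hav 1 (by norm_num)).2 (Or.inr ?_))
    rw [hL k hk 0 (by norm_num) _ hq6] at h2
    rw [hL k hk 1 (by norm_num) _ hp6] at h3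
    exact hb_left (m := ⟨k, hk⟩) hu.1 (r_L F S C m0 m1 ⟨Or.inr h2, Or.inl h3⟩)
  · interval_cases sd
    · refine hn fun h2 => ?_
      rcases ((hvC0 k hk).1 h2).1 with h3 | h3
      · exact hp ((h1 k hk 0 (by norm_num) _ hp6).2 h3)
      · exact ht (hp ((h1 k hk 0 (by norm_num) _ hq6).2 h3))
    · refine hn fun h2 => ?_
      rcases ((hvC1 k hk).1 h2).1 with h3 | h3
      · exact hp ((h0 k hk 0 (by norm_num) _ hp6).2 h3)
      · exact ht (hp ((h0 k hk 0 (by norm_num) _ hq6).2 h3))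
  · interval_cases sd
    · refine hn fun h2 => ?_
      rcases ((hvC0 k hk).1 h2).2 with h3 | h3
      · exact hp ((h1 k hk 1 (by norm_num) _ hp6).2 h3)
      · exact ht (hp ((h1 k hk 1 (by norm_num) _ hq6).2 h3))
    · refine hn fun h2 => ?_
      rcases ((hvC1 k hk).1 h2).2 with h3 | h3
      · exact hp ((h0 k hk 1 (by norm_num) _ hp6).2 h3)
      · exact ht (hp ((h0 k hk 1 (by norm_num) _ hq6).2 h3))
  · refine hn fun h2 => hn fun h3 => hp ((hav 0 (by norm_num)).2 (Or.inl ?_))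
    interval_cases sd
    · rw [h1 k hk 0 (by norm_num) _ hp6] at h2
      rw [h1 k hk 1 (by norm_num) _ hq6] at h3
      exact ⟨f6 (k + 5), Or.inr ⟨Or.inl h2, Or.inr h3⟩⟩
    · rw [h0 k hk 0 (by norm_num) _ hp6] at h2
      rw [h0 k hk 1 (by norm_num) _ hq6] at h3
      exact ⟨f6 k, Or.inl ⟨Or.inl h2, Or.inr h3⟩⟩
  · refine hn fun h2 => hn fun h3 => hp ((hav 0 (by norm_num)).2 (Or.inl ?_))
    interval_cases sd
    · rw [h1 k hk 0 (by norm_num) _ hq6] at h2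
      rw [h1 k hk 1 (by norm_num) _ hp6] at h3
      exact ⟨f6 (k + 5), Or.inr ⟨Or.inr h2, Or.inl h3⟩⟩
    · rw [h0 k hk 0 (by norm_num) _ hq6] at h2
      rw [h0 k hk 1 (by norm_num) _ hp6] at h3
      exact ⟨f6 k, Or.inl ⟨Or.inr h2, Or.inl h3⟩⟩

/-- **the monitor is on at the end, if the pair occurs** -/
theorem ho_EYe {nm i : ℕ} (hi : i < nm) (ho : Occ U T (Zf u1 TC z NW (c i)) (co σ (p i)) (co σ (q i)))
    (hNP : NP ≤ 4094) {M : Md 2 NP NW (nbf 2 TB)}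
    (hM : LegX F B z σ (XY U T z σ u1 c p q t0 t1) u1 t0 t1 M) : Ho M [ps (hA i 3)] := by
  have hX := xy_ok (U := U) (T := T) z σ u1 c p q t0 t1 nm
  obtain ⟨u, hu, s0, s1, L, R, S, e0, e1, rfl⟩ := hM
  exact hp ((hA_av hX (by omega) hi (by norm_num)).2 (Or.inr (hb_three F.h ho)))

end

end Vale.Agent.P032.HistY
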