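import Vale.Agent.P032X.H892.BlkE

/-!
# P032: images of dead patterns at the moving class

A germ model `M` of a frame `F` (directions `b + m`) at the time `u` reads also the frame `F'` with the same centre and
the directions `u + m`: its states are the right and the left state of the moving class.  So a pattern which is dead for
all frames with the centre of `F` gives a clause about the atoms of the moving class.

* `pB`, `bchk`, `BTab` : the table of the points of the moving class, its check,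
* `exists_frB` : the frame of the moving class,
* `bA`, `clB` : the atoms and the clauses of the moving class; `occurs in the sector` is a disjunction of five atoms
  (a choice for each literal), accumulation is weakened,
* `imB`, `imB_ho`, `imB_hoX` : **the clauses of the images of dead patterns at the moving class hold in every model.**
-/

open Set Filter Topology Metric

noncomputable section

namespace Vale.Agent.P032.ImB

open Vale.Agent.P032.Six Vale.Agent.P032.Words Vale.Agent.P032.S5.H767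
  Vale.Agent.P032.H913 Vale.Agent.P032.H357 Vale.Agent.P032.H61 Vale.Agent.P032.BlkV Vale.Agent.P032.BlkE
open Vale.Agent.P032.H892 (AccR AccL)
open Vale.Agent.P032.H357.MK
open Vale.Agent.P032.H820.K (a0 a1 a2 a3 a4 En en_eq dec Md av lv Ho ps ng lv_ps lv_ng nbf lb lb_iff trv ho_trv)

/-! ### the table -/

/-- the point of the moving class with the coordinates of the point `x` -/
def pB (TS x : ℕ) : ℕ := Nat.land (Nat.shiftRight TS (Nat.mul 12 x)) 4095

/-- the check of the table -/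
def bchk (NP NW TC TS : ℕ) : Bool := al (fun x => bif fx0 TC x then
    (lb (pB TS x) NP && (bif lb x NW then lb (pB TS x) NW else true)) &&
      ((Nat.beq (cf 2 TC (pB TS x) 0) 8 && Nat.beq (cf 2 TC (pB TS x) 1) 8) &&
        (Nat.beq (cf 2 TC (pB TS x) 2) (cf 2 TC x 0) && Nat.beq (cf 2 TC (pB TS x) 3) (cf 2 TC x 1)))
    else true) NP

/-- the table is correct -/
structure BTab (NP NW TC TS : ℕ) : Prop where
  lt : ∀ x, Gp NP TC x → pB TS x < NP
  cen : ∀ x, Gp NP TC x → x < NW → pB TS x < NW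
  co : ∀ x, Gp NP TC x → (cf 2 TC (pB TS x) 0 = 8 ∧ cf 2 TC (pB TS x) 1 = 8) ∧
    cf 2 TC (pB TS x) 2 = cf 2 TC x 0 ∧ cf 2 TC (pB TS x) 3 = cf 2 TC x 1

theorem btab_of {NP NW TC TS : ℕ} (h : bchk NP NW TC TS = true) : BTab NP NW TC TS := by
  have key : ∀ x, Gp NP TC x → (pB TS x < NP ∧ (x < NW → pB TS x < NW)) ∧
      (cf 2 TC (pB TS x) 0 = 8 ∧ cf 2 TC (pB TS x) 1 = 8) ∧
      cf 2 TC (pB TS x) 2 = cf 2 TC x 0 ∧ cf 2 TC (pB TS x) 3 = cf 2 TC x 1 := by
    intro x hx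
    have h1 := al_spec h x hx.1
    rw [hx.2, cond_true, Bool.and_eq_true, Bool.and_eq_true, Bool.and_eq_true, Bool.and_eq_true, Bool.and_eq_true,
      lb_iff, nbeq, nbeq, nbeq, nbeq] at h1
    obtain ⟨⟨h2, h3⟩, h4, h5⟩ := h1
    refine ⟨⟨h2, fun hw => ?_⟩, h4, h5⟩
    rw [lb_iff.2 hw, cond_true, lb_iff] at h3
    exact h3
  exact ⟨fun x hx => (key x hx).1.1, fun x hx => (key x hx).1.2, fun x hx => (key x hx).2⟩

section
variable {NP NW TB TC TS : ℕ} {B : Tb NP NW TB TC} {F F' : Fr} {u : ℝ}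

/-- the points of the moving class -/
theorem yt_B (h : BTab NP NW TC TS) {z : ℂ} {b : ℝ} {x : ℕ} (hx : Gp NP TC x) :
    Yt (t2 b u) 2 TC z (pB TS x) = hp z u (kap TC x) := by
  obtain ⟨⟨e0, e1⟩, e2, e3⟩ := h.co x hx
  unfold Yt hp kap
  rw [Finset.sum_range_succ, Finset.sum_range_one, t2_one]
  have e2 : cf 2 TC (pB TS x) (2 * 1) = cf 2 TC x 0 := e2
  have e3 : cf 2 TC (pB TS x) (2 * 1 + 1) = cf 2 TC x 1 := e3
  have e0 : cf 2 TC (pB TS x) (2 * 0) = 8 := e0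
  have e1 : cf 2 TC (pB TS x) (2 * 0 + 1) = 8 := e1
  rw [e0, e1, e2, e3]
  push_cast
  ring

/-- `F'` is the frame of the moving class of the states `L`, `R` -/
structure FrB (NW TC TS : ℕ) (u : ℝ) (L R : Fin NW × Fin 6 → Fin 6 × Fin 6) (F F' : Fr) : Prop where
  eU : F'.U = F.U
  eT : F'.T = F.T
  ez : F'.z = F.z
  es : F'.σ = F.σ
  eb : F'.b = u
  e0 : ∀ x, Ce NW TC x → ∀ (hB : pB TS x < NW) (m : Fin 6), F'.s0 (x, m) = R (⟨pB TS x, hB⟩, m)
  e1 : ∀ x, Ce NW TC x → ∀ (hB : pB TS x < NW) (m : Fin 6), F'.s1 (x, m) = L (⟨pB TS x, hB⟩, m + 1)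

/-- **the frame of the moving class** -/
theorem exists_frB (hNW : NW ≤ NP) (h : BTab NP NW TC TS) (hF : FOk (kap TC) (cxv NW TC) F)
    {s0 s1 L R : Fin NW × Fin 6 → Fin 6 × Fin 6} (S : St4 F.U F.T (Yw F.b u TC F.z NW) F.b u s0 s1 L R) :
    ∃ F' : Fr, FOk (kap TC) (cxv NW TC) F' ∧ FrB NW TC TS u L R F F' := by
  have hB : ∀ c : Cn NW TC, pB TS c.1 < NW := fun c => h.cen c.1 ⟨lt_of_lt_of_le c.2.1 hNW, c.2.2⟩ c.2.1
  let F' : Fr :=
    { U := F.U
      T := F.T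
      z := F.z
      b := u
      σ := F.σ
      s0 := fun i => if hi : pB TS i.1 < NW then R (⟨pB TS i.1, hi⟩, i.2) else (0, 0)
      s1 := fun i => if hi : pB TS i.1 < NW then L (⟨pB TS i.1, hi⟩, i.2 + 1) else (0, 0) }
  have hP : ∀ c : Cn NW TC, F'.Z (kap TC) (cxv NW TC) c = Yw F.b u TC F.z NW ⟨pB TS c.1, hB c⟩ := fun c =>
    (yt_B h ⟨lt_of_lt_of_le c.2.1 hNW, c.2.2⟩).symm
  refine ⟨F', ⟨hF.irr, hF.ctn, hF.lf3, hF.five, hF.ln, ?_, ?_⟩, rfl, rfl, rfl, rfl, rfl, fun x hx hb m => dif_pos hb,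
    fun x hx hb m => dif_pos hb⟩
  · have h1 := rst_tr (X := nX (Yw F.b u TC F.z NW)) (o := nO) (X' := ct6 (F'.Z (kap TC) (cxv NW TC))) (o' := of6) (d := 0)
      (fun i : Cn NW TC × Fin 6 => ((⟨pB TS i.1.1, hB i.1⟩, i.2) : Fin NW × Fin 6))
      (fun i => hP i.1) (fun i => ⟨0, by
        show (i.2.val : ℝ) + 0 = (i.2.val : ℝ) + 6 * ((0 : ℤ) : ℝ)
        push_cast; ring⟩) S.hR
    rw [add_zero] at h1
    have e : (fun i : Cn NW TC × Fin 6 => R (⟨pB TS i.1.1, hB i.1⟩, i.2)) = rS (cxv NW TC) F'.s0 := by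
      funext i
      have h2 : (if hi : pB TS i.1.1 < NW then R (⟨pB TS i.1.1, hi⟩, i.2) else (0, 0)) =
        R (⟨pB TS i.1.1, hB i.1⟩, i.2) := dif_pos (hB i.1)
      exact h2.symm
    rw [e] at h1
    exact h1
  · have h1 := lst_tr (X := nX (Yw F.b u TC F.z NW)) (o := nO) (X' := ct6 (F'.Z (kap TC) (cxv NW TC))) (o' := of6) (d := 1)
      (fun i : Cn NW TC × Fin 6 => ((⟨pB TS i.1.1, hB i.1⟩, i.2 + 1) : Fin NW × Fin 6))
      (fun i => hP i.1) (fun i => fin_add_one i.2) S.hL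
    have e : (fun i : Cn NW TC × Fin 6 => L (⟨pB TS i.1.1, hB i.1⟩, i.2 + 1)) = rS (cxv NW TC) F'.s1 := by
      funext i
      have h2 : (if hi : pB TS i.1.1 < NW then L (⟨pB TS i.1.1, hi⟩, i.2 + 1) else (0, 0)) =
        L (⟨pB TS i.1.1, hB i.1⟩, i.2 + 1) := dif_pos (hB i.1)
      exact h2.symm
    rw [e] at h1
    exact h1

/-! ### atoms -/

/-- the atom of the moving class given by its fields -/
def bF (TS kd x j k q : ℕ) : ℕ := En kd (pB TS x) (bif Nat.beq kd 0 || Nat.beq kd 9 then Nat.succ j else j) k q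

/-- the sector with the number `2 m + 1 + i` -/
def sB (TS x m i q : ℕ) : ℕ := En 0 (pB TS x) (Nat.mod (Nat.add (Nat.succ (Nat.mul 2 m)) i) 12) 0 q

/-- the five atoms of a whole sector -/
def oB (TS x m q i : ℕ) : ℕ :=
  bif Nat.ble i 1 then sB TS x m i q else En 0 (pB TS x) (Nat.mod (Nat.add 2 (Nat.mul 2 m)) 12) (Nat.sub (bif Nat.ble i 4 then i else 2) 1) q

/-- the clause of the moving class: the literals `L` (of class 0), the choices `s` -/
def stB (TS l : ℕ) (ih : ℕ → List ℕ) (s kd x j k q : ℕ) : List ℕ :=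
  bif Nat.beq kd 11 then
    (bif Nat.beq (Nat.mod l 2) 0 then
      ps (oB TS x j q 0) :: ps (oB TS x j q 1) :: ps (oB TS x j q 2) :: ps (oB TS x j q 3) :: ps (oB TS x j q 4) :: ih s
    else ng (oB TS x j q (Nat.land s 7)) :: ih (Nat.shiftRight s 3))
  else bif Nat.beq kd 14 || Nat.beq kd 15 then
    (bif Nat.beq (Nat.mod l 2) 0 then ps (sB TS x j (Nat.sub kd 14) q) :: ih s else trv)
  else Nat.add (Nat.mul 2 (bF TS kd x j k q)) (Nat.mod l 2) :: ih s

/-- the clause of the moving class: the literals `L` (of class 0), the choices `s` -/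
def clB (TS : ℕ) (L : List ℕ) : ℕ → List ℕ :=
  @List.rec ℕ (fun _ => ℕ → List ℕ) (fun _ => []) (fun l _ ih s => stB TS l ih s (Nat.mod (Nat.div l 2) 16)
    (Nat.mod (Nat.div (Nat.div l 2) 16) 4096) (Nat.mod (Nat.div (Nat.div l 2) 65536) 256)
    (Nat.mod (Nat.div (Nat.div l 2) 16777216) 8) (Nat.div (Nat.div l 2) 134217728)) L

/-- the clause of an image at the moving class, code `g + 2^4 i + 2^12 m + 2^32 s` : the element `g`, the permutation
`i`, the pattern `m`, the choices `s` (3 bits for each literal) -/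
def imB (G : ℕ → Bool) (t : PTr) (PT NPM TG TS c : ℕ) : List ℕ :=
  bif G (Nat.land c 15) && lb (Nat.land (Nat.shiftRight c 4) 255) NPM then
    clB TS (imC TG (Nat.land (Nat.shiftRight PT (Nat.mul 18 (Nat.land (Nat.shiftRight c 4) 255))) 262143)
      (Nat.land c 15) (t.get (Nat.land (Nat.shiftRight c 12) 1048575))) (Nat.shiftRight c 32) else trv

end

section
variable {NP NW TB TC TS : ℕ} {B : Tb NP NW TB TC} {U : Fin 6 → Set ℂ} {T : ℂ → Set (Fin 6)} {Fy : Hy U T} {z : ℂ}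
  {σ : Equiv.Perm (Fin 6)} {u1 u : ℝ} {hu : u ∈ Ioo u1 (u1 + 1)} {s0 s1 L R : Fin NW × Fin 6 → Fin 6 × Fin 6}
  {S : St4 U T (Yw u1 u TC z NW) u1 u s0 s1 L R} {x t sd io : ℕ}

theorem w_odd' (hx : x < NW) (ht : t % 2 ≠ 0) : (mS Fy B z σ hu S).W x t sd io =
    nio σ (if sd = 1 then R (⟨x, hx⟩, f6 (t / 2)) else L (⟨x, hx⟩, f6 (t / 2))) io := by
  show nC σ 2 NW (fun _ => wds s0 s1 L R) x t sd io = _
  rw [nC_eq hx]
  unfold wds
  simp only [if_neg ht]
  rfl

end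

section
variable {NP NW TB TC TS : ℕ} {B : Tb NP NW TB TC} {F F' : Fr} {u : ℝ} {hy : Hy F.U F.T}
  {hu : u ∈ Ioo F.b (F.b + 1)} {s0 s1 L R : Fin NW × Fin 6 → Fin 6 × Fin 6}
  {S : St4 F.U F.T (Yw F.b u TC F.z NW) F.b u s0 s1 L R} {x j k q : ℕ}

theorem e_P (h : BTab NP NW TC TS) (hb : FrB NW TC TS u L R F F') (hx : Gp NP TC x) :
    F'.P (kap TC) x = Yt (t2 F.b u) 2 TC F.z (pB TS x) := by
  rw [yt_B h hx]
  unfold Fr.P
  rw [hb.ez, hb.eb]

theorem f6_five (m : ℕ) : f6 (m + 5) + 1 = f6 m := by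
  rw [f6_add]
  exact f6_eq (by omega)

/-- a sector of a model -/
theorem sec_ok (h : BTab NP NW TC TS) (hb : FrB NW TC TS u L R F F') (hx : Gp NP TC x) {i : ℕ} (hi : i < 12) :
    av (mS hy B F.z F.σ hu S) (En 0 (pB TS x) i 0 q) ↔
      (Sh F.T (F'.P (kap TC) x) (co F.σ q) ∩ Ioo (t2 F.b u i) (t2 F.b u (i + 1))).Nonempty := by
  rw [H820.K.av0 (lt_of_lt_of_le (h.lt x hx) B.hNP) (by omega) (by norm_num), e_P h hb hx]
  exact cl0_sh (c := pB TS x) (Z := Yt (t2 F.b u) 2 TC F.z) hy.h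

/-- a ray of a model -/
theorem ray_ok (h : BTab NP NW TC TS) (hb : FrB NW TC TS u L R F F') (hx : Gp NP TC x) {i : ℕ} (hi : i < 12) :
    (∃ k < 3, av (mS hy B F.z F.σ hu S) (En 0 (pB TS x) i (k + 1) q)) ↔
      t2 F.b u i ∈ Sh F.T (F'.P (kap TC) x) (co F.σ q) := by
  have e : ∀ k < 3, (av (mS hy B F.z F.σ hu S) (En 0 (pB TS x) i (k + 1) q) ↔
      Cl (Sq F.T (co F.σ q)) (Yt (t2 F.b u) 2 TC F.z (pB TS x)) (t2 F.b u) (k + 1) i) := fun k hk =>
    H820.K.av0 (lt_of_lt_of_le (h.lt x hx) B.hNP) (by omega) (by omega)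
  have h1 := clz_sh (c := pB TS x) (Z := Yt (t2 F.b u) 2 TC F.z) (a := t2 F.b u) (j := i) (q := co F.σ q) hy.h
  rw [e_P h hb hx]
  refine Iff.trans ?_ h1
  constructor
  · rintro ⟨k, hk, h2⟩
    exact ⟨k, hk, (e k hk).1 h2⟩
  · rintro ⟨k, hk, h2⟩
    exact ⟨k, hk, (e k hk).2 h2⟩

theorem t2_od (b u : ℝ) (m : ℕ) : t2 b u (2 * m + 1) = u + m := t2_odd b u m

theorem t2_ev (b u : ℝ) (m : ℕ) : t2 b u (2 * m) = b + m := t2_even b u m

/-- the interval of a sector modulo 12 -/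
theorem sh_mod {T : ℂ → Set (Fin 6)} {y : ℂ} {c : Fin 6} {b u : ℝ} {i : ℕ} :
    (Sh T y c ∩ Ioo (t2 b u (i % 12)) (t2 b u (i % 12 + 1))).Nonempty ↔
      (Sh T y c ∩ Ioo (t2 b u i) (t2 b u (i + 1))).Nonempty := by
  have e : ∀ j r : ℕ, t2 b u (j + 12 * r) = t2 b u j + 6 * ((r : ℤ) : ℝ) := by
    intro j r
    rcases Nat.even_or_odd' j with ⟨m, rfl | rfl⟩
    · rw [show 2 * m + 12 * r = 2 * (m + 6 * r) by ring, t2_ev, t2_ev]
      push_cast; ring
    · rw [show 2 * m + 1 + 12 * r = 2 * (m + 6 * r) + 1 by ring, t2_od, t2_od]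
      push_cast; ring
  have h1 := e (i % 12) (i / 12)
  have h2 := e (i % 12 + 1) (i / 12)
  rw [show i % 12 + 12 * (i / 12) = i by omega] at h1
  rw [show i % 12 + 1 + 12 * (i / 12) = i + 1 by omega] at h2
  rw [h1, h2]
  constructor
  · rintro ⟨v, h3, h4, h5⟩
    exact ⟨v + 6 * (((i / 12 : ℕ) : ℤ) : ℝ), (sh_int _).2 h3, by linarith, by linarith⟩
  · rintro ⟨v, h3, h4, h5⟩
    refine ⟨v - 6 * (((i / 12 : ℕ) : ℤ) : ℝ), ?_, by linarith, by linarith⟩
    rw [← sh_int ((i / 12 : ℕ) : ℤ), sub_add_cancel]; exact h3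

theorem sh_mod' {T : ℂ → Set (Fin 6)} {y : ℂ} {c : Fin 6} {b u : ℝ} {i : ℕ} :
    t2 b u (i % 12) ∈ Sh T y c ↔ t2 b u i ∈ Sh T y c := by
  have e : ∀ j r : ℕ, t2 b u (j + 12 * r) = t2 b u j + 6 * ((r : ℤ) : ℝ) := by
    intro j r
    rcases Nat.even_or_odd' j with ⟨m, rfl | rfl⟩
    · rw [show 2 * m + 12 * r = 2 * (m + 6 * r) by ring, t2_ev, t2_ev]
      push_cast; ring
    · rw [show 2 * m + 1 + 12 * r = 2 * (m + 6 * r) + 1 by ring, t2_od, t2_od]
      push_cast; ring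
  have h1 := e (i % 12) (i / 12)
  rw [show i % 12 + 12 * (i / 12) = i by omega] at h1
  rw [h1, sh_int]

/-! ### the meaning of the atoms -/

theorem succ_div (j : ℕ) (hj : j % 2 = 0) : Nat.succ j = 2 * (j / 2) + 1 := by
  have : Nat.succ j = j + 1 := rfl
  omega

/-- letters, zones and colours -/
theorem bF_ok (h : BTab NP NW TC TS) (hb : FrB NW TC TS u L R F F') {kd : ℕ}
    (hv : Wa (Gp NP TC) (Ce NW TC) kd x j k q) (h11 : kd ≠ 11) (h14 : kd ≠ 14) (h15 : kd ≠ 15) :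
    av (mS hy B F.z F.σ hu S) (bF TS kd x j k q) ↔ tva (kap TC) F' kd x j k q := by
  have hp := e_P h hb hv.va.pt
  have hl := lt_of_lt_of_le (h.lt x hv.va.pt) B.hNP
  unfold bF tva
  rw [hb.eT, hb.eU, hb.es, hb.eb]
  rcases hv.va.kind with ⟨rfl, h1, h2, h3, h4⟩ | ⟨h0, h1, h2⟩ | ⟨rfl, h1, h2, h3⟩ | ⟨h0, h1, h2⟩
  · have e1 : (bif Nat.beq 0 0 || Nat.beq 0 9 then Nat.succ j else j) = 2 * (j / 2) + 1 := succ_div j h1
    rw [e1, H820.K.av0 hl (by omega) (by omega), if_pos rfl, hp]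
    show Cl (Sq F.T (co F.σ q)) (Yt (t2 F.b u) 2 TC F.z (pB TS x)) (t2 F.b u) k (2 * (j / 2) + 1) ↔ _
    rw [cl_zc (by omega), t2_od]
  · subst h1 h2
    rcases h0 with rfl | rfl | rfl
    · have e1 : (bif Nat.beq 4 0 || Nat.beq 4 9 then Nat.succ 0 else 0) = 0 := rfl
      rw [e1, H820.K.av4 hl, hp]
      norm_num
      exact Iff.rfl
    · have e1 : (bif Nat.beq 5 0 || Nat.beq 5 9 then Nat.succ 0 else 0) = 0 := rfl
      rw [e1, H820.K.av5 hl, hp]
      norm_num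
      exact Iff.rfl
    · have e1 : (bif Nat.beq 6 0 || Nat.beq 6 9 then Nat.succ 0 else 0) = 0 := rfl
      rw [e1, hv.va.six rfl, H820.K.av6 hl, hp]
      norm_num
      exact Iff.rfl
  · have e1 : (bif Nat.beq 9 0 || Nat.beq 9 9 then Nat.succ j else j) = 2 * (j / 2) + 1 := succ_div j h1
    have hce := hv.cen rfl
    have hw : pB TS x < NW := h.cen x hv.va.pt hce.1
    have e2 : f6 ((2 * (j / 2) + 1) / 2) = f6 (j / 2) := by rw [show (2 * (j / 2) + 1) / 2 = j / 2 by omega]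
    rw [e1, H820.K.av9 hl (by omega) (by omega), w_odd' hw (by omega), nio_iff _ hv.va.col, e2,
      hb.e0 x hce hw, hb.e1 x hce hw, f6_five]
    interval_cases k <;> norm_num
  · omega

/-- the whole sector -/
theorem oB_ok (h : BTab NP NW TC TS) (hb : FrB NW TC TS u L R F F') (hx : Gp NP TC x) :
    Se F'.T (F'.P (kap TC) x) (co F'.σ q) (F'.b + j) ↔
      ∃ i < 5, av (mS hy B F.z F.σ hu S) (oB TS x j q i) := by
  have e0 : oB TS x j q 0 = En 0 (pB TS x) ((2 * j + 1 + 0) % 12) 0 q := rfl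
  have e1 : oB TS x j q 1 = En 0 (pB TS x) ((2 * j + 1 + 1) % 12) 0 q := rfl
  have e2 : ∀ k < 3, oB TS x j q (k + 2) = En 0 (pB TS x) ((2 + 2 * j) % 12) (k + 1) q := by
    intro k hk
    interval_cases k <;> rfl
  have s0 := sec_ok (hy := hy) (B := B) (hu := hu) (S := S) h hb hx (q := q)
    (Nat.mod_lt (2 * j + 1 + 0) (show 12 > 0 by norm_num))
  have s1 := sec_ok (hy := hy) (B := B) (hu := hu) (S := S) h hb hx (q := q)
    (Nat.mod_lt (2 * j + 1 + 1) (show 12 > 0 by norm_num))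
  have s2 := ray_ok (hy := hy) (B := B) (hu := hu) (S := S) h hb hx (q := q)
    (Nat.mod_lt (2 + 2 * j) (show 12 > 0 by norm_num))
  rw [sh_mod] at s0 s1
  rw [sh_mod'] at s2
  rw [show 2 * j + 1 + 0 + 1 = 2 * (j + 1) by ring, show 2 * j + 1 + 0 = 2 * j + 1 by ring, t2_od, t2_ev] at s0
  rw [show 2 * j + 1 + 1 + 1 = 2 * (j + 1) + 1 by ring, show 2 * j + 1 + 1 = 2 * (j + 1) by ring, t2_od, t2_ev] at s1
  rw [show 2 + 2 * j = 2 * (j + 1) by ring, t2_ev] at s2
  have h2 : u ∈ Ioo F.b (F.b + 1) := hu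
  unfold Se
  rw [hb.eT, hb.es, hb.eb]
  constructor
  · rintro ⟨v, h3, h4, h5⟩
    rcases lt_trichotomy v (F.b + ((j + 1 : ℕ) : ℝ)) with h6 | h6 | h6
    · refine ⟨0, by norm_num, ?_⟩
      rw [e0, show 2 * j + 1 + 0 = 2 * j + 1 by ring]
      exact s0.2 ⟨v, h3, h4, h6⟩
    · rw [h6] at h3
      obtain ⟨k, hk, h7⟩ := s2.2 h3
      refine ⟨k + 2, by omega, ?_⟩
      rw [e2 k hk, show 2 + 2 * j = 2 * (j + 1) by ring]
      exact h7
    · refine ⟨1, by norm_num, ?_⟩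
      rw [e1, show 2 * j + 1 + 1 = 2 * (j + 1) by ring]
      refine s1.2 ⟨v, h3, h6, ?_⟩
      push_cast
      linarith
  · rintro ⟨i, hi, h3⟩
    have key : i = 0 ∨ i = 1 ∨ ∃ k < 3, i = k + 2 := by
      rcases Nat.lt_or_ge i 2 with h4 | h4
      · omega
      · exact Or.inr (Or.inr ⟨i - 2, by omega, by omega⟩)
    rcases key with rfl | rfl | ⟨k, hk, rfl⟩
    · rw [e0, show 2 * j + 1 + 0 = 2 * j + 1 by ring] at h3
      obtain ⟨v, h4, h5, h6⟩ := s0.1 h3
      refine ⟨v, h4, h5, ?_⟩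
      push_cast at h6
      linarith [h2.1]
    · rw [e1, show 2 * j + 1 + 1 = 2 * (j + 1) by ring] at h3
      obtain ⟨v, h4, h5, h6⟩ := s1.1 h3
      refine ⟨v, h4, ?_, ?_⟩
      · push_cast at h5
        linarith [h2.2]
      · push_cast at h6
        linarith
    · rw [e2 k hk, show 2 + 2 * j = 2 * (j + 1) by ring] at h3
      refine ⟨_, s2.1 ⟨k, hk, h3⟩, ?_, ?_⟩
      · push_cast
        linarith [h2.2]
      · push_cast
        linarith [h2.1]

/-- accumulation from the right -/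
theorem rB_ok (h : BTab NP NW TC TS) (hb : FrB NW TC TS u L R F F') (hx : Gp NP TC x)
    (h14 : AccR (Sh F'.T (F'.P (kap TC) x) (co F'.σ q)) (F'.b + j)) :
    av (mS hy B F.z F.σ hu S) (sB TS x j 0 q) := by
  have e0 : sB TS x j 0 q = En 0 (pB TS x) ((2 * j + 1) % 12) 0 q := rfl
  rw [e0]
  refine (sec_ok h hb hx (Nat.mod_lt _ (by norm_num))).2 ?_
  rw [sh_mod, show 2 * j + 1 + 1 = 2 * (j + 1) by ring, t2_od, t2_ev]
  have h2 : u ∈ Ioo F.b (F.b + 1) := hu
  rw [hb.eT, hb.es, hb.eb] at h14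
  have h15 : ∃ᶠ v in 𝓝[>] (u + j), v ∈ Sh F.T (F'.P (kap TC) x) (co F.σ q) := h14
  have h16 : ∀ᶠ v in 𝓝[>] (u + (j : ℝ)), v ∈ Ioo (u + (j : ℝ)) (F.b + ((j + 1 : ℕ) : ℝ)) :=
    Ioo_mem_nhdsGT (by push_cast; linarith [h2.2])
  obtain ⟨v, h3, h4⟩ := (h15.and_eventually h16).exists
  exact ⟨v, h3, h4⟩

/-- accumulation from the left -/
theorem lB_ok (h : BTab NP NW TC TS) (hb : FrB NW TC TS u L R F F') (hx : Gp NP TC x)
    (h15 : AccL (Sh F'.T (F'.P (kap TC) x) (co F'.σ q)) (F'.b + j + 1)) :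
    av (mS hy B F.z F.σ hu S) (sB TS x j 1 q) := by
  have e0 : sB TS x j 1 q = En 0 (pB TS x) ((2 * j + 1 + 1) % 12) 0 q := rfl
  rw [e0]
  refine (sec_ok h hb hx (Nat.mod_lt _ (by norm_num))).2 ?_
  rw [sh_mod, show 2 * j + 1 + 1 + 1 = 2 * (j + 1) + 1 by ring, show 2 * j + 1 + 1 = 2 * (j + 1) by ring, t2_od, t2_ev]
  have h2 : u ∈ Ioo F.b (F.b + 1) := hu
  rw [hb.eT, hb.es, hb.eb] at h15
  have h14 : ∃ᶠ v in 𝓝[<] (u + j + 1), v ∈ Sh F.T (F'.P (kap TC) x) (co F.σ q) := h15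
  have e : u + (j : ℝ) + 1 = u + ((j + 1 : ℕ) : ℝ) := by push_cast; ring
  rw [e] at h14
  have h16 : ∀ᶠ v in 𝓝[<] (u + ((j + 1 : ℕ) : ℝ)), v ∈ Ioo (F.b + ((j + 1 : ℕ) : ℝ)) (u + ((j + 1 : ℕ) : ℝ)) :=
    Ioo_mem_nhdsLT (by linarith [h2.1])
  obtain ⟨v, h3, h4⟩ := (h14.and_eventually h16).exists
  exact ⟨v, h3, h4⟩

/-! ### clauses -/

/-- the head of a clause of the moving class -/
theorem ho_stB {M' : Md 2 NP NW (nbf 2 TB)} (hM : ∀ n, a1 n < NP → (av M' n ↔ av (mS hy B F.z F.σ hu S) n))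
    (h : BTab NP NW TC TS) (hb : FrB NW TC TS u L R F F') {kd l : ℕ} {ih : ℕ → List ℕ} {s : ℕ}
    (hv : Wa (Gp NP TC) (Ce NW TC) kd x j k q)
    (hl : (if l % 2 = 0 then tva (kap TC) F' kd x j k q else ¬ tva (kap TC) F' kd x j k q) ∨ ∀ s, Ho M' (ih s)) :
    Ho M' (stB TS l ih s kd x j k q) := by
  have hlt := lt_of_lt_of_le (h.lt x hv.va.pt) B.hNP
  have hpt := h.lt x hv.va.pt
  have en0 : ∀ {i k' : ℕ}, i < 256 → k' < 8 → a1 (En 0 (pB TS x) i k' q) = pB TS x := fun hi hk =>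
    (dec (kd := 0) (q := q) (by norm_num) hlt hi hk).2.1
  have sm : ∀ i, a1 (sB TS x j i q) < NP := fun i => by
    have e : sB TS x j i q = En 0 (pB TS x) ((2 * j + 1 + i) % 12) 0 q := rfl
    rw [e, en0 (by have := Nat.mod_lt (2 * j + 1 + i) (show 12 > 0 by norm_num); omega) (by norm_num)]
    exact hpt
  have om : ∀ i, a1 (oB TS x j q i) < NP := fun i => by
    unfold oB
    cases h1 : Nat.ble i 1
    · rw [cond_false]
      have e : (Nat.mod (Nat.add 2 (Nat.mul 2 j)) 12) = (2 + 2 * j) % 12 := rfl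
      rw [e]
      rw [en0 (by have := Nat.mod_lt (2 + 2 * j) (show 12 > 0 by norm_num); omega) (by
        cases h2 : Nat.ble i 4
        · rw [cond_false]; norm_num
        · rw [cond_true]
          have := Nat.ble_eq.mp h2
          show i - 1 < 8
          omega)]
      exact hpt
    · rw [cond_true]; exact sm i
  unfold stB
  cases h11 : Nat.beq kd 11
  · rw [cond_false]
    have n11 : kd ≠ 11 := fun e => by rw [nbeq.2 e] at h11; exact Bool.noConfusion h11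
    cases h1 : (Nat.beq kd 14 || Nat.beq kd 15)
    · rw [cond_false]
      have n14 : kd ≠ 14 := fun e => by rw [nbeq.2 e, Bool.true_or] at h1; exact Bool.noConfusion h1
      have n15 : kd ≠ 15 := fun e => by rw [nbeq.2 e, Bool.or_true] at h1; exact Bool.noConfusion h1
      rcases hl with hl | hl
      · refine ⟨_, List.mem_cons_self, ?_⟩
        have e1 : Nat.add (Nat.mul 2 (bF TS kd x j k q)) (Nat.mod l 2) = 2 * bF TS kd x j k q + l % 2 := rfl
        have e2 : (2 * bF TS kd x j k q + l % 2) / 2 = bF TS kd x j k q := by omega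
        have e3 : (2 * bF TS kd x j k q + l % 2) % 2 = l % 2 := by omega
        have hk : kd < 16 ∧ j < 256 ∧ k < 8 := hv.va.bd
        have e4 : a1 (bF TS kd x j k q) = pB TS x := by
          unfold bF
          refine (dec hk.1 hlt ?_ hk.2.2).2.1
          cases Nat.beq kd 0 || Nat.beq kd 9
          · exact hk.2.1
          · show Nat.succ j < 256
            rcases hv.va.kind with ⟨h0, h1, h2, h3, h4⟩ | ⟨h0, h1, h2⟩ | ⟨h0, h1, h2, h3⟩ | ⟨h0, h1, h2⟩ <;>
              simp only [Nat.succ_eq_add_one] <;> omega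
        rw [e1]
        unfold H820.K.lv
        rw [e2, e3, hM _ (by rw [e4]; exact hpt), bF_ok h hb hv n11 n14 n15]
        exact hl
      · exact H820.K.ht (hl s)
    · rw [cond_true]
      cases h2 : Nat.beq (Nat.mod l 2) 0
      · rw [cond_false]; exact ho_trv M'
      · rw [cond_true]
        have h3 : l % 2 = 0 := nbeq.1 h2
        rw [h3, if_pos rfl] at hl
        rw [Bool.or_eq_true, nbeq, nbeq] at h1
        rcases hl with hl | hl
        · rcases h1 with rfl | rfl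
          · have hl : AccR (Sh F'.T (F'.P (kap TC) x) (co F'.σ q)) (F'.b + j) := by
              unfold tva at hl; norm_num at hl; exact hl
            exact H820.K.hp ((hM _ (sm 0)).2 (rB_ok h hb hv.va.pt hl))
          · have hl : AccL (Sh F'.T (F'.P (kap TC) x) (co F'.σ q)) (F'.b + j + 1) := by
              unfold tva at hl; norm_num at hl; exact hl
            exact H820.K.hp ((hM _ (sm 1)).2 (lB_ok h hb hv.va.pt hl))
        · exact H820.K.ht (hl s)
  · rw [cond_true]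
    have e11 : kd = 11 := nbeq.1 h11
    subst e11
    have et : tva (kap TC) F' 11 x j k q ↔ Se F'.T (F'.P (kap TC) x) (co F'.σ q) (F'.b + j) := by
      unfold tva; norm_num
    rw [et, oB_ok (hy := hy) (B := B) (hu := hu) (S := S) h hb hv.va.pt] at hl
    cases h2 : Nat.beq (Nat.mod l 2) 0
    · rw [cond_false]
      have h3 : ¬ l % 2 = 0 := fun e => by
        have h4 : Nat.beq (Nat.mod l 2) 0 = true := nbeq.2 e
        rw [h2] at h4; exact Bool.noConfusion h4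
      rw [if_neg h3] at hl
      rcases hl with hl | hl
      · refine H820.K.hn fun h4 => ?_
        exfalso
        rw [hM _ (om _)] at h4
        have key : ∃ i < 5, oB TS x j q (Nat.land s 7) = oB TS x j q i := by
          have h8 : Nat.land s 7 < 8 := Nat.and_lt_two_pow s (show 7 < 2 ^ 3 by norm_num)
          by_cases h5 : Nat.land s 7 < 5
          · exact ⟨_, h5, rfl⟩
          · refine ⟨2, by norm_num, ?_⟩
            have h6 : Nat.land s 7 = 5 ∨ Nat.land s 7 = 6 ∨ Nat.land s 7 = 7 := by omega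
            rcases h6 with h6 | h6 | h6 <;> rw [h6] <;> rfl
        obtain ⟨i, hi, h7⟩ := key
        rw [h7] at h4
        exact hl ⟨i, hi, h4⟩
      · exact H820.K.ht (hl _)
    · rw [cond_true]
      have h3 : l % 2 = 0 := nbeq.1 h2
      rw [if_pos h3] at hl
      rcases hl with ⟨i, hi, h4⟩ | hl
      · have h4 := (hM _ (om i)).2 h4
        interval_cases i
        · exact H820.K.hp h4
        · exact H820.K.ht (H820.K.hp h4)
        · exact H820.K.ht (H820.K.ht (H820.K.hp h4))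
        · exact H820.K.ht (H820.K.ht (H820.K.ht (H820.K.hp h4)))
        · exact H820.K.ht (H820.K.ht (H820.K.ht (H820.K.ht (H820.K.hp h4))))
      · exact H820.K.ht (H820.K.ht (H820.K.ht (H820.K.ht (H820.K.ht (hl s)))))

/-- **the clause of the moving class holds if a literal is true in the frame of the moving class** -/
theorem ho_clB {M' : Md 2 NP NW (nbf 2 TB)} (hM : ∀ n, a1 n < NP → (av M' n ↔ av (mS hy B F.z F.σ hu S) n))
    (h : BTab NP NW TC TS) (hb : FrB NW TC TS u L R F F') {Q : List ℕ} (hv : Vl (Gp NP TC) (Ce NW TC) Q)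
    (hl : ∃ l ∈ Q, lf (kap TC) F' l) (s : ℕ) : Ho M' (clB TS Q s) := by
  induction Q generalizing s with
  | nil =>
    obtain ⟨l, hl, -⟩ := hl
    exact absurd hl List.not_mem_nil
  | cons l Q ih =>
    show Ho M' (stB TS l (clB TS Q) s (a0 (l / 2)) (a1 (l / 2)) (a2 (l / 2)) (a3 (l / 2)) (a4 (l / 2)))
    refine ho_stB hM h hb (hv l List.mem_cons_self) ?_
    obtain ⟨l', h1, h2⟩ := hl
    rcases List.mem_cons.1 h1 with rfl | h1
    · left
      unfold lf at h2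
      exact h2
    · right
      exact fun s => ih (fun l hl => hv l (List.mem_cons_of_mem _ hl)) ⟨l', h1, h2⟩ s

end

/-- the class `C` contains all valid frames with the map, the centre and the numbers of `F` -/
def ClB (NW TC : ℕ) (C : Fr → Prop) (F : Fr) : Prop :=
  ∀ F', FOk (kap TC) (cxv NW TC) F' → F'.U = F.U → F'.T = F.T → F'.z = F.z → F'.σ = F.σ → C F'

theorem clB_cn {n NW TC : ℕ} {F : Fr} (h : CN n NW TC F) : ClB NW TC (CN n NW TC) F := fun F' h1 _ h3 h4 h5 =>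
  ⟨h1, fun q hq => by rw [h5, h3, h4]; exact h.2 q hq⟩

theorem clB_cq {Q : (ℂ → Set (Fin 6)) → Prop} {n NW TC : ℕ} {F : Fr} (h : CQ Q n NW TC F) :
    ClB NW TC (CQ Q n NW TC) F := fun F' h1 h2 h3 h4 h5 => ⟨clB_cn h.cn F' h1 h2 h3 h4 h5, by rw [h3]; exact h.q⟩

section
variable {NP NW TB TC TG TS : ℕ} {B : Tb NP NW TB TC} {F : Fr} {M : Md 2 NP NW (nbf 2 TB)} {C : Fr → Prop}

theorem imC_eq (t : Tabs (kap TC) (Gp NP TC) (Ce NW TC) (ptb TG)) {g cp x : ℕ} (hg : g < 12)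
    (h5 : Vl (Gp NP TC) (Ce NW TC) (pk x)) {π : Equiv.Perm (Fin 6)} (h2 : ∀ q < 6, pn π q = cpf cp q) :
    imC TG cp g x = ncl ((pk x).map (lm fun n => nc (pn π) (gn (ptb TG) g n))) := by
  unfold imC ncl pk
  rw [upk_map (gL TG cp g), List.map_map]
  refine List.map_congr_left fun l hl => ?_
  show gL TG cp g l = Nat.xor (lm (fun n => nc (pn π) (gn (ptb TG) g n)) l) 1
  rw [gL_eq]
  congr 1
  unfold lm
  rw [gB_eq t hg (h5 l hl)]
  congr 2
  have hw := wn_gn t hg (h5 l hl)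
  unfold nc
  congr 1
  unfold qc
  split_ifs
  · rfl
  · exact (h2 _ hw.va.col).symm

theorem lf_xor {κ : ℕ → ℤ × ℤ} {l : ℕ} (h : ¬ lf κ F l) : lf κ F (Nat.xor l 1) ∧ Nat.xor l 1 / 2 = l / 2 := by
  have e : Nat.xor l 1 = if l % 2 = 0 then l + 1 else l - 1 := by
    show l ^^^ 1 = _
    rcases Nat.even_or_odd l with h | h
    · rw [if_pos (Nat.even_iff.1 h), Nat.xor_one_of_even h]
    · rw [if_neg (by rw [Nat.odd_iff.1 h]; norm_num), Nat.xor_one_of_odd h]
  rw [e]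
  unfold lf at h ⊢
  split_ifs at h ⊢ with h1 h2 h3
  · omega
  · rw [show (l + 1) / 2 = l / 2 by omega]
    exact ⟨h, rfl⟩
  · rw [show (l - 1) / 2 = l / 2 by omega]
    exact ⟨not_not.1 h, rfl⟩
  · omega

/-- images at the moving class, for any model with the same atoms -/
theorem imB_ho' (t : Tabs (kap TC) (Gp NP TC) (Ce NW TC) (ptb TG)) (hS : BTab NP NW TC TS) (hM : Mdl B F M)
    {M' : Md 2 NP NW (nbf 2 TB)} (hM' : ∀ n, a1 n < NP → (av M' n ↔ av M n)) (hF : FOk (kap TC) (cxv NW TC) F)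
    (hC : ClB NW TC C F) {G : ℕ → Bool}
    (hG : ∀ g, G g = true → g < 12 ∧ Cl1 (kap TC) (ptb TG) C (Gp NP TC) (Ce NW TC) g) {PT NPM : ℕ}
    (hPT : OkPT C PT NPM) {tr : PTr}
    (ht : tr.All fun p => Dead (kap TC) C (pk p) ∧ Vl (Gp NP TC) (Ce NW TC) (pk p)) (c : ℕ) :
    Ho M' (imB G tr PT NPM TG TS c) := by
  unfold imB
  cases h1 : G (Nat.land c 15) && lb (Nat.land (Nat.shiftRight c 4) 255) NPM
  · rw [cond_false]; exact ho_trv M'
  · rw [cond_true]
    rw [Bool.and_eq_true, lb_iff] at h1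
    generalize Nat.land c 15 = g at h1
    generalize Nat.land (Nat.shiftRight c 4) 255 = i at h1
    obtain ⟨hg, hg1⟩ := hG g h1.1
    obtain ⟨π, h2, h3⟩ := hPT i h1.2
    generalize Nat.land (Nat.shiftRight PT (Nat.mul 18 i)) 262143 = cp at h2
    obtain ⟨h4, h5⟩ := PTr.get_all ht (Nat.land (Nat.shiftRight c 12) 1048575)
    generalize tr.get (Nat.land (Nat.shiftRight c 12) 1048575) = x at h4 h5
    have h7 := dead_col t (hg1 _ h4 h5) (h5.map fun n hn => wn_gn t hg hn) π h3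
    rw [map_lm_lm] at h7
    have h8 := vl_img t h5 hg π
    obtain ⟨hy, u, hu, s0, s1, L, R, S, e0, e1, rfl⟩ := hM
    obtain ⟨F', hF', hfr⟩ := exists_frB B.hNW hS hF S
    have h9 := h7 F' (hC F' hF' hfr.eU hfr.eT hfr.ez hfr.es)
    rw [not_forall] at h9
    obtain ⟨l, h9⟩ := h9
    rw [Classical.not_imp] at h9
    obtain ⟨hl, h9⟩ := h9
    obtain ⟨h10, h11⟩ := lf_xor h9
    rw [imC_eq t hg h5 h2]
    refine ho_clB hM' hS hfr (fun l' hl' => ?_) ⟨Nat.xor l 1,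
      List.mem_map_of_mem (f := fun l => Nat.xor l 1) hl, h10⟩ _
    obtain ⟨l0, hl0, rfl⟩ := List.mem_map.1 hl'
    have e2 : Nat.xor l0 1 / 2 = l0 / 2 := by
      by_cases h12 : lf (kap TC) F l0
      · have e : Nat.xor l0 1 = if l0 % 2 = 0 then l0 + 1 else l0 - 1 := by
          show l0 ^^^ 1 = _
          rcases Nat.even_or_odd l0 with h | h
          · rw [if_pos (Nat.even_iff.1 h), Nat.xor_one_of_even h]
          · rw [if_neg (by rw [Nat.odd_iff.1 h]; norm_num), Nat.xor_one_of_odd h]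
        rw [e]
        split_ifs with h13 <;> omega
      · exact (lf_xor h12).2
    rw [e2]
    exact h8 l0 hl0

/-- **the clauses of the images of dead patterns at the moving class hold in every model** -/
theorem imB_ho (t : Tabs (kap TC) (Gp NP TC) (Ce NW TC) (ptb TG)) (hS : BTab NP NW TC TS) (hM : Mdl B F M)
    (hF : FOk (kap TC) (cxv NW TC) F) (hC : ClB NW TC C F) {G : ℕ → Bool}
    (hG : ∀ g, G g = true → g < 12 ∧ Cl1 (kap TC) (ptb TG) C (Gp NP TC) (Ce NW TC) g) {PT NPM : ℕ}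
    (hPT : OkPT C PT NPM) {tr : PTr}
    (ht : tr.All fun p => Dead (kap TC) C (pk p) ∧ Vl (Gp NP TC) (Ce NW TC) (pk p)) (c : ℕ) :
    Ho M (imB G tr PT NPM TG TS c) := imB_ho' t hS hM (fun _ _ => Iff.rfl) hF hC hG hPT ht c

/-- **the same in the models with free atoms** -/
theorem imB_hoX (t : Tabs (kap TC) (Gp NP TC) (Ce NW TC) (ptb TG)) (hS : BTab NP NW TC TS) {XF : Fr → XV NW}
    (hM : MdlX B XF F M) (hF : FOk (kap TC) (cxv NW TC) F) (hC : ClB NW TC C F) {G : ℕ → Bool}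
    (hG : ∀ g, G g = true → g < 12 ∧ Cl1 (kap TC) (ptb TG) C (Gp NP TC) (Ce NW TC) g) {PT NPM : ℕ}
    (hPT : OkPT C PT NPM) {tr : PTr}
    (ht : tr.All fun p => Dead (kap TC) C (pk p) ∧ Vl (Gp NP TC) (Ce NW TC) (pk p)) (c : ℕ) :
    Ho M (imB G tr PT NPM TG TS c) := by
  obtain ⟨M0, X, h0, rfl⟩ := hM.base
  exact imB_ho' t hS h0 (fun n hn => xT_av (Or.inl hn)) hF hC hG hPT ht c

end

end Vale.Agent.P032.ImB
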