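import Vale.Agent.P032X.H892.Cen

/-!
# P032: several centres with the same time

For a finite family of centres `Z j` the letters of all circles `S(Z j)` in the directions `u + k`, `k < 6`, just
before and just after the time `u` are `JL u`, `JR u : J → Fin 6 → Option L6`; with the integer sectors of the
hulls they are `KL u`, `KR u`.

* `jl_succ`, `jr_succ`, `kl_succ`, `kr_succ` : the turn by 60 degrees,
* `runJ`, `runK` : induction over an interval of times; `runJF`, `runKF` : with the flag `some letter has changed`,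
* `no_closureJ` : the closure (box) form of the two-class argument for several centres.
-/

open Set Filter Topology Metric

noncomputable section

namespace Vale.Agent.P032.H892

open Vale.Agent.P032.Six Vale.Agent.P032.Words Vale.Agent.P032.S5.H767

/-- **Induction over an interval**, plain form -/
theorem run0 {S : Type} {σ σl σr : ℝ → S} {I : S → Prop} {a b : ℝ} (hab : a < b)
    (hl : ∀ u ∈ Ioc a b, ∀ᶠ v in 𝓝[<] u, σ v = σl u) (hr : ∀ u ∈ Ico a b, ∀ᶠ v in 𝓝[>] u, σ v = σr u)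
    (h0 : I (σr a)) (hstep : ∀ u ∈ Ioo a b, I (σl u) → I (σr u)) : I (σl b) := by
  have key := run (J := Empty) (Λ := Unit) (X := fun _ _ => univ) (s := σ)
    (sl := σl) (sr := σr) (I := fun _ s => I s) hab hl hr
    (fun _ _ => h0) (fun u hu h1 _ _ => hstep u hu (h1 (fun e => e.elim) ?_)) (fun e => e.elim) ?_
  · exact key
  · exact (Eventually.of_forall fun v j => j.elim).frequently
  · exact (Eventually.of_forall fun v j => j.elim).frequently

variable {J : Type} {U : Fin 6 → Set ℂ} {T : ℂ → Set (Fin 6)} {Z : J → ℂ}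

section
variable (U T Z)

/-- the letters just before `u` -/
def JL (u : ℝ) : J → Fin 6 → Option L6 := fun j k => CL U T (Z j) (u + k.val)

/-- the letters just after `u` -/
def JR (u : ℝ) : J → Fin 6 → Option L6 := fun j k => CR U T (Z j) (u + k.val)

/-- some letter changes at the time `u` -/
def ChgJ (u : ℝ) : Prop := JL U T Z u ≠ JR U T Z u

end

/-- the turn by 60 degrees -/
def shJ (s : J → Fin 6 → Option L6) : J → Fin 6 → Option L6 := fun j k => s j (k + 1)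

theorem fin6_succ (k : Fin 6) : ∃ m : ℤ, ((k + 1 : Fin 6).val : ℝ) = (k.val : ℝ) + 1 + 6 * (m : ℝ) := by
  have h : ∃ m : ℤ, ((k + 1 : Fin 6).val : ℤ) = (k.val : ℤ) + 1 + 6 * m := by
    fin_cases k
    · exact ⟨0, rfl⟩
    · exact ⟨0, rfl⟩
    · exact ⟨0, rfl⟩
    · exact ⟨0, rfl⟩
    · exact ⟨0, rfl⟩
    · exact ⟨-1, rfl⟩
  obtain ⟨m, hm⟩ := h
  exact ⟨m, by exact_mod_cast hm⟩

theorem jl_succ (C : ∀ j, Cn U T (Z j)) (u : ℝ) : JL U T Z (u + 1) = shJ (JL U T Z u) := by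
  funext j k
  show CL U T (Z j) (u + 1 + k.val) = CL U T (Z j) (u + ((k + 1 : Fin 6).val : ℝ))
  obtain ⟨m, hm⟩ := fin6_succ k
  have : u + ((k + 1 : Fin 6).val : ℝ) = u + 1 + k.val + 6 * m := by rw [hm]; ring
  rw [this, (C j).cl_per]

theorem jr_succ (C : ∀ j, Cn U T (Z j)) (u : ℝ) : JR U T Z (u + 1) = shJ (JR U T Z u) := by
  funext j k
  show CR U T (Z j) (u + 1 + k.val) = CR U T (Z j) (u + ((k + 1 : Fin 6).val : ℝ))
  obtain ⟨m, hm⟩ := fin6_succ k
  have : u + ((k + 1 : Fin 6).val : ℝ) = u + 1 + k.val + 6 * m := by rw [hm]; ring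
  rw [this, (C j).cr_per]

variable [Finite J]

theorem ev_leftJ (C : ∀ j, Cn U T (Z j)) (u : ℝ) :
    ∀ᶠ v in 𝓝[<] u, JR U T Z v = JL U T Z u ∧ JL U T Z v = JL U T Z u := by
  have h1 : ∀ᶠ v in 𝓝[<] u, ∀ j, ∀ k : Fin 6,
      CR U T (Z j) (v + k.val) = CL U T (Z j) (u + k.val) ∧
        CL U T (Z j) (v + k.val) = CL U T (Z j) (u + k.val) := by
    rw [eventually_all]
    intro j
    rw [eventually_all]
    intro k
    exact (Cn.tendsto_one_left u (k.val : ℝ)).eventually ((C j).ev_left (u + k.val))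
  filter_upwards [h1] with v hv
  exact ⟨funext fun j => funext fun k => (hv j k).1, funext fun j => funext fun k => (hv j k).2⟩

theorem ev_rightJ (C : ∀ j, Cn U T (Z j)) (u : ℝ) :
    ∀ᶠ v in 𝓝[>] u, JR U T Z v = JR U T Z u ∧ JL U T Z v = JR U T Z u := by
  have h1 : ∀ᶠ v in 𝓝[>] u, ∀ j, ∀ k : Fin 6,
      CR U T (Z j) (v + k.val) = CR U T (Z j) (u + k.val) ∧
        CL U T (Z j) (v + k.val) = CR U T (Z j) (u + k.val) := by
    rw [eventually_all]
    intro j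
    rw [eventually_all]
    intro k
    exact (Cn.tendsto_one_right u (k.val : ℝ)).eventually ((C j).ev_right (u + k.val))
  filter_upwards [h1] with v hv
  exact ⟨funext fun j => funext fun k => (hv j k).1, funext fun j => funext fun k => (hv j k).2⟩

/-- **Induction** for several centres. -/
theorem runJ (C : ∀ j, Cn U T (Z j)) {I : (J → Fin 6 → Option L6) → Prop} {a b : ℝ} (hab : a < b)
    (h0 : I (JR U T Z a)) (hstep : ∀ u ∈ Ioo a b, I (JL U T Z u) → I (JR U T Z u)) :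
    I (JL U T Z b) :=
  run0 (σ := fun v => JR U T Z v) (σl := fun v => JL U T Z v) (σr := fun v => JR U T Z v) (I := I) hab
    (fun u _ => (ev_leftJ C u).mono fun v hv => hv.1) (fun u _ => (ev_rightJ C u).mono fun v hv => hv.1)
    h0 hstep

theorem no_chgJ_right (C : ∀ j, Cn U T (Z j)) (u : ℝ) : ∀ᶠ v in 𝓝[>] u, ¬ ChgJ U T Z v := by
  filter_upwards [ev_rightJ C u] with v hv hc
  exact hc (by rw [hv.1, hv.2])

theorem no_chgJ_left (C : ∀ j, Cn U T (Z j)) (u : ℝ) : ∀ᶠ v in 𝓝[<] u, ¬ ChgJ U T Z v := by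
  filter_upwards [ev_leftJ C u] with v hv hc
  exact hc (by rw [hv.1, hv.2])

/-- letters stay constant if there is no change -/
theorem lettersJ_const (C : ∀ j, Cn U T (Z j)) {a b : ℝ} (h : ∀ v ∈ Ioo a b, ¬ ChgJ U T Z v) :
    ∀ u ∈ Ioc a b, JL U T Z u = JR U T Z a := by
  intro u hu
  refine runJ C (I := fun s => s = JR U T Z a) hu.1 rfl fun v hv hs => ?_
  have h1 := h v ⟨hv.1, lt_of_lt_of_le hv.2 hu.2⟩
  unfold ChgJ at h1
  rw [not_not] at h1
  rw [← h1]; exact hs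

theorem lettersJ_const' (C : ∀ j, Cn U T (Z j)) {a b : ℝ} (h : ∀ v ∈ Ioo a b, ¬ ChgJ U T Z v) :
    ∀ u ∈ Ioo a b, JR U T Z u = JR U T Z a := by
  intro u hu
  have h1 := h u hu
  unfold ChgJ at h1
  rw [not_not] at h1
  rw [← h1]; exact lettersJ_const C h u ⟨hu.1, hu.2.le⟩

/-- monitors `P` holds at some time of the open interval `(a, u)` -/
theorem flag_left {P : ℝ → Prop} {a u : ℝ} (hP : ∀ᶠ v in 𝓝[<] u, ¬ P v) :
    ∀ᶠ v in 𝓝[<] u, (∃ w ∈ Ioo a v, P w) = ∃ w ∈ Ioo a u, P w := by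
  obtain ⟨w, hw, hs⟩ := (mem_nhdsLT_iff_exists_Ioo_subset (a := u)).1 hP
  have hw : w < u := hw
  filter_upwards [Ioo_mem_nhdsLT hw] with v hv
  refine propext ⟨?_, ?_⟩
  · rintro ⟨x, hx, hc⟩
    exact ⟨x, ⟨hx.1, hx.2.trans hv.2⟩, hc⟩
  · rintro ⟨x, hx, hc⟩
    refine ⟨x, ⟨hx.1, ?_⟩, hc⟩
    by_contra hcon
    push Not at hcon
    exact hs ⟨lt_of_lt_of_le hv.1 hcon, hx.2⟩ hc

theorem flag_right {P : ℝ → Prop} {a u : ℝ} (hP : ∀ᶠ v in 𝓝[>] u, ¬ P v) :
    ∀ᶠ v in 𝓝[>] u, (∃ w ∈ Ioo a v, P w) = ∃ w ∈ Ioc a u, P w := by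
  obtain ⟨w, hw, hs⟩ := (mem_nhdsGT_iff_exists_Ioo_subset (a := u)).1 hP
  have hw : u < w := hw
  filter_upwards [Ioo_mem_nhdsGT hw] with v hv
  refine propext ⟨?_, ?_⟩
  · rintro ⟨x, hx, hc⟩
    refine ⟨x, ⟨hx.1, ?_⟩, hc⟩
    by_contra hcon
    push Not at hcon
    exact hs ⟨hcon, hx.2.trans hv.2⟩ hc
  · rintro ⟨x, hx, hc⟩
    exact ⟨x, ⟨hx.1, lt_of_le_of_lt hx.2 hv.1⟩, hc⟩

/-- **Induction with the flag** `some letter of some circle has changed since a`. -/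
theorem runJF (C : ∀ j, Cn U T (Z j)) {I : (J → Fin 6 → Option L6) → Prop → Prop} {a b : ℝ} (hab : a < b)
    (h0 : I (JR U T Z a) False)
    (hstep : ∀ u ∈ Ioo a b, I (JL U T Z u) (∃ v ∈ Ioo a u, ChgJ U T Z v) →
      I (JR U T Z u) (∃ v ∈ Ioc a u, ChgJ U T Z v)) :
    I (JL U T Z b) (∃ v ∈ Ioo a b, ChgJ U T Z v) := by
  refine run0 (S := (J → Fin 6 → Option L6) × Prop)
    (σ := fun u => (JR U T Z u, ∃ v ∈ Ioo a u, ChgJ U T Z v))
    (σl := fun u => (JL U T Z u, ∃ v ∈ Ioo a u, ChgJ U T Z v))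
    (σr := fun u => (JR U T Z u, ∃ v ∈ Ioc a u, ChgJ U T Z v)) (I := fun x => I x.1 x.2) hab ?_ ?_ ?_ hstep
  · intro u hu
    filter_upwards [ev_leftJ C u, flag_left (a := a) (no_chgJ_left C u)] with v h1 h2
    exact Prod.ext h1.1 h2
  · intro u hu
    filter_upwards [ev_rightJ C u, flag_right (a := a) (no_chgJ_right C u)] with v h1 h2
    exact Prod.ext h1.1 h2
  · have e : (∃ v ∈ Ioc a a, ChgJ U T Z v) = False := by simp
    show I (JR U T Z a) (∃ v ∈ Ioc a a, ChgJ U T Z v)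
    rw [e]; exact h0

/-- **Closure (box) form** of the two-class argument for several centres: if after the event at `u1` the letters
are in `V`, no later event before `u1 + 1` leaves `V`, and the turned letters before `u1` are not in `V`:
contradiction.  The first argument of `V` is the flag `some letter has changed in between`. -/
theorem no_closureJ (C : ∀ j, Cn U T (Z j)) {u1 : ℝ} {V : Prop → (J → Fin 6 → Option L6) → Prop}
    (h0 : V False (JR U T Z u1))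
    (hstep : ∀ u ∈ Ioo u1 (u1 + 1), V (∃ v ∈ Ioo u1 u, ChgJ U T Z v) (JL U T Z u) →
      V (∃ v ∈ Ioc u1 u, ChgJ U T Z v) (JR U T Z u))
    (hend : ∀ p, ¬ V p (shJ (JL U T Z u1))) : False := by
  have key := runJF C (I := fun x p => V p x) (show u1 < u1 + 1 by linarith) h0 hstep
  rw [jl_succ C] at key
  exact hend _ key

/-- **Box form**: the letters at every position stay in a set. -/
theorem no_boxJ (C : ∀ j, Cn U T (Z j)) {u1 : ℝ} {B : J → Fin 6 → Set (Option L6)}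
    (h0 : ∀ j k, JR U T Z u1 j k ∈ B j k)
    (hstep : ∀ u ∈ Ioo u1 (u1 + 1), (∀ j k, JL U T Z u j k ∈ B j k) → ∀ j k, JR U T Z u j k ∈ B j k)
    (hend : ∃ j k, JL U T Z u1 j (k + 1) ∉ B j k) : False := by
  obtain ⟨j, k, hjk⟩ := hend
  have key := runJ C (I := fun s => ∀ j k, s j k ∈ B j k) (show u1 < u1 + 1 by linarith) h0 hstep
  rw [jl_succ C] at key
  exact hjk (key j k)

/-! ### with the sectors of the hulls -/

/-- letters, integer sectors of the left ends, integer sectors of the right ends -/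
abbrev StC := (Fin 6 → Option L6) × (Fin 6 → ℤ) × (Fin 6 → ℤ)

section
variable (U T Z)

/-- letters and lifted sectors just before `u` -/
def KL (u : ℝ) : J → StC := fun j => (JL U T Z u j, fun c => ⌊(hl (Dr T (Z j) c)).1 - 1 / 2 - u⌋,
  fun c => ⌊(hl (Dr T (Z j) c)).2 - 1 / 2 - u⌋)

/-- letters and lifted sectors just after `u` -/
def KR (u : ℝ) : J → StC := fun j => (JR U T Z u j, fun c => ⌈(hl (Dr T (Z j) c)).1 - 1 / 2 - u⌉ - 1,
  fun c => ⌈(hl (Dr T (Z j) c)).2 - 1 / 2 - u⌉ - 1)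

end

/-- the turn by 60 degrees -/
def shK (s : J → StC) : J → StC :=
  fun j => (fun k => (s j).1 (k + 1), fun c => (s j).2.1 c - 1, fun c => (s j).2.2 c - 1)

omit [Finite J] in
theorem kl_succ (C : ∀ j, Cn U T (Z j)) (u : ℝ) : KL U T Z (u + 1) = shK (KL U T Z u) := by
  have e : ∀ x : ℝ, ⌊x - 1 / 2 - (u + 1)⌋ = ⌊x - 1 / 2 - u⌋ - 1 := by
    intro x
    have : x - 1 / 2 - (u + 1) = x - 1 / 2 - u - 1 := by ring
    rw [this, Int.floor_sub_one]
  funext j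
  refine Prod.ext ?_ (Prod.ext ?_ ?_)
  · exact congrFun (jl_succ C u) j
  · funext c; exact e _
  · funext c; exact e _

omit [Finite J] in
theorem kr_succ (C : ∀ j, Cn U T (Z j)) (u : ℝ) : KR U T Z (u + 1) = shK (KR U T Z u) := by
  have e : ∀ x : ℝ, ⌈x - 1 / 2 - (u + 1)⌉ - 1 = ⌈x - 1 / 2 - u⌉ - 1 - 1 := by
    intro x
    have : x - 1 / 2 - (u + 1) = x - 1 / 2 - u - 1 := by ring
    rw [this, Int.ceil_sub_one]
  funext j
  refine Prod.ext ?_ (Prod.ext ?_ ?_)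
  · exact congrFun (jr_succ C u) j
  · funext c; exact e _
  · funext c; exact e _

omit [Finite J] in
/-- every end moves by at most one sector -/
theorem stepK (u : ℝ) (j : J) (c : Fin 6) :
    ((KR U T Z u j).2.1 c = (KL U T Z u j).2.1 c ∨ (KR U T Z u j).2.1 c = (KL U T Z u j).2.1 c - 1) ∧
    ((KR U T Z u j).2.2 c = (KL U T Z u j).2.2 c ∨ (KR U T Z u j).2.2 c = (KL U T Z u j).2.2 c - 1) :=
  ⟨ceil_step _, ceil_step _⟩

theorem ev_leftK (C : ∀ j, Cn U T (Z j)) (u : ℝ) : ∀ᶠ v in 𝓝[<] u, KR U T Z v = KL U T Z u := by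
  have h2 : ∀ᶠ v in 𝓝[<] u, ∀ j : J, ∀ c : Fin 6,
      (⌊(hl (Dr T (Z j) c)).1 - 1 / 2 - v⌋ = ⌊(hl (Dr T (Z j) c)).1 - 1 / 2 - u⌋ ∧
        ⌈(hl (Dr T (Z j) c)).1 - 1 / 2 - v⌉ - 1 = ⌊(hl (Dr T (Z j) c)).1 - 1 / 2 - u⌋) ∧
      (⌊(hl (Dr T (Z j) c)).2 - 1 / 2 - v⌋ = ⌊(hl (Dr T (Z j) c)).2 - 1 / 2 - u⌋ ∧
        ⌈(hl (Dr T (Z j) c)).2 - 1 / 2 - v⌉ - 1 = ⌊(hl (Dr T (Z j) c)).2 - 1 / 2 - u⌋) := by
    rw [eventually_all]
    exact fun j => ev_zl T (Z j) u
  filter_upwards [ev_leftJ C u, h2] with v h1 h2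
  funext j
  refine Prod.ext (congrFun h1.1 j) (Prod.ext ?_ ?_)
  · funext c; exact (h2 j c).1.2
  · funext c; exact (h2 j c).2.2

theorem ev_rightK (C : ∀ j, Cn U T (Z j)) (u : ℝ) : ∀ᶠ v in 𝓝[>] u, KR U T Z v = KR U T Z u := by
  have h2 : ∀ᶠ v in 𝓝[>] u, ∀ j : J, ∀ c : Fin 6,
      (⌊(hl (Dr T (Z j) c)).1 - 1 / 2 - v⌋ = ⌈(hl (Dr T (Z j) c)).1 - 1 / 2 - u⌉ - 1 ∧
        ⌈(hl (Dr T (Z j) c)).1 - 1 / 2 - v⌉ - 1 = ⌈(hl (Dr T (Z j) c)).1 - 1 / 2 - u⌉ - 1) ∧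
      (⌊(hl (Dr T (Z j) c)).2 - 1 / 2 - v⌋ = ⌈(hl (Dr T (Z j) c)).2 - 1 / 2 - u⌉ - 1 ∧
        ⌈(hl (Dr T (Z j) c)).2 - 1 / 2 - v⌉ - 1 = ⌈(hl (Dr T (Z j) c)).2 - 1 / 2 - u⌉ - 1) := by
    rw [eventually_all]
    exact fun j => ev_zr T (Z j) u
  filter_upwards [ev_rightJ C u, h2] with v h1 h2
  funext j
  refine Prod.ext (congrFun h1.1 j) (Prod.ext ?_ ?_)
  · funext c; exact (h2 j c).1.2
  · funext c; exact (h2 j c).2.2

/-- **Induction** for several centres with hulls. -/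
theorem runK (C : ∀ j, Cn U T (Z j)) {I : (J → StC) → Prop} {a b : ℝ} (hab : a < b)
    (h0 : I (KR U T Z a)) (hstep : ∀ u ∈ Ioo a b, I (KL U T Z u) → I (KR U T Z u)) :
    I (KL U T Z b) :=
  run0 (σ := fun v => KR U T Z v) (σl := fun v => KL U T Z v) (σr := fun v => KR U T Z v) (I := I) hab
    (fun u _ => ev_leftK C u) (fun u _ => ev_rightK C u) h0 hstep

/-- **Induction with the flag**, with hulls. -/
theorem runKF (C : ∀ j, Cn U T (Z j)) {I : (J → StC) → Prop → Prop} {a b : ℝ} (hab : a < b)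
    (h0 : I (KR U T Z a) False)
    (hstep : ∀ u ∈ Ioo a b, I (KL U T Z u) (∃ v ∈ Ioo a u, ChgJ U T Z v) →
      I (KR U T Z u) (∃ v ∈ Ioc a u, ChgJ U T Z v)) :
    I (KL U T Z b) (∃ v ∈ Ioo a b, ChgJ U T Z v) := by
  refine run0 (S := (J → StC) × Prop)
    (σ := fun u => (KR U T Z u, ∃ v ∈ Ioo a u, ChgJ U T Z v))
    (σl := fun u => (KL U T Z u, ∃ v ∈ Ioo a u, ChgJ U T Z v))
    (σr := fun u => (KR U T Z u, ∃ v ∈ Ioc a u, ChgJ U T Z v)) (I := fun x => I x.1 x.2) hab ?_ ?_ ?_ hstep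
  · intro u hu
    filter_upwards [ev_leftK C u, flag_left (a := a) (no_chgJ_left C u)] with v h1 h2
    exact Prod.ext h1 h2
  · intro u hu
    filter_upwards [ev_rightK C u, flag_right (a := a) (no_chgJ_right C u)] with v h1 h2
    exact Prod.ext h1 h2
  · have e : (∃ v ∈ Ioc a a, ChgJ U T Z v) = False := by simp
    show I (KR U T Z a) (∃ v ∈ Ioc a a, ChgJ U T Z v)
    rw [e]; exact h0

/-- **Closure form** with hulls -/
theorem no_closureK (C : ∀ j, Cn U T (Z j)) {u1 : ℝ} {V : Prop → (J → StC) → Prop}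
    (h0 : V False (KR U T Z u1))
    (hstep : ∀ u ∈ Ioo u1 (u1 + 1), V (∃ v ∈ Ioo u1 u, ChgJ U T Z v) (KL U T Z u) →
      V (∃ v ∈ Ioc u1 u, ChgJ U T Z v) (KR U T Z u))
    (hend : ∀ p, ¬ V p (shK (KL U T Z u1))) : False := by
  have key := runKF C (I := fun x p => V p x) (show u1 < u1 + 1 by linarith) h0 hstep
  rw [kl_succ C] at key
  exact hend _ key

end Vale.Agent.P032.H892
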