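import Vale.Agent.P032X.H286.Tb
import Vale.Agent.P032X.H286.T73

/-!
# P032: light header of the certificate modules (73 points)

Only the engine and the tables are imported, nothing of the geometry: the queries of a certificate can be compiled
before (and independently of) the long chain of the static model.  `LtH` translates them into the queries `Qy`.

* `Qy`, `Qs`, `qs_nil`, `qs_split`, `qg73` : queries,
* `un`, `rc`, `ngs`, `stc`, `EZ` : copies of the functions of `H357.Run`, `H820.K.Pipe`.
-/

namespace Vale.Agent.P032.Lt

open Vale.Agent.P032.H820.K Vale.Agent.P032.H286.E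

/-- the table of neighbours of the model -/
def TBm : ℕ :=
  0xffffffffffff046fff00cfff036ffffffffffffffffffffffff044fff00bfff033ffffffffffffffffff045fff00afff00cfff048fffffffffffffffffffff042fff00afff046ffffffffffffffffff043fff009fff00bfff047fffffffffffffffffffff040fff009fff044045fffffffffffffff041fff008fff00afff042fffffffffffffffffffff03efff008ffffff043fffffffffffffff03ffff007fff009fff040fffffffffffffffffffff03cfff007008fff041fffffffffffffff03dfff006fff006fff03efffffffffffffffffffff03affffff007fff03ffffffffffffffff03bfff005fff005fff03cfffffffffffffffffffff038004fff006fff03dfffffffffffffff039fff035fff004fff03affffffffffffffffffffffff003fff005fff03bfffffffffffffff037fff032fff003fff038ffffffffffffffffffffffff048fff00cfff002fff034fffffffff034fff002fff004fff039fffffffffffffffffffff036fff002fff035ffffffffffffffffffffffff047fff00bfff001fff031fffffffff031fff001fff003fff037fffffffffffffffffffff033fff001fff032ffffffffffffffffffffffff02f02a00b00c02b012fffffffffffffffffffff02902e00a00b011030fff02fffffffffffff028fff00802d01000bfff00bfff02effffff027fff006fff00f02cfff02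bfff00bfff02d026fff004fff00effffffffffff030fff00b02502c002fff00dffffffffffffffffff029fff00902402500cfff030ffffffffffffffffff02802300900a02a02f029ffffffffffffffffff02202700800902e009fff028ffffffffffff021fff00602602d025fff009fff027ffffff020fff004fff02cffffff02afff009fff02601ffff002fff02bfff02affffff023fff007fff01f01efff00cfff029ffffffffffff022fff00701d02400a023028ffffffffffffffffff02101c007008007027022ffffffffffffffffff01b02000601f026007fff021ffffffffffff01afff004fff025024fff007fff020ffffff019fff002fff00cfff02401dfff005fff019ffffff018fff00afff023ffffff01cfff005fff01e01701d008fff022ffffffffffff01bfff00501600500601c021ffffffffffffffffff01a01501900400502001bffffffffffffffffff014fff00201e01f005fff01affffffffffff013fff012fff00c01701e003fff013ffffffffffff011fff00afff01d016fff003fff018fff017010fff008fff01cffffff015fff003fff00300f016006fff01bffffffffffff014fff01300e00300401501afffffffffffffffffffff00d018002003019014ffffffffffffffffffffffff03001100c00101800dffffffffffffffffff02ffff00a010017001fff012fff011ffffff02efff008fff01600ffff001fff001fff01002dfff006fff015ffffff00e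fff00dfff00102c00f004fff014ffffffffffffffffff01202b00100200e013ffffffffffff04803004602a00a02400001e00201803601203004702f04402e00902d00002c00102b03304602f04502904202300801d00001700c01102a04402904302804002700702600002500b00a02e04202804102203e01c00601600001002400902304002203f02103c02000501f00000002d00802703e02103d01b03a01500400f01e00001d00701c03c01b03b01a03801900300202c00002600602003a01a03901403500e01800101700001600501503801403701303203602b00c02500001f00401903501303400d01203301100b01000000f00300e03200d03100c00b00a009008007006005004003002001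

theorem tab73 : tabc 73 73 TBm TBe WN73 = true := by decide +kernel

/-- no model satisfies the clauses `e` -/
def Qy (e : List (List ℕ)) : Prop := ∀ M : Md 2 73 73 (nbf 2 TBm), (∀ c ∈ e, Ho M c) → False

/-- **a query from a certificate of the engine**, with further clauses of the model -/
theorem qg73 {e : List (List ℕ)} (gs : List ℕ) (fuel : ℕ) (cc : List ℕ)
    (h : echk 73 73 TBe WN73 false (e ++ gs.map (gen 2 73 73 TBm [])) fuel cc = true) : Qy e :=
  echk_qyg gs tab73 h

/-- a query with further units -/
def Qs (e : List (List ℕ)) (u : List ℕ) : Prop := Qy (e ++ u.map fun l => [l])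

theorem qs_nil {e : List (List ℕ)} (h : Qs e []) : Qy e := by
  unfold Qs at h
  rw [List.map_nil, List.append_nil] at h
  exact h

theorem lv_xor {NP NW : ℕ} {nbr : ℕ → ℕ → ℕ} (M : Md 2 NP NW nbr) (l : ℕ) : lv M l ∨ lv M (Nat.xor l 1) := by
  unfold lv
  rcases Nat.mod_two_eq_zero_or_one l with h | h
  · have e : Nat.xor l 1 = l + 1 := Nat.xor_one_of_even (Nat.even_iff.2 h)
    rw [e]
    have e1 : (l + 1) / 2 = l / 2 := by omega
    have e2 : (l + 1) % 2 = 1 := by omega
    rw [e1, if_pos h, if_neg (by omega)]
    exact em _
  · have e : Nat.xor l 1 = l - 1 := Nat.xor_one_of_odd (Nat.odd_iff.2 h)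
    rw [e]
    have e1 : (l - 1) / 2 = l / 2 := by omega
    rw [e1, if_neg (by omega), if_pos (by omega)]
    exact (em _).symm

/-- **two cases** -/
theorem qs_split {e : List (List ℕ)} {u : List ℕ} (l : ℕ) (h1 : Qs e (l :: u)) (h0 : Qs e (Nat.xor l 1 :: u)) :
    Qs e u := by
  intro M hM
  have key : ∀ l', lv M l' → ∀ c ∈ e ++ (l' :: u).map (fun l => [l]), Ho M c := by
    intro l' hl c hc
    rcases List.mem_append.1 hc with hc | hc
    · exact hM c (List.mem_append_left _ hc)
    · rw [List.map_cons] at hc
      rcases List.mem_cons.1 hc with rfl | hc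
      · exact ⟨l', List.mem_singleton_self _, hl⟩
      · exact hM c (List.mem_append_right _ hc)
  rcases lv_xor M l with h | h
  · exact h1 M (key _ h)
  · exact h0 M (key _ h)

/-! ### copies of functions -/

/-- the tick of the direction `m` in the reading `r` -/
def tk (r m : ℕ) : ℕ := bif Nat.beq r 0 then Nat.mul 2 m else
  bif Nat.beq r 3 then Nat.mod (Nat.add (Nat.mul 2 m) 2) 12 else Nat.succ (Nat.mul 2 m)

/-- the side in the reading `r` (times 2) -/
def sr (r : ℕ) : ℕ := bif Nat.beq (Nat.mod r 2) 0 then 2 else 0

/-- the reading of a state atom -/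
def rA (r kd c m k q : ℕ) : ℕ :=
  bif Nat.beq kd 12 then
    (bif Nat.beq r 0 then En 14 c m 0 q else bif Nat.beq r 1 then En 0 c (Nat.mul 2 m) 0 q else
      bif Nat.beq r 2 then En 12 c m 0 q else En 11 c m 0 q) else
  bif Nat.beq kd 13 then
    (bif Nat.beq r 0 then En 11 c m 0 q else bif Nat.beq r 1 then En 13 c m 0 q else
      bif Nat.beq r 2 then En 0 c (Nat.succ (Nat.mul 2 m)) 0 q else En 15 c m 0 q) else
  En kd c (tk r m) (Nat.add (sr r) k) q

/-- the reading of a state atom (number) -/
def rn (r n : ℕ) : ℕ :=
  rA r (Nat.mod n 16) (Nat.mod (Nat.div n 16) 4096) (Nat.mod (Nat.div n 65536) 256) (Nat.mod (Nat.div n 16777216) 8)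
    (Nat.div n 134217728)

/-- the reading of a state literal -/
def rd (r l : ℕ) : ℕ := Nat.add (Nat.mul 2 (rn r (Nat.div l 2))) (Nat.mod l 2)

/-- the reading of a clause -/
def rc (r : ℕ) (c : List ℕ) : List ℕ := c.map (rd r)

/-- the negated literal -/
def ngl (l : ℕ) : ℕ := bif Nat.beq (Nat.mod l 2) 0 then Nat.succ l else Nat.sub l 1

/-- the units of a list of literals -/
def un (P : List ℕ) : List (List ℕ) := P.map fun l => [l]

/-- the units of the negated literals -/
def ngs (C : List ℕ) : List (List ℕ) := C.map fun l => [ngl l]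

/-- an equality of two readings -/
def stc (v : ℕ) : List ℕ :=
  [ng (rn (Nat.mod v 4) (Nat.div v 16)), ps (rn (Nat.mod (Nat.div v 4) 4) (Nat.div v 16))]

/-- the clauses for the palette `Tz` of `z` and `z ∈ XX` -/
def EZ (Tz : ℕ) : List (List ℕ) :=
  [[En 4 0 0 0 0 * 2 + (bif Nat.testBit Tz 0 then 0 else 1)], [En 4 0 0 0 1 * 2 + (bif Nat.testBit Tz 1 then 0 else 1)],
   [En 4 0 0 0 2 * 2 + (bif Nat.testBit Tz 2 then 0 else 1)], [En 4 0 0 0 3 * 2 + (bif Nat.testBit Tz 3 then 0 else 1)],
   [En 4 0 0 0 4 * 2 + (bif Nat.testBit Tz 4 then 0 else 1)], [En 4 0 0 0 5 * 2 + (bif Nat.testBit Tz 5 then 0 else 1)],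
   [ps (En 6 0 0 0 0)]]

end Vale.Agent.P032.Lt
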